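import Vale.Agent.P117.MathlibUsed
attribute [-instance] ProperSMul.toContinuousSMul IsTopologicalTorsor.toContinuousSMul IdemSemiring.toCanonicallyOrderedAdd IdemSemiring.toMulLeftMono IdemSemiring.toMulRightMono AddQuantale.instAddLeftMono AddQuantale.instAddRightMono Quantale.instMulLeftMono Quantale.instMulRightMono FiniteDimensional.rclike_to_real IsScalarTower.complexToReal FiniteDimensional.complexToReal

set_option linter.all false

section

section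

open MeasureTheory Complex Set
open scoped ENNReal NNReal ContDiff FourierTransform SchwartzMap

namespace Vale.Agent.P117

abbrev E2 := EuclideanSpace ℝ (Fin 2)
abbrev E3 := EuclideanSpace ℝ (Fin 3)

/-- bounded, measurable, integrable functions -/
structure Adm {α : Type*} [MeasurableSpace α] (μ : Measure α) (F : α → ℂ) : Prop where
  meas : Measurable F
  int : Integrable F μ
  bdd : ∃ C : ℝ, ∀ x, ‖F x‖ ≤ C

/-- real-valued Lebesgue norm -/
noncomputable def nrm {α : Type*} [MeasurableSpace α] (p : ℝ≥0∞) (F : α → ℂ)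
    (μ : Measure α) : ℝ := (eLpNorm F p μ).toReal

/-- smooth, supported in [1/4,4], with derivatives up to order M bounded by A -/
structure Bump (M : ℕ) (A : ℝ) (θ : ℝ → ℂ) : Prop where
  smooth : ContDiff ℝ ∞ θ
  supp : ∀ t, θ t ≠ 0 → t ∈ Icc (1/4 : ℝ) 4
  bound : ∀ i ≤ M, ∀ t, ‖iteratedDeriv i θ t‖ ≤ A

/-- two-dimensional kernel as a function of the squared distance q -/
noncomputable def k2 (Λ : ℝ) (θ : ℝ → ℂ) (q : ℝ) : ℂ :=
  ∫ t in Ioi (0:ℝ), θ (t / Λ) / Λ * cexp (-2 * Real.pi * I * t) * (I / (2 * t)) *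
    cexp (-Real.pi * I * q / (2 * t))

/-- three-dimensional kernel as a function of the squared distance q -/
noncomputable def k3 (Λ : ℝ) (θ : ℝ → ℂ) (q : ℝ) : ℂ :=
  ∫ t in Ioi (0:ℝ), θ (t / Λ) / Λ * cexp (-2 * Real.pi * I * t) *
    (I / (2 * t)) ^ (3 / 2 : ℂ) * cexp (-Real.pi * I * q / (2 * t))

/-- the multiplier as a function of q = |xi|^2 -/
noncomputable def mult (Λ : ℝ) (θ : ℝ → ℂ) (q : ℝ) : ℂ :=
  ∫ t in Ioi (0:ℝ), θ (t / Λ) / Λ * cexp (2 * Real.pi * I * t * (q - 1))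

/-- bilinear form in the plane -/
noncomputable def B2 (Λ : ℝ) (θ : ℝ → ℂ) (f g : ℝ × ℝ → ℂ) : ℂ :=
  ∫ x : ℝ × ℝ, ∫ y : ℝ × ℝ, k2 Λ θ ((x.1 - y.1) ^ 2 + (x.2 - y.2) ^ 2) * f y * g x

/-- cylindrical projection -/
noncomputable def cyl (x : E3) : ℝ × ℝ := (Real.sqrt (x 0 ^ 2 + x 1 ^ 2), x 2)

/-- azimuthal phase e^{i beta} -/
noncomputable def ph (x : E3) : ℂ := ((x 0 : ℂ) + I * (x 1 : ℂ)) / (Real.sqrt (x 0 ^ 2 + x 1 ^ 2) : ℂ)

/-- image of Lebesgue measure of R^3 in the half plane: 2 pi r dr dz on r > 0 -/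
noncomputable def nu : Measure (ℝ × ℝ) :=
  (volume.restrict {p : ℝ × ℝ | 0 < p.1}).withDensity (fun p => ENNReal.ofReal (2 * Real.pi * p.1))

/-- three-dimensional form with angular momentum m -/
noncomputable def Form3 (k : ℝ → ℂ) (m : ℤ) (F G : ℝ × ℝ → ℂ) : ℂ :=
  ∫ x : E3, ∫ y : E3, k (‖x - y‖ ^ 2) * (F (cyl y) * ph y ^ m) * (G (cyl x) * ph x ^ (-m))

/-- angular average of a kernel -/
noncomputable def angK (k : ℝ → ℂ) (m : ℤ) (r s z w : ℝ) : ℂ :=
  ∫ α in (-Real.pi)..Real.pi, k (r ^ 2 + s ^ 2 - 2 * r * s * Real.cos α + (z - w) ^ 2) *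
    (Real.cos (m * α) : ℂ)

/-- product weight kernel of a tube of width W, length L, slope c -/
noncomputable def tube (W L c : ℝ) (x : ℝ × ℝ) : ℝ :=
  (W * L)⁻¹ * (1 + ((x.1 + c * x.2) / W) ^ 2)⁻¹ * (1 + (x.2 / L) ^ 2)⁻¹

/-- clipped node and slope -/
noncomputable def node (N : ℝ) (j : ℤ) : ℝ := max (-(19/20)) (min (19/20) ((j:ℝ) / N))
noncomputable def slope (N : ℝ) (j : ℤ) : ℝ :=
  - node N j / Real.sqrt (1 - node N j ^ 2)

end Vale.Agent.P117
end
end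

section

section

open MeasureTheory Complex Set Filter Topology
open scoped ENNReal NNReal ContDiff FourierTransform SchwartzMap

namespace Vale.Agent.P117

section bump
variable {M : ℕ} {A : ℝ} {θ : ℝ → ℂ}

theorem Bump.norm_le (h : Bump M A θ) (t : ℝ) : ‖θ t‖ ≤ A := by
  simpa using h.bound 0 (Nat.zero_le _) t

theorem Bump.nonneg (h : Bump M A θ) : 0 ≤ A := (norm_nonneg _).trans (h.norm_le 0)

theorem Bump.mono {M' : ℕ} {A' : ℝ} (h : Bump M A θ) (hM : M' ≤ M) (hA : A ≤ A') :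
    Bump M' A' θ :=
  ⟨h.smooth, h.supp, fun i hi t => (h.bound i (hi.trans hM) t).trans hA⟩

theorem Bump.eq_zero (h : Bump M A θ) {t : ℝ} (ht : t ∉ Icc (1/4 : ℝ) 4) : θ t = 0 := by
  by_contra h0
  exact ht (h.supp t h0)

theorem Bump.tsupport_subset (h : Bump M A θ) : tsupport θ ⊆ Icc (1/4 : ℝ) 4 := by
  apply closure_minimal _ isClosed_Icc
  intro t ht
  exact h.supp t ht

theorem Bump.hasCompactSupport (h : Bump M A θ) : HasCompactSupport θ :=
  isCompact_Icc.of_isClosed_subset (isClosed_tsupport _) h.tsupport_subset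

theorem Bump.continuous (h : Bump M A θ) : Continuous θ := h.smooth.continuous

theorem Bump.integrable (h : Bump M A θ) : Integrable θ :=
  h.continuous.integrable_of_hasCompactSupport h.hasCompactSupport

theorem Bump.iteratedDeriv_support (h : Bump M A θ) (n : ℕ) {t : ℝ} (ht : t ∉ Icc (1/4 : ℝ) 4) :
    iteratedDeriv n θ t = 0 := by
  have h1 : t ∉ tsupport θ := fun h2 => ht (h.tsupport_subset h2)
  have h3 : θ =ᶠ[𝓝 t] 0 := notMem_tsupport_iff_eventuallyEq.1 h1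
  have := Filter.EventuallyEq.iteratedDeriv_eq n h3
  rw [this]
  simp

theorem Bump.hasCompactSupport_iteratedDeriv (h : Bump M A θ) (n : ℕ) :
    HasCompactSupport (iteratedDeriv n θ) := by
  have h1 : tsupport (iteratedDeriv n θ) ⊆ Icc (1/4 : ℝ) 4 := by
    apply closure_minimal _ isClosed_Icc
    intro t ht
    by_contra h0
    exact ht (h.iteratedDeriv_support n h0)
  exact isCompact_Icc.of_isClosed_subset (isClosed_tsupport _) h1

theorem Bump.continuous_iteratedDeriv (h : Bump M A θ) (n : ℕ) :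
    Continuous (iteratedDeriv n θ) :=
  h.smooth.continuous_iteratedDeriv n (by exact_mod_cast le_top)

theorem Bump.integral_norm_le (h : Bump M A θ) (n : ℕ) (hn : n ≤ M) :
    ∫ t, ‖iteratedDeriv n θ t‖ ≤ 4 * A := by
  have h1 : ∫ t, ‖iteratedDeriv n θ t‖ = ∫ t in Icc (1/4 : ℝ) 4, ‖iteratedDeriv n θ t‖ := by
    rw [setIntegral_eq_integral_of_forall_compl_eq_zero]
    intro t ht
    rw [h.iteratedDeriv_support n ht, norm_zero]
  rw [h1]
  have h2 := norm_setIntegral_le_of_norm_le_const (μ := volume) (s := Icc (1/4 : ℝ) 4)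
    (f := fun t => ‖iteratedDeriv n θ t‖) (C := A) (by simp) (by
      intro t _
      rw [norm_norm]
      exact h.bound n hn t)
  have h3 : volume.real (Icc (1/4 : ℝ) 4) = 15/4 := by
    rw [Real.volume_real_Icc]; norm_num
  rw [h3] at h2
  have h4 := le_trans (le_abs_self _) h2
  nlinarith [h.nonneg]

/-- the profile of the multiplier -/
noncomputable def Th (θ : ℝ → ℂ) (v : ℝ) : ℂ := ∫ τ : ℝ, θ τ * cexp (2 * Real.pi * I * τ * v)

theorem Th_eq_fourier (θ : ℝ → ℂ) (v : ℝ) : Th θ v = 𝓕 θ (-v) := by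
  rw [Real.fourier_real_eq_integral_exp_smul]
  unfold Th
  congr 1
  ext τ
  rw [smul_eq_mul, mul_comm]
  congr 2
  push_cast
  ring

theorem integral_Ioi_eq (h : Bump M A θ) {Λ : ℝ} (hΛ : 0 < Λ) (G : ℝ → ℂ) :
    ∫ t in Ioi (0:ℝ), θ (t / Λ) / Λ * G t = ∫ τ : ℝ, θ τ * G (Λ * τ) := by
  rw [setIntegral_eq_integral_of_forall_compl_eq_zero]
  · have := MeasureTheory.Measure.integral_comp_mul_left (fun t => θ (t / Λ) / Λ * G t) Λ
    rw [abs_of_pos (inv_pos.2 hΛ)] at this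
    have h2 : ∫ (y : ℝ), θ (y / Λ) / Λ * G y = Λ • ∫ x, θ (Λ * x / Λ) / Λ * G (Λ * x) := by
      rw [this, smul_smul, mul_inv_cancel₀ hΛ.ne', one_smul]
    rw [h2, ← integral_smul]
    congr 1
    ext τ
    rw [mul_div_cancel_left₀ _ hΛ.ne', Complex.real_smul]
    have : (Λ : ℂ) ≠ 0 := by exact_mod_cast hΛ.ne'
    field_simp
  · intro t ht
    have ht' : t ≤ 0 := not_lt.1 ht
    have : θ (t / Λ) = 0 := by
      apply h.eq_zero
      intro h1
      have := h1.1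
      have h2 : t / Λ ≤ 0 := div_nonpos_of_nonpos_of_nonneg ht' hΛ.le
      linarith
    rw [this]; simp

theorem mult_eq (h : Bump M A θ) {Λ : ℝ} (hΛ : 0 < Λ) (q : ℝ) :
    mult Λ θ q = Th θ (Λ * (q - 1)) := by
  unfold mult Th
  rw [integral_Ioi_eq h hΛ (fun t => cexp (2 * Real.pi * I * t * (q - 1)))]
  congr 1
  ext τ
  congr 2
  push_cast
  ring

theorem norm_Th_le (h : Bump M A θ) (v : ℝ) (n : ℕ) (hn : n ≤ M) :
    |v| ^ n * ‖Th θ v‖ ≤ 4 * A := by
  have h1 : 𝓕 (iteratedDeriv n θ) (-v) = (2 * Real.pi * I * ((-v : ℝ) : ℂ)) ^ n • 𝓕 θ (-v) := by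
    rw [Real.fourier_iteratedDeriv (N := ⊤) h.smooth]
    · intro m hm
      exact (h.continuous_iteratedDeriv m).integrable_of_hasCompactSupport
        (h.hasCompactSupport_iteratedDeriv m)
    · exact le_top
  have h2 : ‖𝓕 (iteratedDeriv n θ) (-v)‖ ≤ ∫ t, ‖iteratedDeriv n θ t‖ :=
    VectorFourier.norm_fourierIntegral_le_integral_norm _ _ _ _ _
  rw [h1, norm_smul, norm_pow, ← Th_eq_fourier] at h2
  have h3 : ‖(2 * Real.pi * I * ((-v : ℝ) : ℂ))‖ = 2 * Real.pi * |v| := by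
    simp [abs_of_pos Real.pi_pos]
  rw [h3] at h2
  have h4 : |v| ^ n ≤ (2 * Real.pi * |v|) ^ n := by
    apply pow_le_pow_left₀ (abs_nonneg _)
    nlinarith [Real.pi_gt_three, abs_nonneg v]
  calc |v| ^ n * ‖Th θ v‖ ≤ (2 * Real.pi * |v|) ^ n * ‖Th θ v‖ := by gcongr
    _ ≤ _ := h2.trans (h.integral_norm_le n hn)

theorem norm_Th_le' (h : Bump M A θ) (v : ℝ) :
    ‖Th θ v‖ ≤ 2 ^ M * 8 * A * (1 + |v|) ^ (-(M:ℝ)) := by
  have h0 := norm_Th_le h v 0 (Nat.zero_le _)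
  have h1 := norm_Th_le h v M le_rfl
  have hpos : (0:ℝ) < 1 + |v| := by positivity
  rw [Real.rpow_neg hpos.le, Real.rpow_natCast, ← div_eq_mul_inv, le_div_iff₀ (by positivity)]
  have h2 : (1 + |v|) ^ M ≤ 2 ^ M * (1 + |v| ^ M) := by
    rcases le_total |v| 1 with h3 | h3
    · calc (1 + |v|) ^ M ≤ 2 ^ M := pow_le_pow_left₀ hpos.le (by linarith) _
        _ ≤ _ := by
          have : 0 ≤ |v| ^ M := by positivity
          have : (0:ℝ) < 2 ^ M := by positivity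
          nlinarith
    · calc (1 + |v|) ^ M ≤ (2 * |v|) ^ M := pow_le_pow_left₀ hpos.le (by linarith) _
        _ = 2 ^ M * |v| ^ M := by rw [mul_pow]
        _ ≤ _ := by
          have : (0:ℝ) < 2 ^ M := by positivity
          nlinarith
  calc ‖Th θ v‖ * (1 + |v|) ^ M ≤ ‖Th θ v‖ * (2 ^ M * (1 + |v| ^ M)) := by gcongr
    _ = 2 ^ M * (‖Th θ v‖ + |v| ^ M * ‖Th θ v‖) := by ring
    _ ≤ 2 ^ M * (4 * A + 4 * A) := by
      gcongr
      simpa using h0
    _ = _ := by ring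

end bump

theorem T02_mult_bound (M : ℕ) : ∃ C : ℝ, 0 ≤ C ∧ ∀ (Λ : ℝ), 0 < Λ → ∀ (A : ℝ) (θ : ℝ → ℂ),
    Bump M A θ → ∀ q : ℝ, ‖mult Λ θ q‖ ≤ C * A * (1 + |Λ * (q - 1)|) ^ (-(M:ℝ)) := by
  refine ⟨2 ^ M * 8, by positivity, ?_⟩
  intro Λ hΛ A θ h q
  rw [mult_eq h hΛ]
  exact norm_Th_le' h _

theorem continuous_Th {M : ℕ} {A : ℝ} {θ : ℝ → ℂ} (h : Bump M A θ) : Continuous (Th θ) := by
  have : Th θ = fun v => 𝓕 θ (-v) := by ext v; exact Th_eq_fourier θ v
  rw [this]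
  exact (VectorFourier.fourierIntegral_continuous Real.continuous_fourierChar
    (by exact continuous_inner) h.integrable).comp continuous_neg

section kernel
variable {V : Type*} [NormedAddCommGroup V] [InnerProductSpace ℝ V] [FiniteDimensional ℝ V]
  [MeasurableSpace V] [BorelSpace V]
variable {M : ℕ} {A : ℝ} {θ : ℝ → ℂ}

theorem norm_mult_le (h : Bump 4 A θ) {Λ : ℝ} (hΛ : 0 < Λ) {s : ℝ} (hs : 0 ≤ s) :
    ‖mult Λ θ s‖ ≤ 128 * A * (min 1 Λ / 3) ^ (-(4:ℝ)) * (1 + s) ^ (-(4:ℝ)) := by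
  rw [mult_eq h hΛ]
  have h1 := norm_Th_le' h (Λ * (s - 1))
  have hc : 0 < min 1 Λ := lt_min one_pos hΛ
  have h2 : min 1 Λ / 3 * (1 + s) ≤ 1 + |Λ * (s - 1)| := by
    rw [abs_mul, abs_of_pos hΛ]
    rcases le_total s 2 with h3 | h3
    · have : min 1 Λ ≤ 1 := min_le_left _ _
      have : 0 ≤ Λ * |s - 1| := by positivity
      nlinarith
    · have : min 1 Λ ≤ Λ := min_le_right _ _
      have h4 : |s - 1| = s - 1 := abs_of_nonneg (by linarith)
      rw [h4]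
      nlinarith
  have h3 : (1 + |Λ * (s - 1)|) ^ (-((4:ℕ):ℝ)) ≤ (min 1 Λ / 3 * (1 + s)) ^ (-(4:ℝ)) := by
    push_cast
    apply Real.rpow_le_rpow_of_nonpos (by positivity) h2 (by norm_num)
  rw [Real.mul_rpow (by positivity) (by positivity)] at h3
  have h5 : (2:ℝ) ^ 4 * 8 * A = 128 * A := by ring
  rw [h5] at h1
  calc ‖Th θ (Λ * (s - 1))‖ ≤ 128 * A * (1 + |Λ * (s - 1)|) ^ (-((4:ℕ):ℝ)) := h1
    _ ≤ 128 * A * ((min 1 Λ / 3) ^ (-(4:ℝ)) * (1 + s) ^ (-(4:ℝ))) := by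
      gcongr
      have := h.nonneg
      positivity
    _ = _ := by ring

theorem continuous_mult (h : Bump M A θ) {Λ : ℝ} (hΛ : 0 < Λ) : Continuous (mult Λ θ) := by
  have : mult Λ θ = fun q => Th θ (Λ * (q - 1)) := by ext q; exact mult_eq h hΛ q
  rw [this]
  exact (continuous_Th h).comp (by fun_prop)

theorem integrable_mult (hV : Module.finrank ℝ V < 8) (h : Bump 4 A θ) {Λ : ℝ} (hΛ : 0 < Λ) :
    Integrable (fun ξ : V => mult Λ θ (‖ξ‖ ^ 2)) := by
  have h1 : Integrable (fun ξ : V => 128 * A * (min 1 Λ / 3) ^ (-(4:ℝ)) *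
      ((1:ℝ) + ‖ξ‖ ^ 2) ^ (-(8:ℝ) / 2)) := by
    apply Integrable.const_mul
    apply integrable_rpow_neg_one_add_norm_sq
    exact_mod_cast hV
  refine h1.mono' ((continuous_mult h hΛ).comp (by fun_prop)).aestronglyMeasurable ?_
  filter_upwards with ξ
  have := norm_mult_le h hΛ (sq_nonneg ‖ξ‖)
  norm_num at this ⊢
  exact this

/-- kernel in dimension d -/
noncomputable def kd (d : ℝ) (Λ : ℝ) (θ : ℝ → ℂ) (q : ℝ) : ℂ :=
  ∫ t in Ioi (0:ℝ), θ (t / Λ) / Λ * (cexp (-2 * Real.pi * I * t) * (I / (2 * t)) ^ ((d / 2 : ℝ) : ℂ) *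
    cexp (-Real.pi * I * q / (2 * t)))

theorem gauss_aux (h : Bump 4 A θ) {Λ : ℝ} (hΛ : 0 < Λ) (x : V) {ε : ℝ} (hε : 0 < ε) :
    ∫ ξ : V, cexp (-Real.pi * ε * ‖ξ‖ ^ 2) * (mult Λ θ (‖ξ‖ ^ 2) *
      cexp (2 * Real.pi * I * (inner ℝ x ξ : ℝ))) =
    ∫ τ : ℝ, θ τ * (cexp (-2 * Real.pi * I * (Λ * τ)) *
      ((Real.pi : ℂ) / (Real.pi * (ε - 2 * I * (Λ * τ)))) ^ ((Module.finrank ℝ V / 2 : ℝ) : ℂ) *
      cexp (-(Real.pi * ‖x‖ ^ 2 / (ε - 2 * I * (Λ * τ))))) := by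
  let H : V → ℝ → ℂ := fun ξ τ => θ τ * (cexp (-2 * Real.pi * I * (Λ * τ)) *
    cexp (-(Real.pi * (ε - 2 * I * (Λ * τ))) * ‖ξ‖ ^ 2 + (2 * Real.pi * I) * (inner ℝ x ξ : ℝ)))
  have hL : ∀ ξ : V, cexp (-Real.pi * ε * ‖ξ‖ ^ 2) * (mult Λ θ (‖ξ‖ ^ 2) *
      cexp (2 * Real.pi * I * (inner ℝ x ξ : ℝ))) = ∫ τ : ℝ, H ξ τ := by
    intro ξ
    rw [mult_eq h hΛ]
    unfold Th
    rw [← integral_mul_const, ← integral_const_mul]
    congr 1
    ext τ
    simp only [H]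
    have : cexp (-Real.pi * ε * ‖ξ‖ ^ 2) * (θ τ * cexp (2 * Real.pi * I * τ * ((Λ * (‖ξ‖ ^ 2 - 1) : ℝ) : ℂ)) *
      cexp (2 * Real.pi * I * (inner ℝ x ξ : ℝ))) = θ τ * (cexp (-Real.pi * ε * ‖ξ‖ ^ 2) *
        cexp (2 * Real.pi * I * τ * ((Λ * (‖ξ‖ ^ 2 - 1) : ℝ) : ℂ)) *
      cexp (2 * Real.pi * I * (inner ℝ x ξ : ℝ))) := by ring
    rw [this]
    congr 1
    rw [← Complex.exp_add, ← Complex.exp_add, ← Complex.exp_add]
    congr 1
    push_cast
    ring
  simp_rw [hL]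
  have hint : Integrable (Function.uncurry H) (volume.prod volume) := by
    have h1 : Integrable (fun ξ : V => Real.exp (-(Real.pi * ε) * ‖ξ‖ ^ 2)) := by
      have := GaussianFourier.integrable_cexp_neg_mul_sq_norm_add (V := V) (b := ((Real.pi * ε : ℝ) : ℂ))
        (by simp only [ofReal_re]; positivity) 0 0
      have h2 := this.norm
      refine h2.congr ?_
      filter_upwards with ξ
      rw [Complex.norm_exp]
      congr 1
      have : (-((Real.pi * ε : ℝ) : ℂ) * (‖ξ‖:ℂ) ^ 2 + 0 * ((inner ℝ (0:V) ξ : ℝ) : ℂ)) =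
        ((-(Real.pi * ε) * ‖ξ‖ ^ 2 : ℝ) : ℂ) := by push_cast; ring
      rw [this, ofReal_re]
    have h2 : Integrable (fun p : V × ℝ => Real.exp (-(Real.pi * ε) * ‖p.1‖ ^ 2) * ‖θ p.2‖)
      (volume.prod volume) := h1.mul_prod h.integrable.norm
    refine h2.mono' ?_ ?_
    · apply Continuous.aestronglyMeasurable
      simp only [H]
      have := h.continuous
      fun_prop
    · filter_upwards with p
      simp only [Function.uncurry, H]
      rw [norm_mul, norm_mul, Complex.norm_exp, Complex.norm_exp, mul_comm]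
      have e1 : (-2 * Real.pi * I * (Λ * p.2) : ℂ).re = 0 := by
        have : (-2 * Real.pi * I * (Λ * p.2) : ℂ) = ((-2 * Real.pi * (Λ * p.2) : ℝ) : ℂ) * I := by
          push_cast; ring
        rw [this, re_ofReal_mul, I_re, mul_zero]
      have e2 : (-(Real.pi * (ε - 2 * I * (Λ * p.2))) * ‖p.1‖ ^ 2 +
          (2 * Real.pi * I) * (inner ℝ x p.1 : ℝ) : ℂ).re = -(Real.pi * ε) * ‖p.1‖ ^ 2 := by
        have : (-(Real.pi * (ε - 2 * I * (Λ * p.2))) * ‖p.1‖ ^ 2 +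
          (2 * Real.pi * I) * (inner ℝ x p.1 : ℝ) : ℂ) = ((-(Real.pi * ε) * ‖p.1‖ ^ 2 : ℝ) : ℂ) +
          ((2 * Real.pi * Λ * p.2 * ‖p.1‖ ^ 2 + 2 * Real.pi * (inner ℝ x p.1) : ℝ) : ℂ) * I := by
          push_cast; ring
        rw [this, add_re, ofReal_re, re_ofReal_mul, I_re, mul_zero, add_zero]
      rw [e1, e2, Real.exp_zero, one_mul]
  rw [integral_integral_swap hint]
  congr 1
  ext τ
  simp only [H]
  rw [integral_const_mul, integral_const_mul]
  have hb : 0 < ((Real.pi : ℂ) * (ε - 2 * I * (Λ * τ))).re := by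
    have : ((Real.pi : ℂ) * (ε - 2 * I * (Λ * τ))) = ((Real.pi * ε : ℝ) : ℂ) +
      ((- (2 * Real.pi * Λ * τ) : ℝ) : ℂ) * I := by push_cast; ring
    rw [this, add_re, ofReal_re, re_ofReal_mul, I_re, mul_zero, add_zero]
    positivity
  rw [GaussianFourier.integral_cexp_neg_mul_sq_norm_add hb]
  have hne : (ε - 2 * I * (Λ * τ) : ℂ) ≠ 0 := by
    intro h0
    rw [h0] at hb
    simp at hb
  have hpi : (Real.pi : ℂ) ≠ 0 := by exact_mod_cast Real.pi_ne_zero
  have e3 : (2 * Real.pi * I) ^ 2 * (‖x‖:ℂ) ^ 2 / (4 * (Real.pi * (ε - 2 * I * (Λ * τ)))) =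
    -(Real.pi * ‖x‖ ^ 2 / (ε - 2 * I * (Λ * τ))) := by
    field_simp
    ring_nf
    rw [I_sq]
    ring
  rw [e3]
  have e4 : ((Module.finrank ℝ V : ℂ) / 2) = ((Module.finrank ℝ V / 2 : ℝ) : ℂ) := by push_cast; ring
  rw [e4]
  ring

theorem kd_eq (hV : Module.finrank ℝ V < 8) (h : Bump 4 A θ) {Λ : ℝ} (hΛ : 0 < Λ) (x : V) :
    kd (Module.finrank ℝ V) Λ θ (‖x‖ ^ 2) =
      ∫ ξ : V, mult Λ θ (‖ξ‖ ^ 2) * cexp (2 * Real.pi * I * (inner ℝ x ξ : ℝ)) := by
  set d : ℝ := (Module.finrank ℝ V : ℝ) with hd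
  let u : ℕ → ℝ := fun n => 1 / ((n:ℝ) + 1)
  have hu : Tendsto u atTop (𝓝 0) := tendsto_one_div_add_atTop_nhds_zero_nat
  have hu0 : ∀ n, 0 < u n := fun n => by simp only [u]; positivity
  have hm := integrable_mult hV h hΛ (V := V)
  have T1 : Tendsto (fun n => ∫ ξ : V, cexp (-Real.pi * (u n) * ‖ξ‖ ^ 2) * (mult Λ θ (‖ξ‖ ^ 2) *
      cexp (2 * Real.pi * I * (inner ℝ x ξ : ℝ)))) atTop
      (𝓝 (∫ ξ : V, mult Λ θ (‖ξ‖ ^ 2) * cexp (2 * Real.pi * I * (inner ℝ x ξ : ℝ)))) := by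
    refine tendsto_integral_of_dominated_convergence (fun ξ => ‖mult Λ θ (‖ξ‖ ^ 2)‖) ?_ hm.norm ?_ ?_
    · intro n
      apply Continuous.aestronglyMeasurable
      have := continuous_mult h hΛ
      fun_prop
    · intro n
      filter_upwards with ξ
      rw [norm_mul, norm_mul, Complex.norm_exp, Complex.norm_exp]
      have e1 : (2 * Real.pi * I * (inner ℝ x ξ : ℝ) : ℂ).re = 0 := by
        have : (2 * Real.pi * I * (inner ℝ x ξ : ℝ) : ℂ) = ((2 * Real.pi * (inner ℝ x ξ) : ℝ) : ℂ) * I := by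
          push_cast; ring
        rw [this, re_ofReal_mul, I_re, mul_zero]
      have e2 : (-Real.pi * (u n) * ‖ξ‖ ^ 2 : ℂ).re = -Real.pi * u n * ‖ξ‖ ^ 2 := by
        have : (-Real.pi * (u n) * ‖ξ‖ ^ 2 : ℂ) = ((-Real.pi * u n * ‖ξ‖ ^ 2 : ℝ) : ℂ) := by push_cast; ring
        rw [this, ofReal_re]
      rw [e1, e2, Real.exp_zero, mul_one]
      have : Real.exp (-Real.pi * u n * ‖ξ‖ ^ 2) ≤ 1 := by
        rw [Real.exp_le_one_iff]
        have := hu0 n
        have : 0 ≤ Real.pi * u n * ‖ξ‖ ^ 2 := by positivity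
        linarith
      calc _ ≤ 1 * ‖mult Λ θ (‖ξ‖ ^ 2)‖ := by gcongr
        _ = _ := one_mul _
    · filter_upwards with ξ
      have h1 : Tendsto (fun n => cexp (-Real.pi * (u n) * ‖ξ‖ ^ 2)) atTop (𝓝 (cexp (-Real.pi * ((0:ℝ):ℂ) * ‖ξ‖ ^ 2))) := by
        apply Tendsto.cexp
        apply Tendsto.mul_const
        apply Tendsto.const_mul
        exact (continuous_ofReal.tendsto 0).comp hu
      have h2 := h1.mul_const (mult Λ θ (‖ξ‖ ^ 2) * cexp (2 * Real.pi * I * (inner ℝ x ξ : ℝ)))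
      simpa using h2
  have hkd : kd d Λ θ (‖x‖ ^ 2) = ∫ τ : ℝ, θ τ * (cexp (-2 * Real.pi * I * ((Λ * τ : ℝ) : ℂ)) *
      (I / (2 * ((Λ * τ : ℝ) : ℂ))) ^ ((d / 2 : ℝ) : ℂ) *
      cexp (-Real.pi * I * ((‖x‖ ^ 2 : ℝ) : ℂ) / (2 * ((Λ * τ : ℝ) : ℂ)))) := by
    unfold kd
    rw [integral_Ioi_eq h hΛ (fun t => cexp (-2 * Real.pi * I * t) * (I / (2 * t)) ^ ((d / 2 : ℝ) : ℂ) *
      cexp (-Real.pi * I * ((‖x‖ ^ 2 : ℝ) : ℂ) / (2 * t)))]
  have T2 : Tendsto (fun n => ∫ τ : ℝ, θ τ * (cexp (-2 * Real.pi * I * (Λ * τ)) *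
      ((Real.pi : ℂ) / (Real.pi * ((u n : ℝ) - 2 * I * (Λ * τ)))) ^ ((d / 2 : ℝ) : ℂ) *
      cexp (-(Real.pi * ‖x‖ ^ 2 / ((u n : ℝ) - 2 * I * (Λ * τ)))))) atTop (𝓝 (kd d Λ θ (‖x‖ ^ 2))) := by
    rw [hkd]
    refine tendsto_integral_of_dominated_convergence (fun τ => ‖θ τ‖ * (2 / Λ) ^ (d / 2)) ?_
      (h.integrable.norm.mul_const _) ?_ ?_
    · intro n
      have hθm : Measurable θ := h.continuous.measurable
      apply Measurable.aestronglyMeasurable
      fun_prop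
    · intro n
      filter_upwards with τ
      by_cases hτ : τ ∈ Icc (1/4 : ℝ) 4
      · have hτ0 : 0 < Λ * τ := mul_pos hΛ (by linarith [hτ.1])
        rw [norm_mul]
        gcongr
        rw [norm_mul, norm_mul, Complex.norm_exp, Complex.norm_exp, Complex.norm_cpow_real]
        have e1 : (-2 * Real.pi * I * (Λ * τ) : ℂ).re = 0 := by
          have : (-2 * Real.pi * I * (Λ * τ) : ℂ) = ((-2 * Real.pi * (Λ * τ) : ℝ) : ℂ) * I := by
            push_cast; ring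
          rw [this, re_ofReal_mul, I_re, mul_zero]
        have hz : ((u n : ℝ) - 2 * I * (Λ * τ) : ℂ) = ((u n : ℝ) : ℂ) + ((-2 * (Λ * τ) : ℝ) : ℂ) * I := by
          push_cast; ring
        have hnorm : 2 * (Λ * τ) ≤ ‖((u n : ℝ) - 2 * I * (Λ * τ) : ℂ)‖ := by
          have := Complex.abs_im_le_norm ((u n : ℝ) - 2 * I * (Λ * τ) : ℂ)
          have e : ((u n : ℝ) - 2 * I * (Λ * τ) : ℂ).im = -2 * (Λ * τ) := by
            rw [hz]; simp
          rw [e, abs_of_neg (by linarith)] at this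
          linarith
        have e2 : 0 ≤ ((Real.pi * ‖x‖ ^ 2 / ((u n : ℝ) - 2 * I * (Λ * τ))) : ℂ).re := by
          have : ((Real.pi * ‖x‖ ^ 2 / ((u n : ℝ) - 2 * I * (Λ * τ))) : ℂ) =
            ((Real.pi * ‖x‖ ^ 2 : ℝ) : ℂ) * ((u n : ℝ) - 2 * I * (Λ * τ) : ℂ)⁻¹ := by
            push_cast; ring
          rw [this, re_ofReal_mul, Complex.inv_re]
          have e : ((u n : ℝ) - 2 * I * (Λ * τ) : ℂ).re = u n := by
            rw [hz]; simp
          rw [e]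
          have := hu0 n
          have := Complex.normSq_nonneg ((u n : ℝ) - 2 * I * (Λ * τ) : ℂ)
          positivity
        have hpi : (Real.pi : ℂ) ≠ 0 := by exact_mod_cast Real.pi_ne_zero
        have e3 : ((Real.pi : ℂ) / (Real.pi * ((u n : ℝ) - 2 * I * (Λ * τ)))) =
            ((u n : ℝ) - 2 * I * (Λ * τ) : ℂ)⁻¹ := by
          rw [← div_div, div_self hpi, one_div]
        rw [e1, Real.exp_zero, one_mul, e3, norm_inv]
        have h3 : ‖((u n : ℝ) - 2 * I * (Λ * τ) : ℂ)‖⁻¹ ≤ 2 / Λ := by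
          have h4 : Λ / 2 ≤ ‖((u n : ℝ) - 2 * I * (Λ * τ) : ℂ)‖ := by
            refine le_trans ?_ hnorm
            nlinarith [hτ.1]
          calc _ ≤ (Λ / 2)⁻¹ := inv_anti₀ (by positivity) h4
            _ = _ := by rw [inv_div]
        calc _ ≤ (2 / Λ) ^ (d / 2) * 1 := by
              gcongr
              rw [Real.exp_le_one_iff, neg_re]
              linarith
          _ = _ := mul_one _
      · rw [h.eq_zero hτ]; simp
    · filter_upwards with τ
      by_cases hτ : τ ∈ Icc (1/4 : ℝ) 4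
      · have hτ0 : 0 < Λ * τ := mul_pos hΛ (by linarith [hτ.1])
        have hc : Tendsto (fun n => ((u n : ℝ) - 2 * I * (Λ * τ) : ℂ)) atTop (𝓝 (((0:ℝ):ℂ) - 2 * I * (Λ * τ))) := by
          apply Tendsto.sub_const
          exact (continuous_ofReal.tendsto 0).comp hu
        have hpi : (Real.pi : ℂ) ≠ 0 := by exact_mod_cast Real.pi_ne_zero
        have hΛτ : ((Λ:ℂ) * τ) ≠ 0 := by exact_mod_cast hτ0.ne'
        have hne : (((0:ℝ):ℂ) - 2 * I * (Λ * τ)) ≠ 0 := by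
          rw [ofReal_zero, zero_sub, neg_ne_zero]
          exact mul_ne_zero (mul_ne_zero two_ne_zero I_ne_zero) hΛτ
        have hI : (Real.pi : ℂ) / (Real.pi * (((0:ℝ):ℂ) - 2 * I * (Λ * τ))) = I / (2 * ((Λ * τ : ℝ) : ℂ)) := by
          rw [ofReal_zero, zero_sub, ← div_div, div_self hpi]
          push_cast
          rw [div_eq_div_iff (by
            rw [neg_ne_zero]
            exact mul_ne_zero (mul_ne_zero two_ne_zero I_ne_zero) hΛτ) (mul_ne_zero two_ne_zero hΛτ)]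
          ring_nf
          rw [I_sq]
          ring
        apply Tendsto.const_mul
        apply Tendsto.mul
        · have h5 : Tendsto (fun n => ((Real.pi : ℂ) / (Real.pi * ((u n : ℝ) - 2 * I * (Λ * τ)))) ^ ((d / 2 : ℝ) : ℂ))
            atTop (𝓝 ((I / (2 * ((Λ * τ : ℝ) : ℂ))) ^ ((d / 2 : ℝ) : ℂ))) := by
            have hsl : (I / (2 * ((Λ * τ : ℝ) : ℂ))) ∈ slitPlane := by
              rw [Complex.mem_slitPlane_iff]
              right
              have : (I / (2 * ((Λ * τ : ℝ) : ℂ))) = ((1 / (2 * (Λ * τ)) : ℝ) : ℂ) * I := by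
                push_cast; ring
              rw [this, im_ofReal_mul, I_im, mul_one]
              positivity
            have hlim : Tendsto (fun n => ((Real.pi : ℂ) / (Real.pi * ((u n : ℝ) - 2 * I * (Λ * τ)))))
                atTop (𝓝 (I / (2 * ((Λ * τ : ℝ) : ℂ)))) := by
              rw [← hI]
              exact Tendsto.div tendsto_const_nhds (hc.const_mul _) (mul_ne_zero hpi hne)
            exact (continuousAt_cpow_const hsl).tendsto.comp hlim
          have h6 := h5.const_mul (cexp (-2 * Real.pi * I * (Λ * τ)))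
          convert h6 using 2
          push_cast
          rfl
        · have h7 : Tendsto (fun n => cexp (-(Real.pi * ‖x‖ ^ 2 / ((u n : ℝ) - 2 * I * (Λ * τ))))) atTop
            (𝓝 (cexp (-(Real.pi * ‖x‖ ^ 2 / (((0:ℝ):ℂ) - 2 * I * (Λ * τ)))))) := by
            apply Tendsto.cexp
            apply Tendsto.neg
            exact Tendsto.div tendsto_const_nhds hc hne
          convert h7 using 3
          rw [ofReal_zero, zero_sub]
          push_cast
          rw [div_neg, neg_neg, div_eq_div_iff (mul_ne_zero two_ne_zero hΛτ)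
            (mul_ne_zero (mul_ne_zero two_ne_zero I_ne_zero) hΛτ)]
          ring_nf
          rw [I_sq]
          ring
      · rw [h.eq_zero hτ]; simp
  have T1' := T1.congr (fun n => gauss_aux h hΛ x (hu0 n))
  exact tendsto_nhds_unique T2 T1'

theorem kd_two (Λ : ℝ) (θ : ℝ → ℂ) (q : ℝ) : k2 Λ θ q = kd 2 Λ θ q := by
  unfold k2 kd
  congr 1
  ext t
  have : (((2:ℝ) / 2 : ℝ) : ℂ) = 1 := by norm_num
  rw [this, cpow_one]
  ring

theorem kd_three (Λ : ℝ) (θ : ℝ → ℂ) (q : ℝ) : k3 Λ θ q = kd 3 Λ θ q := by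
  unfold k3 kd
  congr 1
  ext t
  have : (((3:ℝ) / 2 : ℝ) : ℂ) = 3 / 2 := by norm_num
  rw [this]
  ring

theorem T02_k2_eq (Λ : ℝ) (hΛ : 0 < Λ) (A : ℝ) (θ : ℝ → ℂ) (hθ : Bump 4 A θ) (x : E2) :
    k2 Λ θ (‖x‖ ^ 2) = ∫ ξ : E2, mult Λ θ (‖ξ‖ ^ 2) * cexp (2 * Real.pi * I * (inner ℝ x ξ : ℝ)) := by
  have := kd_eq (V := E2) (by simp) hθ hΛ x
  rw [kd_two]
  simpa using this

theorem T02_k3_eq (Λ : ℝ) (hΛ : 0 < Λ) (A : ℝ) (θ : ℝ → ℂ) (hθ : Bump 4 A θ) (x : E3) :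
    k3 Λ θ (‖x‖ ^ 2) = ∫ ξ : E3, mult Λ θ (‖ξ‖ ^ 2) * cexp (2 * Real.pi * I * (inner ℝ x ξ : ℝ)) := by
  have := kd_eq (V := E3) (by simp) hθ hΛ x
  rw [kd_three]
  simpa using this

/-- kernel integral in the scaled variable -/
theorem kd_scaled (h : Bump M A θ) {Λ : ℝ} (hΛ : 0 < Λ) (d q : ℝ) :
    kd d Λ θ q = ∫ τ : ℝ, θ τ * (cexp (-2 * Real.pi * I * ((Λ * τ : ℝ) : ℂ)) *
      (I / (2 * ((Λ * τ : ℝ) : ℂ))) ^ ((d / 2 : ℝ) : ℂ) *
      cexp (-Real.pi * I * (q : ℂ) / (2 * ((Λ * τ : ℝ) : ℂ)))) := by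
  unfold kd
  rw [integral_Ioi_eq h hΛ (fun t => cexp (-2 * Real.pi * I * t) * (I / (2 * t)) ^ ((d / 2 : ℝ) : ℂ) *
      cexp (-Real.pi * I * (q : ℂ) / (2 * t)))]

theorem kd_integrand_norm_le (h : Bump M A θ) {Λ : ℝ} (hΛ : 0 < Λ) {d : ℝ} (hd : 0 ≤ d) (q τ : ℝ) :
    ‖θ τ * (cexp (-2 * Real.pi * I * ((Λ * τ : ℝ) : ℂ)) *
      (I / (2 * ((Λ * τ : ℝ) : ℂ))) ^ ((d / 2 : ℝ) : ℂ) *
      cexp (-Real.pi * I * (q : ℂ) / (2 * ((Λ * τ : ℝ) : ℂ))))‖ ≤ ‖θ τ‖ * (2 / Λ) ^ (d / 2) := by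
  by_cases hτ : τ ∈ Icc (1/4 : ℝ) 4
  · have hτ0 : 0 < Λ * τ := mul_pos hΛ (by linarith [hτ.1])
    rw [norm_mul]
    gcongr
    rw [norm_mul, norm_mul, Complex.norm_exp, Complex.norm_exp, Complex.norm_cpow_real]
    have e1 : (-2 * Real.pi * I * ((Λ * τ : ℝ) : ℂ) : ℂ).re = 0 := by
      have : (-2 * Real.pi * I * ((Λ * τ : ℝ) : ℂ) : ℂ) = ((-2 * Real.pi * (Λ * τ) : ℝ) : ℂ) * I := by
        push_cast; ring
      rw [this, re_ofReal_mul, I_re, mul_zero]
    have e2 : (-Real.pi * I * (q : ℂ) / (2 * ((Λ * τ : ℝ) : ℂ))).re = 0 := by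
      have : (-Real.pi * I * (q : ℂ) / (2 * ((Λ * τ : ℝ) : ℂ))) =
        ((-Real.pi * q / (2 * (Λ * τ)) : ℝ) : ℂ) * I := by push_cast; ring
      rw [this, re_ofReal_mul, I_re, mul_zero]
    rw [e1, e2, Real.exp_zero, one_mul, mul_one]
    have h3 : ‖I / (2 * ((Λ * τ : ℝ) : ℂ))‖ ≤ 2 / Λ := by
      rw [norm_div, norm_I, norm_mul, Complex.norm_two, Complex.norm_real, Real.norm_of_nonneg hτ0.le]
      rw [div_le_div_iff₀ (by positivity) hΛ]
      nlinarith [hτ.1]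
    exact Real.rpow_le_rpow (norm_nonneg _) h3 (by positivity)
  · rw [h.eq_zero hτ]; simp

theorem norm_kd_le (h : Bump M A θ) {Λ : ℝ} (hΛ : 0 < Λ) {d : ℝ} (hd : 0 ≤ d) (q : ℝ) :
    ‖kd d Λ θ q‖ ≤ 4 * A * (2 / Λ) ^ (d / 2) := by
  rw [kd_scaled h hΛ]
  refine (norm_integral_le_integral_norm _).trans ?_
  have h1 := h.integral_norm_le 0 (Nat.zero_le _)
  simp only [iteratedDeriv_zero] at h1
  calc _ ≤ ∫ τ, ‖θ τ‖ * (2 / Λ) ^ (d / 2) := by
        apply integral_mono_of_nonneg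
        · filter_upwards with τ using norm_nonneg _
        · exact h.integrable.norm.mul_const _
        · filter_upwards with τ using kd_integrand_norm_le h hΛ hd q τ
    _ = (∫ τ, ‖θ τ‖) * (2 / Λ) ^ (d / 2) := integral_mul_const _ _
    _ ≤ _ := by gcongr

theorem continuous_kd (h : Bump M A θ) {Λ : ℝ} (hΛ : 0 < Λ) {d : ℝ} (hd : 0 ≤ d) :
    Continuous (kd d Λ θ) := by
  have : kd d Λ θ = fun q : ℝ => ∫ τ : ℝ, θ τ * (cexp (-2 * Real.pi * I * ((Λ * τ : ℝ) : ℂ)) *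
      (I / (2 * ((Λ * τ : ℝ) : ℂ))) ^ ((d / 2 : ℝ) : ℂ) *
      cexp (-Real.pi * I * (q : ℂ) / (2 * ((Λ * τ : ℝ) : ℂ)))) := by
    ext q; exact kd_scaled h hΛ d q
  rw [this]
  apply continuous_of_dominated (bound := fun τ => ‖θ τ‖ * (2 / Λ) ^ (d / 2))
  · intro q
    have hθm : Measurable θ := h.continuous.measurable
    apply Measurable.aestronglyMeasurable
    fun_prop
  · intro q
    filter_upwards with τ using kd_integrand_norm_le h hΛ hd q τ
  · exact h.integrable.norm.mul_const _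
  · filter_upwards with τ
    fun_prop

theorem continuous_k3 (h : Bump M A θ) {Λ : ℝ} (hΛ : 0 < Λ) : Continuous (k3 Λ θ) := by
  have : k3 Λ θ = kd 3 Λ θ := by ext q; exact kd_three _ _ _
  rw [this]; exact continuous_kd h hΛ (by norm_num)

theorem norm_k2_le (h : Bump M A θ) {Λ : ℝ} (hΛ : 0 < Λ) (q : ℝ) :
    ‖k2 Λ θ q‖ ≤ 8 * A / Λ := by
  rw [kd_two]
  refine (norm_kd_le h hΛ (by norm_num) q).trans (le_of_eq ?_)
  rw [show (2:ℝ) / 2 = 1 by norm_num, Real.rpow_one]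
  ring

theorem norm_k3_le (h : Bump M A θ) {Λ : ℝ} (hΛ : 0 < Λ) (q : ℝ) :
    ‖k3 Λ θ q‖ ≤ 4 * A * (2 / Λ) ^ (3 / 2 : ℝ) := by
  rw [kd_three]
  exact norm_kd_le h hΛ (by norm_num) q

end kernel

end Vale.Agent.P117
end
end

section

section

open MeasureTheory Complex Set
open scoped ENNReal NNReal ContDiff FourierTransform SchwartzMap ComplexConjugate Convolution

namespace Vale.Agent.P117

section
variable {V : Type*} [NormedAddCommGroup V] [InnerProductSpace ℝ V] [FiniteDimensional ℝ V]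
  [MeasurableSpace V] [BorelSpace V]

theorem fourierInv_conj (f : V → ℂ) (x : V) : 𝓕⁻ (fun v => conj (f v)) x = conj (𝓕 f x) := by
  rw [Real.fourier_eq', Real.fourierInv_eq', ← integral_conj]
  congr 1
  ext v
  simp only [smul_eq_mul, map_mul]
  rw [← Complex.exp_conj]
  simp [Complex.conj_ofNat]

theorem integral_fourier_mul {f g : V → ℂ} (hf : Integrable f) (hg : Integrable g) :
    ∫ x, 𝓕 f x * g x = ∫ x, f x * 𝓕 g x := by
  have := VectorFourier.integral_fourierIntegral_smul_eq_flip (L := innerₗ V) (μ := volume)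
    (ν := volume) Real.continuous_fourierChar continuous_inner hf hg
  rw [flip_innerₗ] at this
  exact this

theorem integral_fourierInv_mul {f g : V → ℂ} (hf : Integrable f) (hg : Integrable g) :
    ∫ x, 𝓕⁻ f x * g x = ∫ x, f x * 𝓕⁻ g x := by
  have h := integral_fourier_mul (V := V) (f := fun v => f (-v)) (g := g) hf.comp_neg hg
  rw [← Real.fourierInv_eq_fourier_comp_neg] at h
  rw [h, ← integral_neg_eq_self]
  congr 1
  ext v
  rw [neg_neg, Real.fourierInv_eq_fourier_neg]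

theorem norm_fourier_le (f : V → ℂ) (x : V) : ‖𝓕 f x‖ ≤ ∫ v, ‖f v‖ :=
  VectorFourier.norm_fourierIntegral_le_integral_norm _ _ _ _ _

theorem norm_fourierInv_le (f : V → ℂ) (x : V) : ‖𝓕⁻ f x‖ ≤ ∫ v, ‖f v‖ := by
  rw [Real.fourierInv_eq_fourier_neg]
  exact norm_fourier_le f (-x)

theorem continuous_fourier {f : V → ℂ} (hf : Integrable f) : Continuous (𝓕 f) :=
  VectorFourier.fourierIntegral_continuous Real.continuous_fourierChar continuous_inner hf

theorem continuous_fourierInv {f : V → ℂ} (hf : Integrable f) : Continuous (𝓕⁻ f) := by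
  rw [Real.fourierInv_eq_fourier_comp_neg]
  exact continuous_fourier hf.comp_neg

theorem integrable_fourierInv_iff {f : V → ℂ} : Integrable (𝓕⁻ f) ↔ Integrable (𝓕 f) := by
  have : 𝓕⁻ f = fun x => 𝓕 f (-x) := by
    ext x; rw [Real.fourierInv_eq_fourier_neg]
  rw [this]
  constructor
  · intro h
    have := h.comp_neg
    simpa using this
  · intro h; exact h.comp_neg

theorem parseval_inv {H H' : V → ℂ} (hH : Integrable H) (hH' : Integrable H')
    (hc' : Continuous H') (hF : Integrable (𝓕⁻ H')) :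
    ∫ x, 𝓕⁻ H x * conj (𝓕⁻ H' x) = ∫ ξ, H ξ * conj (H' ξ) := by
  have hF2 : Integrable (fun x => conj (𝓕⁻ H' x)) := by
    have := (Complex.conjCLE : ℂ →L[ℝ] ℂ).integrable_comp hF
    exact this
  rw [integral_fourierInv_mul hH hF2]
  congr 1
  ext ξ
  rw [fourierInv_conj, hc'.fourier_fourierInv_eq hH' (integrable_fourierInv_iff.1 hF)]

theorem fourierInv_mul_conv {h k : V → ℂ} (hh : Integrable h) (hk : Integrable k) (x : V) :
    𝓕⁻ h x * 𝓕⁻ k x = 𝓕⁻ (fun ζ => ∫ t, h t * k (ζ - t)) x := by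
  have := Real.fourier_mul_convolution_eq hh hk (-x)
  rw [Real.fourierInv_eq_fourier_neg, Real.fourierInv_eq_fourier_neg,
    Real.fourierInv_eq_fourier_neg, ← this]
  rfl

/-- convolution of a kernel with a function -/
noncomputable def cv (K f : V → ℂ) (x : V) : ℂ := ∫ y, K (x - y) * f y

theorem cv_eq (K f : V → ℂ) : cv K f = K ⋆[ContinuousLinearMap.mul ℂ ℂ] f := by
  ext x
  rw [convolution_eq_swap]
  rfl

theorem cv_eq' (K f : V → ℂ) : cv K f = f ⋆[ContinuousLinearMap.mul ℂ ℂ] K := by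
  ext x
  unfold cv
  rw [convolution_def]
  congr 1
  ext t
  simp [mul_comm]

theorem continuous_cv {K f : V → ℂ} (hK : Continuous K) {C : ℝ} (hC : ∀ x, ‖K x‖ ≤ C)
    (hf : Integrable f) : Continuous (cv K f) := by
  rw [cv_eq']
  refine BddAbove.continuous_convolution_right_of_integrable _ ?_ hf hK
  exact ⟨C, fun x ⟨y, hy⟩ => hy ▸ hC y⟩

theorem integrable_cv {K f : V → ℂ} (hK : Integrable K) (hf : Integrable f) :
    Integrable (cv K f) := by
  rw [cv_eq']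
  exact hf.integrable_convolution _ hK

theorem norm_cv_le {K f : V → ℂ} {C : ℝ} (hC : ∀ x, ‖K x‖ ≤ C)
    (hf : Integrable f) (x : V) : ‖cv K f x‖ ≤ C * ∫ y, ‖f y‖ := by
  unfold cv
  calc ‖∫ y, K (x - y) * f y‖ ≤ ∫ y, C * ‖f y‖ := by
        apply norm_integral_le_of_norm_le (hf.norm.const_mul C)
        filter_upwards with y
        rw [norm_mul]
        gcongr
        exact hC _
    _ = C * ∫ y, ‖f y‖ := by rw [integral_const_mul]

theorem fourier_cv {K f : V → ℂ} (hK : Integrable K) (hf : Integrable f) (ξ : V) :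
    𝓕 (cv K f) ξ = 𝓕 K ξ * 𝓕 f ξ := by
  rw [cv_eq]
  exact Real.fourier_mul_convolution_eq hK hf ξ

end

/-- Schwartz kernels -/
theorem cv_schwartz_eq {V : Type*} [NormedAddCommGroup V] [InnerProductSpace ℝ V]
    [FiniteDimensional ℝ V] [MeasurableSpace V] [BorelSpace V]
    (m : 𝓢(V, ℂ)) {f : V → ℂ} (hf : Integrable f) :
    cv (𝓕⁻ m : 𝓢(V, ℂ)) f = 𝓕⁻ (fun ξ => m ξ * 𝓕 f ξ) := by
  have hK : Integrable ((𝓕⁻ m : 𝓢(V, ℂ)) : V → ℂ) := (𝓕⁻ m : 𝓢(V, ℂ)).integrable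
  have hFe : 𝓕 (cv (𝓕⁻ m : 𝓢(V, ℂ)) f) = (fun ξ => m ξ * 𝓕 f ξ) := by
    ext ξ
    rw [fourier_cv hK hf]
    congr 1
    have : 𝓕 (𝓕⁻ m : 𝓢(V, ℂ)) = m := by simp
    conv_rhs => rw [← this]
    rw [SchwartzMap.fourier_coe]
  have hcont : Continuous (cv (𝓕⁻ m : 𝓢(V, ℂ)) f) := by
    refine continuous_cv (C := SchwartzMap.seminorm ℝ 0 0 (𝓕⁻ m : 𝓢(V, ℂ)))
      (𝓕⁻ m : 𝓢(V, ℂ)).continuous ?_ hf
    intro x
    exact SchwartzMap.norm_le_seminorm ℝ _ x
  have hI : Integrable (cv (𝓕⁻ m : 𝓢(V, ℂ)) f) := integrable_cv hK hf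
  have hI2 : Integrable (fun ξ => m ξ * 𝓕 f ξ) := by
    apply m.integrable.mul_bdd (c := ∫ v, ‖f v‖)
    · exact (continuous_fourier hf).aestronglyMeasurable
    · filter_upwards with x
      exact norm_fourier_le f x
  rw [← hFe] at hI2 ⊢
  exact (hcont.fourierInv_fourier_eq hI hI2).symm

end Vale.Agent.P117
end
end

section

section

open MeasureTheory Complex Set
open scoped ENNReal NNReal ContDiff FourierTransform SchwartzMap ComplexConjugate Convolution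

namespace Vale.Agent.P117

/-- all derivatives up to order n are bounded by B at x -/
def DB {E F : Type*} [NormedAddCommGroup E] [NormedSpace ℝ E] [NormedAddCommGroup F]
    [NormedSpace ℝ F] (n : ℕ) (B : ℝ) (f : E → F) (x : E) : Prop :=
  ∀ i ≤ n, ‖iteratedFDeriv ℝ i f x‖ ≤ B

section
variable {E F G : Type*} [NormedAddCommGroup E] [NormedSpace ℝ E] [NormedAddCommGroup F]
    [NormedSpace ℝ F] [NormedAddCommGroup G] [NormedSpace ℝ G]

theorem DB.nonneg {n : ℕ} {B : ℝ} {f : E → F} {x : E} (h : DB n B f x) : 0 ≤ B :=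
  (norm_nonneg _).trans (h 0 (Nat.zero_le _))

theorem DB.mono {n : ℕ} {B B' : ℝ} {f : E → F} {x : E} (h : DB n B f x) (hB : B ≤ B') :
    DB n B' f x := fun i hi => (h i hi).trans hB

theorem DB.mul {n : ℕ} {B B' : ℝ} {f g : E → ℂ} {x : E} (hf : ContDiff ℝ ∞ f)
    (hg : ContDiff ℝ ∞ g) (h : DB n B f x) (h' : DB n B' g x) :
    DB n (2 ^ n * B * B') (fun y => f y * g y) x := by
  intro i hi
  have h0 := h.nonneg
  have h0' := h'.nonneg
  have := norm_iteratedFDeriv_mul_le (N := ∞) hf hg x (n := i) (by exact_mod_cast le_top)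
  refine this.trans ?_
  calc ∑ k ∈ Finset.range (i + 1), (i.choose k : ℝ) * ‖iteratedFDeriv ℝ k f x‖ *
        ‖iteratedFDeriv ℝ (i - k) g x‖ ≤ ∑ k ∈ Finset.range (i + 1), (i.choose k : ℝ) * B * B' := by
        apply Finset.sum_le_sum
        intro k hk
        have hk' : k ≤ i := Nat.lt_succ_iff.1 (Finset.mem_range.1 hk)
        have h1 := h k (hk'.trans hi)
        have h2 := h' (i - k) ((Nat.sub_le _ _).trans hi)
        gcongr
    _ = 2 ^ i * B * B' := by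
        rw [← Finset.sum_mul, ← Finset.sum_mul]
        congr 2
        exact_mod_cast Nat.sum_range_choose i
    _ ≤ 2 ^ n * B * B' := by
        gcongr
        norm_num

theorem DB.comp {n : ℕ} {A D : ℝ} {g : F → G} {f : E → F} {x : E} (hg : ContDiff ℝ ∞ g)
    (hf : ContDiff ℝ ∞ f) (h : DB n A g (f x)) (h' : DB n D f x) (hD : 1 ≤ D) :
    DB n (n.factorial * A * D ^ n) (fun y => g (f y)) x := by
  intro i hi
  have h0 := h.nonneg
  have := norm_iteratedFDeriv_comp_le (N := ∞) hg hf (n := i) (by exact_mod_cast le_top) x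
    (C := A) (D := D) (fun k hk => h k (hk.trans hi)) (fun k hk1 hk => (h' k (hk.trans hi)).trans
      (le_self_pow₀ hD (by omega)))
  refine this.trans ?_
  have h1 : (i.factorial : ℝ) ≤ n.factorial := by exact_mod_cast Nat.factorial_le hi
  have h2 : D ^ i ≤ D ^ n := pow_le_pow_right₀ hD hi
  gcongr

theorem DB.of_param {K : Set (E × G)} (hK : IsCompact K) {Ψ : E × G → F} (hΨ : ContDiff ℝ ∞ Ψ)
    (n : ℕ) : ∃ C : ℝ, 1 ≤ C ∧ ∀ x θ, (x, θ) ∈ K → DB n C (fun y => Ψ (y, θ)) x := by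
  have hb : ∀ i : ℕ, ∃ C : ℝ, ∀ z ∈ K, ‖iteratedFDeriv ℝ i Ψ z‖ ≤ C := by
    intro i
    have hc : Continuous (iteratedFDeriv ℝ i Ψ) := hΨ.continuous_iteratedFDeriv
      (by exact_mod_cast le_top)
    obtain ⟨C, hC⟩ := hK.exists_bound_of_continuousOn hc.continuousOn
    exact ⟨C, hC⟩
  choose C hC using hb
  refine ⟨1 + ∑ i ∈ Finset.range (n + 1), |C i|, ?_, ?_⟩
  · have : 0 ≤ ∑ i ∈ Finset.range (n + 1), |C i| := Finset.sum_nonneg fun i _ => abs_nonneg _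
    linarith
  intro x θ hx i hi
  have e : (fun y => Ψ (y, θ)) = (fun z : E × G => Ψ (z + (0, θ))) ∘ (ContinuousLinearMap.inl ℝ E G) := by
    ext y
    simp
  have hs : ContDiff ℝ ∞ (fun z : E × G => Ψ (z + (0, θ))) := hΨ.comp (by fun_prop)
  rw [e, (ContinuousLinearMap.inl ℝ E G).iteratedFDeriv_comp_right hs x
    (by exact_mod_cast le_top), iteratedFDeriv_comp_add_right]
  refine (ContinuousMultilinearMap.norm_compContinuousLinearMap_le _ _).trans ?_
  have e2 : (ContinuousLinearMap.inl ℝ E G) x + (0, θ) = (x, θ) := by simp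
  rw [e2]
  have h1 : ∏ _j : Fin i, ‖ContinuousLinearMap.inl ℝ E G‖ ≤ 1 := by
    apply Finset.prod_le_one
    · intro _ _; exact norm_nonneg _
    · intro _ _; exact ContinuousLinearMap.norm_inl_le_one ℝ E G
  calc ‖iteratedFDeriv ℝ i Ψ (x, θ)‖ * ∏ _j : Fin i, ‖ContinuousLinearMap.inl ℝ E G‖
      ≤ ‖iteratedFDeriv ℝ i Ψ (x, θ)‖ * 1 := by gcongr
    _ ≤ |C i| := by rw [mul_one]; exact (hC i _ hx).trans (le_abs_self _)
    _ ≤ ∑ i ∈ Finset.range (n + 1), |C i| :=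
        Finset.single_le_sum (f := fun i => |C i|) (fun _ _ => abs_nonneg _) (Finset.mem_range.2 (by omega))
    _ ≤ _ := by linarith

theorem DB.of_bound_real {n : ℕ} {A : ℝ} {φ : ℝ → ℂ} (h : ∀ i ≤ n, ∀ t, ‖iteratedDeriv i φ t‖ ≤ A)
    (t : ℝ) : DB n A φ t := by
  intro i hi
  rw [norm_iteratedFDeriv_eq_norm_iteratedDeriv]
  exact h i hi t

theorem DB.of_eventually_zero {n : ℕ} {B : ℝ} (hB : 0 ≤ B) {f : E → F} {x : E}
    (h : x ∉ tsupport f) : DB n B f x := by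
  intro i _
  have : x ∉ tsupport (iteratedFDeriv ℝ i f) := fun hx => h (tsupport_iteratedFDeriv_subset i hx)
  rw [image_eq_zero_of_notMem_tsupport this, norm_zero]
  exact hB

end

section
variable {V : Type*} [NormedAddCommGroup V] [InnerProductSpace ℝ V] [FiniteDimensional ℝ V]
  [MeasurableSpace V] [BorelSpace V]

theorem fourier_decay (n : ℕ) (R : ℝ) : ∃ C : ℝ, 0 ≤ C ∧ ∀ (f : V → ℂ) (B : ℝ), ContDiff ℝ ∞ f →
    (∀ x, f x ≠ 0 → ‖x‖ ≤ R) → (∀ x, ‖x‖ ≤ R → DB n B f x) → 0 ≤ B →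
    ∀ w, (1 + ‖w‖) ^ n * ‖𝓕 f w‖ ≤ C * B := by
  refine ⟨2 ^ n * ((volume (Metric.closedBall (0:V) R)).toReal +
    2 ^ n * (n + 1) * (volume (Metric.closedBall (0:V) R)).toReal), by positivity, ?_⟩
  intro f B hf hsupp hDB hB w
  set vol := (volume (Metric.closedBall (0:V) R)).toReal with hvol
  have hts : tsupport f ⊆ Metric.closedBall 0 R := by
    apply closure_minimal _ Metric.isClosed_closedBall
    intro x hx
    simpa using hsupp x hx
  have hcs : HasCompactSupport f := by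
    apply HasCompactSupport.of_support_subset_isCompact (isCompact_closedBall (0:V) R)
    exact subset_closure.trans hts
  have hz : ∀ i x, ‖x‖ > R → iteratedFDeriv ℝ i f x = 0 := by
    intro i x hx
    apply image_eq_zero_of_notMem_tsupport
    intro h
    have := hts (tsupport_iteratedFDeriv_subset i h)
    simp at this
    linarith
  have hI : ∀ i, Integrable (fun v => ‖iteratedFDeriv ℝ i f v‖) := by
    intro i
    have hc : Continuous (iteratedFDeriv ℝ i f) := hf.continuous_iteratedFDeriv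
      (by exact_mod_cast le_top)
    exact (hc.integrable_of_hasCompactSupport (hcs.iteratedFDeriv i)).norm
  have hI2 : ∀ i ≤ n, ∫ v, ‖iteratedFDeriv ℝ i f v‖ ≤ B * vol := by
    intro i hi
    have : ∀ v, ‖iteratedFDeriv ℝ i f v‖ ≤ (Metric.closedBall (0:V) R).indicator (fun _ => B) v := by
      intro v
      by_cases hv : v ∈ Metric.closedBall (0:V) R
      · rw [indicator_of_mem hv]
        exact hDB v (by simpa using hv) i hi
      · rw [indicator_of_notMem hv, hz i v (by simpa using hv)]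
        simp
    calc ∫ v, ‖iteratedFDeriv ℝ i f v‖ ≤ ∫ v, (Metric.closedBall (0:V) R).indicator (fun _ => B) v := by
          apply integral_mono (hI i) _ this
          exact (integrable_indicator_iff Metric.isClosed_closedBall.measurableSet).2
            (integrableOn_const (by exact (isCompact_closedBall (0:V) R).measure_lt_top.ne))
      _ = B * vol := by
          rw [integral_indicator Metric.isClosed_closedBall.measurableSet, setIntegral_const,
            smul_eq_mul, mul_comm, Measure.real]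
  have hpow := Real.pow_mul_norm_iteratedFDeriv_fourier_le (K := 0) (N := n) (k := 0) (n := n)
    (f := f) (hf.of_le (by exact_mod_cast le_top)) (by
      intro k m hk hm
      have hk0 : k = 0 := by simpa using hk
      subst hk0
      simpa using hI m) le_rfl le_rfl w
  have h1 : ‖w‖ ^ n * ‖𝓕 f w‖ ≤ 2 ^ n * ((n + 1) * (B * vol)) := by
    have : ‖w‖ ^ n * ‖iteratedFDeriv ℝ 0 (𝓕 f) w‖ = ‖w‖ ^ n * ‖𝓕 f w‖ := by
      rw [norm_iteratedFDeriv_zero]
    rw [← this]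
    refine hpow.trans ?_
    simp only [pow_zero, one_mul, Nat.cast_zero, mul_zero, zero_add, Finset.range_one]
    gcongr
    rw [Finset.sum_product]
    simp only [Finset.sum_singleton, pow_zero, one_mul]
    calc ∑ i ∈ Finset.range (n + 1), ∫ v, ‖iteratedFDeriv ℝ i f v‖
        ≤ ∑ _i ∈ Finset.range (n + 1), B * vol := by
          apply Finset.sum_le_sum
          intro i hi
          exact hI2 i (Nat.lt_succ_iff.1 (Finset.mem_range.1 hi))
      _ = (n + 1) * (B * vol) := by simp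
  have h2 : ‖𝓕 f w‖ ≤ B * vol := by
    refine (norm_fourier_le f w).trans ?_
    have := hI2 0 (Nat.zero_le _)
    simpa using this
  have h3 : (1 + ‖w‖) ^ n ≤ 2 ^ n * (1 + ‖w‖ ^ n) := by
    have hw := norm_nonneg w
    rcases le_total ‖w‖ 1 with h | h
    · calc (1 + ‖w‖) ^ n ≤ 2 ^ n := by gcongr; linarith
        _ ≤ 2 ^ n * (1 + ‖w‖ ^ n) := le_mul_of_one_le_right (by positivity) (by
            have : 0 ≤ ‖w‖ ^ n := by positivity
            linarith)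
    · calc (1 + ‖w‖) ^ n ≤ (2 * ‖w‖) ^ n := by gcongr; linarith
        _ = 2 ^ n * ‖w‖ ^ n := by rw [mul_pow]
        _ ≤ 2 ^ n * (1 + ‖w‖ ^ n) := by gcongr; linarith
  calc (1 + ‖w‖) ^ n * ‖𝓕 f w‖ ≤ 2 ^ n * (1 + ‖w‖ ^ n) * ‖𝓕 f w‖ := by gcongr
    _ = 2 ^ n * (‖𝓕 f w‖ + ‖w‖ ^ n * ‖𝓕 f w‖) := by ring
    _ ≤ 2 ^ n * (B * vol + 2 ^ n * ((n + 1) * (B * vol))) := by gcongr
    _ = _ := by ring

end

end Vale.Agent.P117
end
end

section

section

open MeasureTheory Complex Set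
open scoped ENNReal NNReal ContDiff FourierTransform SchwartzMap ComplexConjugate Topology

namespace Vale.Agent.P117

/-- exponent of the modified bump -/
noncomputable def ea (η : ℝ) : ℂ := -(1 / 2 + 2 * Real.pi * I * η)

/-- modified bump -/
noncomputable def tht (θ : ℝ → ℂ) (η : ℝ) (τ : ℝ) : ℂ := θ τ * cexp (ea η * Real.log τ)

theorem iteratedDeriv_exp_log (a : ℂ) (n : ℕ) : ∀ t : ℝ, 0 < t →
    iteratedDeriv n (fun τ : ℝ => cexp (a * Real.log τ)) t =
      (∏ j ∈ Finset.range n, (a - j)) * cexp ((a - n) * Real.log t) := by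
  induction n with
  | zero => intro t _; simp
  | succ n ih =>
    intro t ht
    rw [iteratedDeriv_succ]
    have h1 : iteratedDeriv n (fun τ : ℝ => cexp (a * Real.log τ)) =ᶠ[𝓝 t]
        fun s => (∏ j ∈ Finset.range n, (a - j)) * cexp ((a - n) * Real.log s) := by
      filter_upwards [isOpen_Ioi.mem_nhds ht] with s hs
      exact ih s hs
    rw [h1.deriv_eq]
    have h2 : HasDerivAt (fun s : ℝ => (∏ j ∈ Finset.range n, (a - j)) * cexp ((a - n) * Real.log s))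
        ((∏ j ∈ Finset.range n, (a - j)) * (cexp ((a - n) * Real.log t) * ((a - n) * (t⁻¹ : ℝ)))) t := by
      apply HasDerivAt.const_mul
      apply HasDerivAt.cexp
      apply HasDerivAt.const_mul
      exact (Real.hasDerivAt_log ht.ne').ofReal_comp
    rw [h2.deriv, Finset.prod_range_succ]
    have h3 : cexp ((a - (n + 1 : ℕ)) * Real.log t) = cexp ((a - n) * Real.log t) * (t⁻¹ : ℝ) := by
      have : (a - (n + 1 : ℕ)) * Real.log t = (a - n) * Real.log t + ((-Real.log t : ℝ) : ℂ) := by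
        push_cast; ring
      rw [this, Complex.exp_add, ← Complex.ofReal_exp, Real.exp_neg, Real.exp_log ht]
    rw [h3]
    ring

theorem contDiffOn_exp_log (a : ℂ) : ContDiffOn ℝ ∞ (fun τ : ℝ => cexp (a * Real.log τ)) (Ioi 0) := by
  apply ContDiffOn.cexp
  apply ContDiffOn.mul contDiffOn_const
  apply Complex.ofRealCLM.contDiff.comp_contDiffOn
  exact Real.contDiffOn_log.mono (fun t ht => by simpa using (ne_of_gt ht))

theorem norm_ea_le (η : ℝ) : ‖ea η‖ ≤ 7 * (1 + |η|) := by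
  unfold ea
  rw [norm_neg]
  refine (norm_add_le _ _).trans ?_
  have h1 : ‖(1 / 2 : ℂ)‖ = 1 / 2 := by norm_num
  have h2 : ‖(2 * Real.pi * I * η : ℂ)‖ = 2 * Real.pi * |η| := by
    simp [abs_of_pos Real.pi_pos]
  rw [h1, h2]
  have := Real.pi_lt_d2
  nlinarith [abs_nonneg η]

theorem re_ea (η : ℝ) : (ea η).re = -(1 / 2) := by
  unfold ea
  simp

theorem norm_exp_log_le (M n : ℕ) (hn : n ≤ M) (η : ℝ) {t : ℝ} (ht : t ∈ Icc (1/4 : ℝ) 4) :
    ‖iteratedDeriv n (fun τ : ℝ => cexp (ea η * Real.log τ)) t‖ ≤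
      ((7 + M) * (1 + |η|)) ^ M * 4 ^ (M + 1) := by
  have ht0 : 0 < t := by linarith [ht.1]
  rw [iteratedDeriv_exp_log _ _ t ht0, norm_mul]
  have hη := abs_nonneg η
  have hMn : (n : ℝ) ≤ M := by exact_mod_cast hn
  have h0 : (1:ℝ) ≤ (7 + M) * (1 + |η|) := by
    have : (0:ℝ) ≤ M := by positivity
    nlinarith
  have h1 : ‖∏ j ∈ Finset.range n, (ea η - j)‖ ≤ ((7 + M) * (1 + |η|)) ^ M := by
    rw [norm_prod]
    calc ∏ j ∈ Finset.range n, ‖ea η - j‖ ≤ ∏ _j ∈ Finset.range n, ((7 + M) * (1 + |η|)) := by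
          apply Finset.prod_le_prod
          · intro _ _; exact norm_nonneg _
          · intro j hj
            have hj' : (j : ℝ) ≤ M := by
              have := Finset.mem_range.1 hj
              exact_mod_cast (by omega : j ≤ M)
            refine (norm_sub_le _ _).trans ?_
            have h3 := norm_ea_le η
            have h4 : ‖(j : ℂ)‖ = j := by simp
            rw [h4]
            nlinarith
      _ = ((7 + M) * (1 + |η|)) ^ n := by simp
      _ ≤ _ := pow_le_pow_right₀ h0 hn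
  have h2 : ‖cexp ((ea η - n) * Real.log t)‖ ≤ 4 ^ (M + 1) := by
    rw [Complex.norm_exp]
    have e1 : ((ea η - n) * Real.log t).re = -(1 / 2 + n) * Real.log t := by
      rw [Complex.re_mul_ofReal, Complex.sub_re, re_ea, Complex.natCast_re]
      ring
    rw [e1]
    have h3 : -(1 / 2 + n) * Real.log t ≤ (M + 1 : ℝ) * Real.log 4 := by
      have h5 : -Real.log t ≤ Real.log 4 := by
        rw [← Real.log_inv]
        apply Real.log_le_log (by positivity)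
        rw [inv_le_comm₀ ht0 (by norm_num)]
        have := ht.1
        linarith
      have h6 : 0 ≤ Real.log 4 := Real.log_nonneg (by norm_num)
      calc -(1 / 2 + n) * Real.log t = (1 / 2 + n) * (-Real.log t) := by ring
        _ ≤ (1 / 2 + n) * Real.log 4 := by gcongr
        _ ≤ _ := mul_le_mul_of_nonneg_right (by linarith) h6
    calc Real.exp (-(1 / 2 + n) * Real.log t) ≤ Real.exp ((M + 1 : ℝ) * Real.log 4) :=
          Real.exp_le_exp.2 h3
      _ = 4 ^ (M + 1) := by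
          rw [mul_comm, ← Real.rpow_def_of_pos (by norm_num)]
          exact_mod_cast Real.rpow_natCast 4 (M + 1)
  gcongr

theorem Bump.tht (M : ℕ) : ∃ C : ℝ, 0 ≤ C ∧ ∀ (A : ℝ) (θ : ℝ → ℂ), Bump M A θ → ∀ η : ℝ,
    Bump M (C * A * (1 + |η|) ^ M) (tht θ η) := by
  refine ⟨2 ^ M * ((7 + M) ^ M * 4 ^ (M + 1)), by positivity, ?_⟩
  intro A θ h η
  have hA := h.nonneg
  have hsupp : ∀ t, P117.tht θ η t ≠ 0 → t ∈ Icc (1/4:ℝ) 4 := fun t ht =>
    h.supp t (left_ne_zero_of_mul ht)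
  have hz : ∀ t, t ∉ Icc (1/4:ℝ) 4 → P117.tht θ η =ᶠ[𝓝 t] 0 := by
    intro t ht
    filter_upwards [isClosed_Icc.isOpen_compl.mem_nhds ht] with s hs
    by_contra h0
    exact hs (hsupp s h0)
  have hon : ContDiffOn ℝ ∞ (P117.tht θ η) (Ioi 0) :=
    (h.smooth.contDiffOn).mul (contDiffOn_exp_log _)
  refine ⟨?_, hsupp, ?_⟩
  · rw [contDiff_iff_contDiffAt]
    intro t
    by_cases ht : 0 < t
    · exact hon.contDiffAt (isOpen_Ioi.mem_nhds ht)
    · have := hz t (fun h => ht (by linarith [h.1]))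
      exact contDiffAt_const.congr_of_eventuallyEq this
  · intro i hi t
    by_cases ht : t ∈ Icc (1/4:ℝ) 4
    · have ht0 : 0 < t := by linarith [ht.1]
      rw [← norm_iteratedFDeriv_eq_norm_iteratedDeriv, ← iteratedFDerivWithin_of_isOpen i isOpen_Ioi ht0]
      have := norm_iteratedFDerivWithin_mul_le (N := ∞) (h.smooth.contDiffOn (s := Ioi 0)) (contDiffOn_exp_log (ea η))
        isOpen_Ioi.uniqueDiffOn ht0 (n := i) (by exact_mod_cast le_top)
      refine this.trans ?_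
      calc ∑ k ∈ Finset.range (i + 1), (i.choose k : ℝ) * ‖iteratedFDerivWithin ℝ k θ (Ioi 0) t‖ *
            ‖iteratedFDerivWithin ℝ (i - k) (fun τ : ℝ => cexp (ea η * Real.log τ)) (Ioi 0) t‖
          ≤ ∑ k ∈ Finset.range (i + 1), (i.choose k : ℝ) * A * (((7 + M) * (1 + |η|)) ^ M * 4 ^ (M + 1)) := by
            apply Finset.sum_le_sum
            intro k hk
            have hk' : k ≤ i := Nat.lt_succ_iff.1 (Finset.mem_range.1 hk)
            have h1 := h.bound k (hk'.trans hi) t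
            have h2 := norm_exp_log_le M (i - k) ((Nat.sub_le _ _).trans hi) η ht
            rw [iteratedFDerivWithin_of_isOpen k isOpen_Ioi ht0,
              iteratedFDerivWithin_of_isOpen (i - k) isOpen_Ioi ht0,
              norm_iteratedFDeriv_eq_norm_iteratedDeriv, norm_iteratedFDeriv_eq_norm_iteratedDeriv]
            gcongr
        _ = 2 ^ i * A * (((7 + M) * (1 + |η|)) ^ M * 4 ^ (M + 1)) := by
            rw [← Finset.sum_mul, ← Finset.sum_mul]
            congr 2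
            exact_mod_cast Nat.sum_range_choose i
        _ ≤ 2 ^ M * A * (((7 + M) * (1 + |η|)) ^ M * 4 ^ (M + 1)) := by
            gcongr
            norm_num
        _ = _ := by rw [mul_pow]; ring
    · have h1 := Filter.EventuallyEq.iteratedDeriv_eq i (hz t ht)
      rw [h1]
      simp
      positivity

end Vale.Agent.P117
end
end

section

section

open MeasureTheory Set
open scoped ENNReal NNReal

namespace Vale.Agent.P117

def par (W L c : ℝ) : Set (ℝ × ℝ) := {x | |x.1 + c * x.2| ≤ W ∧ |x.2| ≤ L}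

theorem measurableSet_par (W L c : ℝ) : MeasurableSet (par W L c) := by
  have h1 : IsClosed (par W L c) :=
    (isClosed_le (f := fun x : ℝ × ℝ => |x.1 + c * x.2|) (g := fun _ => W)
      (by fun_prop) continuous_const).inter
    (isClosed_le (f := fun x : ℝ × ℝ => |x.2|) (g := fun _ => L) (by fun_prop) continuous_const)
  exact h1.measurableSet

noncomputable def Rk (W L c : ℝ) (x : ℝ × ℝ) : ℝ≥0∞ :=
  (par W L c).indicator (fun _ => ENNReal.ofReal (W * L)⁻¹) x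

theorem measurable_Rk (W L c : ℝ) : Measurable (Rk W L c) :=
  measurable_const.indicator (measurableSet_par W L c)

def psiSet (W L c : ℝ) : Set (ℝ × ℝ) := {v | |v.1 + c * v.2| ≤ 2 * W + 60 * L ∧ |v.2| ≤ 2 * L}

noncomputable def Psi (W L c : ℝ) (v : ℝ × ℝ) : ℝ≥0∞ :=
  (psiSet W L c).indicator (fun v => ENNReal.ofReal (60 * (L * (|v.1 + c * v.2| + W))⁻¹)) v

theorem measurable_Psi (W L c : ℝ) : Measurable (Psi W L c) := by
  apply Measurable.indicator
  · fun_prop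
  · exact measurableSet_par (2 * W + 60 * L) (2 * L) c

theorem Psi_neg (W L c : ℝ) (v : ℝ × ℝ) : Psi W L c (-v) = Psi W L c v := by
  unfold Psi
  have h1 : |(-v).1 + c * (-v).2| = |v.1 + c * v.2| := by
    rw [← abs_neg]; congr 1; simp; ring
  have h2 : (-v ∈ psiSet W L c) ↔ (v ∈ psiSet W L c) := by
    simp only [psiSet, mem_ofPred_eq]
    rw [h1]
    simp
  by_cases h : v ∈ psiSet W L c
  · rw [indicator_of_mem (h2.2 h), indicator_of_mem h, h1]
  · rw [indicator_of_notMem (fun h' => h (h2.1 h')), indicator_of_notMem h]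

/-- area bound -/
theorem vol_aux (W c : ℝ) (S : Set ℝ) (hS : MeasurableSet S) :
    volume {u : ℝ × ℝ | |u.1 + c * u.2| ≤ W ∧ u.2 ∈ S} = ENNReal.ofReal (2 * W) * volume S := by
  have hm : MeasurableSet {u : ℝ × ℝ | |u.1 + c * u.2| ≤ W ∧ u.2 ∈ S} := by
    exact (isClosed_le (f := fun x : ℝ × ℝ => |x.1 + c * x.2|) (g := fun _ => W)
      (by fun_prop) continuous_const).measurableSet.inter (measurable_snd hS)
  rw [Measure.volume_eq_prod, Measure.prod_apply_symm hm]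
  have : ∀ y : ℝ, volume ((fun x => (x, y)) ⁻¹' {u : ℝ × ℝ | |u.1 + c * u.2| ≤ W ∧ u.2 ∈ S}) =
      S.indicator (fun _ => ENNReal.ofReal (2 * W)) y := by
    intro y
    by_cases hy : y ∈ S
    · rw [indicator_of_mem hy]
      have : ((fun x => (x, y)) ⁻¹' {u : ℝ × ℝ | |u.1 + c * u.2| ≤ W ∧ u.2 ∈ S}) =
          Metric.closedBall (-(c * y)) W := by
        ext x
        simp only [mem_preimage, mem_ofPred_eq, hy, and_true, Metric.mem_closedBall, Real.dist_eq]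
        rw [sub_neg_eq_add]
      rw [this, Real.volume_closedBall]
    · rw [indicator_of_notMem hy]
      have : ((fun x => (x, y)) ⁻¹' {u : ℝ × ℝ | |u.1 + c * u.2| ≤ W ∧ u.2 ∈ S}) = ∅ := by
        ext x
        simp [hy]
      rw [this, measure_empty]
  simp_rw [this]
  rw [lintegral_indicator hS, setLIntegral_const]

theorem vol_line (a d T : ℝ) (hd : d ≠ 0) :
    volume {s : ℝ | |a + d * s| ≤ T} ≤ ENNReal.ofReal (2 * (T / |d|)) := by
  have : {s : ℝ | |a + d * s| ≤ T} ⊆ Metric.closedBall (-(a / d)) (T / |d|) := by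
    intro s hs
    simp only [mem_ofPred_eq] at hs
    rw [Metric.mem_closedBall, Real.dist_eq, sub_neg_eq_add, le_div_iff₀ (abs_pos.2 hd), ← abs_mul]
    have : (s + a / d) * d = a + d * s := by field_simp; ring
    rwa [this]
  refine (measure_mono this).trans ?_
  rw [Real.volume_closedBall]

theorem Q_le {W L c c' : ℝ} (hW : 0 < W) (hL : 0 < L) (hc : |c| ≤ 10) (hc' : |c'| ≤ 10)
    (v : ℝ × ℝ) : ∫⁻ u : ℝ × ℝ, Rk W L c u * Rk W L c' (u + v) ≤ Psi W L c v := by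
  set E : Set (ℝ × ℝ) := {u | u ∈ par W L c ∧ u + v ∈ par W L c'} with hE
  have hEm : MeasurableSet E := (measurableSet_par W L c).inter
    ((measurable_id.add_const v) (measurableSet_par W L c'))
  have h1 : ∀ u : ℝ × ℝ, Rk W L c u * Rk W L c' (u + v) =
      E.indicator (fun _ => ENNReal.ofReal (W * L)⁻¹ * ENNReal.ofReal (W * L)⁻¹) u := by
    intro u
    unfold Rk
    by_cases h1 : u ∈ par W L c
    · by_cases h2 : u + v ∈ par W L c'
      · rw [indicator_of_mem h1, indicator_of_mem h2, indicator_of_mem (show u ∈ E from ⟨h1, h2⟩)]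
      · rw [indicator_of_notMem h2, mul_zero, indicator_of_notMem (fun h : u ∈ E => h2 h.2)]
    · rw [indicator_of_notMem h1, zero_mul, indicator_of_notMem (fun h : u ∈ E => h1 h.1)]
  simp_rw [h1]
  rw [lintegral_indicator hEm, setLIntegral_const]
  rcases E.eq_empty_or_nonempty with h0 | ⟨w, hw⟩
  · rw [h0, measure_empty, mul_zero]; exact bot_le
  -- geometric constraints
  obtain ⟨⟨hw1, hw2⟩, hw3, hw4⟩ := hw
  simp only [Prod.fst_add, Prod.snd_add] at hw3 hw4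
  set h := |v.1 + c * v.2| with hh
  have hdiff : ∀ u ∈ E, |(v.1 + c' * v.2) + (c' - c) * u.2| ≤ 2 * W := by
    rintro u ⟨⟨a1, a2⟩, a3, a4⟩
    simp only [Prod.fst_add, Prod.snd_add] at a3 a4
    have : (v.1 + c' * v.2) + (c' - c) * u.2 = (u.1 + v.1 + c' * (u.2 + v.2)) - (u.1 + c * u.2) := by
      ring
    rw [this]
    calc _ ≤ |u.1 + v.1 + c' * (u.2 + v.2)| + |u.1 + c * u.2| := abs_sub _ _
      _ ≤ W + W := add_le_add a3 a1
      _ = 2 * W := by ring
  have hv2 : |v.2| ≤ 2 * L := by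
    have : v.2 = (w.2 + v.2) - w.2 := by ring
    rw [this]
    calc _ ≤ |w.2 + v.2| + |w.2| := abs_sub _ _
      _ ≤ L + L := add_le_add hw4 hw2
      _ = 2 * L := by ring
  have hdle : |c' - c| ≤ 20 := by
    calc |c' - c| ≤ |c'| + |c| := abs_sub _ _
      _ ≤ 20 := by linarith
  have hkey : h ≤ 2 * W + 3 * L * |c' - c| := by
    have e1 := hdiff w ⟨⟨hw1, hw2⟩, by simpa using hw3, by simpa using hw4⟩
    have : v.1 + c * v.2 = ((v.1 + c' * v.2) + (c' - c) * w.2) - (c' - c) * w.2 - (c' - c) * v.2 := by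
      ring
    rw [hh, this]
    calc _ ≤ |(v.1 + c' * v.2) + (c' - c) * w.2 - (c' - c) * w.2| + |(c' - c) * v.2| := abs_sub _ _
      _ ≤ (|(v.1 + c' * v.2) + (c' - c) * w.2| + |(c' - c) * w.2|) + |(c' - c) * v.2| := by
          gcongr; exact abs_sub _ _
      _ ≤ (2 * W + |c' - c| * L) + |c' - c| * (2 * L) := by
          rw [abs_mul, abs_mul]
          gcongr
      _ = _ := by ring
  have hmem : v ∈ psiSet W L c := by
    refine ⟨?_, hv2⟩
    change h ≤ _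
    nlinarith
  unfold Psi
  rw [indicator_of_mem hmem]
  change _ ≤ ENNReal.ofReal (60 * (L * (h + W))⁻¹)
  have hh0 : 0 ≤ h := abs_nonneg _
  -- volume bounds
  have hvol1 : volume E ≤ ENNReal.ofReal (2 * W) * ENNReal.ofReal (2 * L) := by
    have : E ⊆ {u : ℝ × ℝ | |u.1 + c * u.2| ≤ W ∧ u.2 ∈ Metric.closedBall (0:ℝ) L} := by
      rintro u ⟨⟨a1, a2⟩, _⟩
      refine ⟨a1, ?_⟩
      rw [mem_closedBall_zero_iff]
      exact a2
    refine (measure_mono this).trans ?_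
    rw [vol_aux W c _ Metric.isClosed_closedBall.measurableSet, Real.volume_closedBall]
  rw [← ENNReal.ofReal_mul (by positivity)]
  by_cases hcase : h ≤ 4 * W
  · calc _ ≤ ENNReal.ofReal ((W * L)⁻¹ * (W * L)⁻¹) * (ENNReal.ofReal (2 * W) * ENNReal.ofReal (2 * L)) := by
          gcongr
      _ = ENNReal.ofReal (4 * (W * L)⁻¹) := by
          rw [← ENNReal.ofReal_mul (by positivity), ← ENNReal.ofReal_mul (by positivity)]
          congr 1
          field_simp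
          norm_num
      _ ≤ _ := by
          apply ENNReal.ofReal_le_ofReal
          rw [← div_eq_mul_inv, ← div_eq_mul_inv, div_le_div_iff₀ (by positivity) (by positivity)]
          have : L * (h + W) ≤ L * (5 * W) := by gcongr; linarith
          nlinarith [mul_pos hW hL]
  · push Not at hcase
    have hd : (h / 2) / (3 * L) ≤ |c' - c| := by
      rw [div_le_iff₀ (by positivity)]
      nlinarith
    have hhpos : 0 < h := by linarith
    have hdpos : 0 < |c' - c| := lt_of_lt_of_le (by positivity) hd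
    have hd0 : c' - c ≠ 0 := abs_pos.1 hdpos
    have hvol2 : volume E ≤ ENNReal.ofReal (2 * W) * ENNReal.ofReal (2 * (2 * W / |c' - c|)) := by
      have : E ⊆ {u : ℝ × ℝ | |u.1 + c * u.2| ≤ W ∧
          u.2 ∈ {s : ℝ | |(v.1 + c' * v.2) + (c' - c) * s| ≤ 2 * W}} := by
        intro u hu
        exact ⟨hu.1.1, hdiff u hu⟩
      refine (measure_mono this).trans ?_
      rw [vol_aux W c _ (isClosed_le (by fun_prop) continuous_const).measurableSet]
      gcongr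
      exact vol_line _ _ _ hd0
    calc _ ≤ ENNReal.ofReal ((W * L)⁻¹ * (W * L)⁻¹) *
            (ENNReal.ofReal (2 * W) * ENNReal.ofReal (2 * (2 * W / |c' - c|))) := by gcongr
      _ = ENNReal.ofReal (8 * (L * L * |c' - c|)⁻¹) := by
          rw [← ENNReal.ofReal_mul (by positivity), ← ENNReal.ofReal_mul (by positivity)]
          congr 1
          field_simp
          norm_num
      _ ≤ _ := by
          apply ENNReal.ofReal_le_ofReal
          rw [← div_eq_mul_inv, ← div_eq_mul_inv, div_le_div_iff₀ (by positivity) (by positivity)]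
          have h1 : h ≤ 6 * L * |c' - c| := by
            rw [div_le_iff₀ (by positivity)] at hd
            nlinarith
          have h2 : h + W ≤ 5 / 4 * h := by linarith
          calc 8 * (L * (h + W)) ≤ 8 * (L * (5 / 4 * h)) := by gcongr
            _ = 10 * (L * h) := by ring
            _ ≤ 10 * (L * (6 * L * |c' - c|)) := by gcongr
            _ = _ := by ring

/-- L1 norm of Psi -/
theorem Psi_int {W L c : ℝ} (hW : 0 < W) (hL : 0 < L) :
    ∫⁻ v : ℝ × ℝ, Psi W L c v ≤ ENNReal.ofReal (480 * Real.log (3 + 60 * (L / W))) := by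
  set T := 2 * W + 60 * L with hT
  have hT0 : 0 < T := by positivity
  rw [Measure.volume_eq_prod, lintegral_prod_symm _ (measurable_Psi W L c).aemeasurable]
  have inner : ∀ y : ℝ, ∫⁻ x : ℝ, Psi W L c (x, y) = (Icc (-(2*L)) (2*L)).indicator
      (fun _ => ∫⁻ s : ℝ, (Icc (-T) T).indicator (fun s => ENNReal.ofReal (60 * (L * (|s| + W))⁻¹)) s) y := by
    intro y
    have e1 : ∫⁻ x : ℝ, Psi W L c (x, y) = ∫⁻ s : ℝ, Psi W L c (s - c * y, y) :=
      (lintegral_sub_right_eq_self (fun x => Psi W L c (x, y)) (c * y)).symm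
    rw [e1]
    by_cases hy : y ∈ Icc (-(2*L)) (2*L)
    · rw [indicator_of_mem hy]
      congr 1
      ext s
      unfold Psi
      by_cases hs : s ∈ Icc (-T) T
      · rw [indicator_of_mem hs, indicator_of_mem]
        · simp
        · refine ⟨?_, abs_le.2 hy⟩
          simpa using abs_le.2 hs
      · rw [indicator_of_notMem hs, indicator_of_notMem]
        intro h
        apply hs
        have := h.1
        simp only [sub_add_cancel] at this
        exact abs_le.1 this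
    · rw [indicator_of_notMem hy]
      have : ∀ s : ℝ, Psi W L c (s - c * y, y) = 0 := by
        intro s
        unfold Psi
        rw [indicator_of_notMem]
        intro h
        exact hy (abs_le.1 h.2)
      simp [this]
  simp_rw [inner]
  rw [lintegral_indicator measurableSet_Icc, setLIntegral_const, lintegral_indicator measurableSet_Icc,
    Real.volume_Icc]
  have e2 : ∫⁻ s in Icc (-T) T, ENNReal.ofReal (60 * (L * (|s| + W))⁻¹) =
      ENNReal.ofReal (120 * L⁻¹ * Real.log ((T + W) / W)) := by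
    rw [← ofReal_integral_eq_lintegral_ofReal]
    · congr 1
      rw [integral_Icc_eq_integral_Ioc, ← intervalIntegral.integral_of_le (by linarith)]
      have hcont : Continuous (fun s : ℝ => 60 * (L * (|s| + W))⁻¹) := by
        apply Continuous.mul continuous_const
        apply Continuous.inv₀ (by fun_prop)
        intro s
        positivity
      rw [← intervalIntegral.integral_add_adjacent_intervals (b := 0)
        (hcont.intervalIntegrable _ _) (hcont.intervalIntegrable _ _)]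
      have e3 : ∫ s in (-T)..0, 60 * (L * (|s| + W))⁻¹ = ∫ s in (0:ℝ)..T, 60 * (L * (|s| + W))⁻¹ := by
        have := intervalIntegral.integral_comp_neg (a := 0) (b := T) (fun s : ℝ => 60 * (L * (|s| + W))⁻¹)
        simp only [abs_neg, neg_zero] at this
        exact this.symm
      rw [e3]
      have e4 : ∫ s in (0:ℝ)..T, 60 * (L * (|s| + W))⁻¹ = 60 * L⁻¹ * Real.log ((T + W) / W) := by
        have : ∫ s in (0:ℝ)..T, 60 * (L * (|s| + W))⁻¹ = ∫ s in (0:ℝ)..T, 60 * L⁻¹ * (s + W)⁻¹ := by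
          apply intervalIntegral.integral_congr
          intro s hs
          rw [uIcc_of_le hT0.le] at hs
          simp only
          rw [abs_of_nonneg hs.1, mul_inv]
          ring
        rw [this, intervalIntegral.integral_const_mul, intervalIntegral.integral_comp_add_right
          (fun s => s⁻¹), zero_add, integral_inv_of_pos hW (by positivity)]
      rw [e4]
      ring
    · have hcont : Continuous (fun s : ℝ => 60 * (L * (|s| + W))⁻¹) := by
        apply Continuous.mul continuous_const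
        apply Continuous.inv₀ (by fun_prop)
        intro s
        positivity
      exact hcont.continuousOn.integrableOn_Icc
    · filter_upwards with s
      positivity
  rw [e2, ← ENNReal.ofReal_mul]
  · apply ENNReal.ofReal_le_ofReal
    have : (T + W) / W = 3 + 60 * (L / W) := by
      rw [hT]; field_simp; ring
    rw [this]
    apply le_of_eq
    field_simp
    ring
  · have : 1 ≤ (T + W) / W := by
      rw [le_div_iff₀ hW]; linarith
    have := Real.log_nonneg this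
    positivity

theorem amgm_aux {ι : Type} (J : Finset ι) (a b P P' : ι → ℝ≥0∞) (Q : ι → ι → ℝ≥0∞)
    (h1 : ∀ i k, Q i k ≤ P i) (h2 : ∀ i k, Q i k ≤ P' k) :
    ∑ i ∈ J, ∑ k ∈ J, a i * b k * Q i k ≤
      (∑ i ∈ J, a i) * (∑ i ∈ J, a i * P i) + (∑ k ∈ J, b k) * (∑ k ∈ J, b k * P' k) := by
  rcases le_total (∑ k ∈ J, b k) (∑ i ∈ J, a i) with h | h
  · calc ∑ i ∈ J, ∑ k ∈ J, a i * b k * Q i k ≤ ∑ i ∈ J, ∑ k ∈ J, a i * b k * P i := by
          gcongr with i _ k _; exact h1 i k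
      _ = (∑ k ∈ J, b k) * (∑ i ∈ J, a i * P i) := by
          rw [mul_comm, Finset.sum_mul_sum]
          refine Finset.sum_congr rfl fun i _ => Finset.sum_congr rfl fun k _ => by ring
      _ ≤ (∑ i ∈ J, a i) * (∑ i ∈ J, a i * P i) := by gcongr
      _ ≤ _ := le_self_add
  · calc ∑ i ∈ J, ∑ k ∈ J, a i * b k * Q i k ≤ ∑ i ∈ J, ∑ k ∈ J, a i * b k * P' k := by
          gcongr with i _ k _; exact h2 i k
      _ = (∑ i ∈ J, a i) * (∑ k ∈ J, b k * P' k) := by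
          rw [Finset.sum_mul_sum]
          refine Finset.sum_congr rfl fun i _ => Finset.sum_congr rfl fun k _ => by ring
      _ ≤ (∑ k ∈ J, b k) * (∑ k ∈ J, b k * P' k) := by gcongr
      _ ≤ _ := le_add_self

theorem nik_one {ι : Type} (J : Finset ι) (c : ι → ℝ) (hc : ∀ i, |c i| ≤ 10) {W L : ℝ}
    (hW : 0 < W) (hL : 0 < L) (g : ι → ℝ × ℝ → ℝ≥0∞) (hg : ∀ i, Measurable (g i)) :
    ∫⁻ x : ℝ × ℝ, (∑ i ∈ J, ∫⁻ y : ℝ × ℝ, Rk W L (c i) (x - y) * g i y) ^ 2 ≤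
      ENNReal.ofReal (960 * Real.log (3 + 60 * (L / W))) * ∫⁻ x : ℝ × ℝ, (∑ i ∈ J, g i x) ^ 2 := by
  have hR : ∀ i, Measurable (fun p : (ℝ × ℝ) × (ℝ × ℝ) => Rk W L (c i) (p.1 - p.2)) := fun i =>
    (measurable_Rk W L (c i)).comp (measurable_fst.sub measurable_snd)
  have hRx : ∀ i (y : ℝ × ℝ), Measurable (fun x : ℝ × ℝ => Rk W L (c i) (x - y)) := fun i y =>
    (measurable_Rk W L (c i)).comp (measurable_id.sub_const y)
  have hRy : ∀ i (x : ℝ × ℝ), Measurable (fun y : ℝ × ℝ => Rk W L (c i) (x - y)) := fun i x =>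
    (measurable_Rk W L (c i)).comp (measurable_const.sub measurable_id)
  have hA : ∀ i, Measurable (fun x : ℝ × ℝ => ∫⁻ y : ℝ × ℝ, Rk W L (c i) (x - y) * g i y) := by
    intro i
    apply Measurable.lintegral_prod_right' (f := fun p : (ℝ × ℝ) × (ℝ × ℝ) => Rk W L (c i) (p.1 - p.2) * g i p.2)
    exact (hR i).mul ((hg i).comp measurable_snd)
  -- expand the square
  have step1 : ∫⁻ x : ℝ × ℝ, (∑ i ∈ J, ∫⁻ y : ℝ × ℝ, Rk W L (c i) (x - y) * g i y) ^ 2 =
      ∑ i ∈ J, ∑ k ∈ J, ∫⁻ y : ℝ × ℝ, ∫⁻ y' : ℝ × ℝ, g i y * g k y' *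
        ∫⁻ x : ℝ × ℝ, Rk W L (c i) (x - y) * Rk W L (c k) (x - y') := by
    simp_rw [sq, Finset.sum_mul_sum]
    rw [lintegral_finsetSum]
    swap
    · intro i _
      exact Finset.measurable_sum _ fun k _ => (hA i).mul (hA k)
    refine Finset.sum_congr rfl fun i _ => ?_
    rw [lintegral_finsetSum]
    swap
    · intro k _
      exact (hA i).mul (hA k)
    refine Finset.sum_congr rfl fun k _ => ?_
    have e1 : ∀ x : ℝ × ℝ, (∫⁻ y : ℝ × ℝ, Rk W L (c i) (x - y) * g i y) *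
        (∫⁻ y : ℝ × ℝ, Rk W L (c k) (x - y) * g k y) =
        ∫⁻ y : ℝ × ℝ, ∫⁻ y' : ℝ × ℝ, g i y * g k y' * (Rk W L (c i) (x - y) * Rk W L (c k) (x - y')) := by
      intro x
      rw [← lintegral_mul_const]
      swap
      · exact (hRy i x).mul (hg i)
      congr 1
      ext y
      rw [← lintegral_const_mul]
      swap
      · exact (hRy k x).mul (hg k)
      congr 1
      ext y'
      ring
    simp_rw [e1]
    rw [lintegral_lintegral_swap]
    swap
    · apply Measurable.aemeasurable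
      apply Measurable.lintegral_prod_right'
        (f := fun p : ((ℝ × ℝ) × (ℝ × ℝ)) × (ℝ × ℝ) => g i p.1.2 * g k p.2 *
          (Rk W L (c i) (p.1.1 - p.1.2) * Rk W L (c k) (p.1.1 - p.2)))
      have a1 : Measurable (fun p : ((ℝ × ℝ) × (ℝ × ℝ)) × (ℝ × ℝ) => g i p.1.2) :=
        (hg i).comp (measurable_snd.comp measurable_fst)
      have a2 : Measurable (fun p : ((ℝ × ℝ) × (ℝ × ℝ)) × (ℝ × ℝ) => g k p.2) :=
        (hg k).comp measurable_snd
      have a3 : Measurable (fun p : ((ℝ × ℝ) × (ℝ × ℝ)) × (ℝ × ℝ) => Rk W L (c i) (p.1.1 - p.1.2)) :=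
        (hR i).comp measurable_fst
      have a4 : Measurable (fun p : ((ℝ × ℝ) × (ℝ × ℝ)) × (ℝ × ℝ) => Rk W L (c k) (p.1.1 - p.2)) :=
        (measurable_Rk W L (c k)).comp ((measurable_fst.comp measurable_fst).sub measurable_snd)
      exact (a1.mul a2).mul (a3.mul a4)
    congr 1
    ext y
    rw [lintegral_lintegral_swap]
    swap
    · apply Measurable.aemeasurable
      have a2 : Measurable (fun p : (ℝ × ℝ) × (ℝ × ℝ) => g k p.2) := (hg k).comp measurable_snd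
      have a3 : Measurable (fun p : (ℝ × ℝ) × (ℝ × ℝ) => Rk W L (c i) (p.1 - y)) :=
        (hRx i y).comp measurable_fst
      exact (measurable_const.mul a2).mul (a3.mul (hR k))
    congr 1
    ext y'
    rw [lintegral_const_mul]
    exact (hRx i y).mul (hRx k y')
  -- the kernel bound
  have hQ1 : ∀ i k (y y' : ℝ × ℝ), ∫⁻ x : ℝ × ℝ, Rk W L (c i) (x - y) * Rk W L (c k) (x - y') ≤
      Psi W L (c i) (y - y') := by
    intro i k y y'
    rw [← lintegral_add_right_eq_self _ y]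
    have : ∀ x : ℝ × ℝ, Rk W L (c i) (x + y - y) * Rk W L (c k) (x + y - y') =
        Rk W L (c i) x * Rk W L (c k) (x + (y - y')) := by
      intro x
      rw [add_sub_cancel_right, add_sub_assoc]
    simp_rw [this]
    exact Q_le hW hL (hc i) (hc k) _
  have hQ2 : ∀ i k (y y' : ℝ × ℝ), ∫⁻ x : ℝ × ℝ, Rk W L (c i) (x - y) * Rk W L (c k) (x - y') ≤
      Psi W L (c k) (y - y') := by
    intro i k y y'
    have := hQ1 k i y' y
    simp_rw [mul_comm (Rk W L (c k) _)] at this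
    rwa [← Psi_neg, neg_sub]
  have hPm : ∀ i, Measurable (fun p : (ℝ × ℝ) × (ℝ × ℝ) => Psi W L (c i) (p.1 - p.2)) := fun i =>
    (measurable_Psi W L (c i)).comp (measurable_fst.sub measurable_snd)
  have hPy : ∀ i (y : ℝ × ℝ), Measurable (fun y' : ℝ × ℝ => Psi W L (c i) (y - y')) := fun i y =>
    (measurable_Psi W L (c i)).comp (measurable_id.const_sub y)
  have hPy' : ∀ i (y' : ℝ × ℝ), Measurable (fun y : ℝ × ℝ => Psi W L (c i) (y - y')) := fun i y' =>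
    (measurable_Psi W L (c i)).comp (measurable_id.sub_const y')
  have hG : Measurable (fun x : ℝ × ℝ => ∑ i ∈ J, g i x) := Finset.measurable_sum _ fun i _ => hg i
  have hK : ∀ i (y : ℝ × ℝ), ∫⁻ y' : ℝ × ℝ, Psi W L (c i) (y - y') ≤
      ENNReal.ofReal (480 * Real.log (3 + 60 * (L / W))) := by
    intro i y
    rw [lintegral_sub_left_eq_self (fun v => Psi W L (c i) v) y]
    exact Psi_int hW hL
  have hK' : ∀ i (y' : ℝ × ℝ), ∫⁻ y : ℝ × ℝ, Psi W L (c i) (y - y') ≤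
      ENNReal.ofReal (480 * Real.log (3 + 60 * (L / W))) := by
    intro i y
    rw [lintegral_sub_right_eq_self (fun v => Psi W L (c i) v) y]
    exact Psi_int hW hL
  set K := ENNReal.ofReal (480 * Real.log (3 + 60 * (L / W))) with hKdef
  set F1 : (ℝ × ℝ) → (ℝ × ℝ) → ℝ≥0∞ := fun y y' =>
    (∑ i ∈ J, g i y) * (∑ i ∈ J, g i y * Psi W L (c i) (y - y')) with hF1
  set F2 : (ℝ × ℝ) → (ℝ × ℝ) → ℝ≥0∞ := fun y y' =>
    (∑ i ∈ J, g i y') * (∑ i ∈ J, g i y' * Psi W L (c i) (y - y')) with hF2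
  have hF1m : Measurable (fun p : (ℝ × ℝ) × (ℝ × ℝ) => F1 p.1 p.2) :=
    (hG.comp measurable_fst).mul (Finset.measurable_sum _ fun i _ =>
      ((hg i).comp measurable_fst).mul (hPm i))
  have hF2m : Measurable (fun p : (ℝ × ℝ) × (ℝ × ℝ) => F2 p.1 p.2) :=
    (hG.comp measurable_snd).mul (Finset.measurable_sum _ fun i _ =>
      ((hg i).comp measurable_snd).mul (hPm i))
  have step2 : ∑ i ∈ J, ∑ k ∈ J, ∫⁻ y : ℝ × ℝ, ∫⁻ y' : ℝ × ℝ, g i y * g k y' *
        ∫⁻ x : ℝ × ℝ, Rk W L (c i) (x - y) * Rk W L (c k) (x - y') ≤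
      ∫⁻ y : ℝ × ℝ, ∫⁻ y' : ℝ × ℝ, (F1 y y' + F2 y y') := by
    set Q : ι → ι → (ℝ × ℝ) → (ℝ × ℝ) → ℝ≥0∞ := fun i k y y' =>
      ∫⁻ x : ℝ × ℝ, Rk W L (c i) (x - y) * Rk W L (c k) (x - y') with hQdef
    have hQm : ∀ i k, Measurable (fun p : (ℝ × ℝ) × (ℝ × ℝ) => Q i k p.1 p.2) := by
      intro i k
      apply Measurable.lintegral_prod_right'
        (f := fun p : ((ℝ × ℝ) × (ℝ × ℝ)) × (ℝ × ℝ) =>
          (Rk W L (c i) (p.2 - p.1.1) * Rk W L (c k) (p.2 - p.1.2)))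
      have a3 : Measurable (fun p : ((ℝ × ℝ) × (ℝ × ℝ)) × (ℝ × ℝ) => Rk W L (c i) (p.2 - p.1.1)) :=
        (measurable_Rk W L (c i)).comp (measurable_snd.sub (measurable_fst.comp measurable_fst))
      have a4 : Measurable (fun p : ((ℝ × ℝ) × (ℝ × ℝ)) × (ℝ × ℝ) => Rk W L (c k) (p.2 - p.1.2)) :=
        (measurable_Rk W L (c k)).comp (measurable_snd.sub (measurable_snd.comp measurable_fst))
      exact a3.mul a4
    have hterm : ∀ i k, Measurable (fun p : (ℝ × ℝ) × (ℝ × ℝ) => g i p.1 * g k p.2 * Q i k p.1 p.2) :=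
      fun i k => (((hg i).comp measurable_fst).mul ((hg k).comp measurable_snd)).mul (hQm i k)
    have e2 : ∑ i ∈ J, ∑ k ∈ J, ∫⁻ y : ℝ × ℝ, ∫⁻ y' : ℝ × ℝ, g i y * g k y' * Q i k y y' =
        ∫⁻ y : ℝ × ℝ, ∫⁻ y' : ℝ × ℝ, ∑ i ∈ J, ∑ k ∈ J, g i y * g k y' * Q i k y y' := by
      have : ∀ y : ℝ × ℝ, ∫⁻ y' : ℝ × ℝ, ∑ i ∈ J, ∑ k ∈ J, g i y * g k y' * Q i k y y' =
          ∑ i ∈ J, ∑ k ∈ J, ∫⁻ y' : ℝ × ℝ, g i y * g k y' * Q i k y y' := by
        intro y
        rw [lintegral_finsetSum]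
        · refine Finset.sum_congr rfl fun i _ => ?_
          rw [lintegral_finsetSum]
          intro k _
          exact (hterm i k).comp (measurable_const.prodMk measurable_id)
        · intro i _
          exact Finset.measurable_sum _ fun k _ => (hterm i k).comp (measurable_const.prodMk measurable_id)
      simp_rw [this]
      rw [lintegral_finsetSum]
      · refine Finset.sum_congr rfl fun i _ => ?_
        rw [lintegral_finsetSum]
        intro k _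
        exact (hterm i k).lintegral_prod_right'
      · intro i _
        exact Finset.measurable_sum _ fun k _ => (hterm i k).lintegral_prod_right'
    rw [e2]
    gcongr with y y'
    exact amgm_aux J (fun i => g i y) (fun k => g k y') (fun i => Psi W L (c i) (y - y'))
      (fun k => Psi W L (c k) (y - y')) (fun i k => Q i k y y')
      (fun i k => hQ1 i k y y') (fun i k => hQ2 i k y y')
  have step3 : ∫⁻ y : ℝ × ℝ, ∫⁻ y' : ℝ × ℝ, (F1 y y' + F2 y y') ≤
      2 * K * ∫⁻ x : ℝ × ℝ, (∑ i ∈ J, g i x) ^ 2 := by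
    have e3 : ∫⁻ y : ℝ × ℝ, ∫⁻ y' : ℝ × ℝ, (F1 y y' + F2 y y') =
        (∫⁻ y : ℝ × ℝ, ∫⁻ y' : ℝ × ℝ, F1 y y') + ∫⁻ y' : ℝ × ℝ, ∫⁻ y : ℝ × ℝ, F2 y y' := by
      rw [lintegral_lintegral_swap (f := fun y' y => F2 y y')]
      swap
      · exact (hF2m.comp measurable_swap).aemeasurable
      rw [← lintegral_add_left]
      swap
      · exact hF1m.lintegral_prod_right'
      congr 1
      ext y
      rw [lintegral_add_left]
      exact hF1m.comp (measurable_const.prodMk measurable_id)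
    rw [e3]
    have b1 : ∫⁻ y : ℝ × ℝ, ∫⁻ y' : ℝ × ℝ, F1 y y' ≤ K * ∫⁻ x : ℝ × ℝ, (∑ i ∈ J, g i x) ^ 2 := by
      rw [← lintegral_const_mul _ (hG.pow_const 2)]
      apply lintegral_mono
      intro y
      simp only [hF1]
      rw [lintegral_const_mul]
      swap
      · exact Finset.measurable_sum _ fun i _ =>
          (measurable_const.mul (hPy i y))
      rw [lintegral_finsetSum]
      swap
      · intro i _
        exact (measurable_const.mul (hPy i y))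
      calc _ ≤ (∑ i ∈ J, g i y) * ∑ i ∈ J, g i y * K := by
            gcongr with i _
            rw [lintegral_const_mul]
            swap
            · exact (hPy i y)
            gcongr
            exact hK i y
        _ = _ := by rw [← Finset.sum_mul]; ring
    have b2 : ∫⁻ y' : ℝ × ℝ, ∫⁻ y : ℝ × ℝ, F2 y y' ≤ K * ∫⁻ x : ℝ × ℝ, (∑ i ∈ J, g i x) ^ 2 := by
      rw [← lintegral_const_mul _ (hG.pow_const 2)]
      apply lintegral_mono
      intro y'
      simp only [hF2]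
      rw [lintegral_const_mul]
      swap
      · exact Finset.measurable_sum _ fun i _ =>
          (measurable_const.mul (hPy' i y'))
      rw [lintegral_finsetSum]
      swap
      · intro i _
        exact (measurable_const.mul (hPy' i y'))
      calc _ ≤ (∑ i ∈ J, g i y') * ∑ i ∈ J, g i y' * K := by
            gcongr with i _
            rw [lintegral_const_mul]
            swap
            · exact (hPy' i y')
            gcongr
            exact hK' i y'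
        _ = _ := by rw [← Finset.sum_mul]; ring
    calc _ ≤ K * (∫⁻ x : ℝ × ℝ, (∑ i ∈ J, g i x) ^ 2) + K * (∫⁻ x : ℝ × ℝ, (∑ i ∈ J, g i x) ^ 2) :=
          add_le_add b1 b2
      _ = _ := by ring
  rw [step1]
  refine (step2.trans step3).trans (le_of_eq ?_)
  congr 1
  rw [hKdef, show (2:ℝ≥0∞) = ENNReal.ofReal 2 by simp, ← ENNReal.ofReal_mul (by norm_num)]
  congr 1
  ring


theorem cauchy_tail (a : ℝ) : ∃ k : ℕ, |a| ≤ 2 ^ k ∧ (1 + a ^ 2)⁻¹ ≤ 4 * (1 / 4 : ℝ) ^ k := by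
  by_cases h : |a| ≤ 1
  · refine ⟨0, by simpa using h, ?_⟩
    have : (1 + a ^ 2)⁻¹ ≤ 1 := inv_le_one_of_one_le₀ (by nlinarith [sq_nonneg a])
    simp
    linarith
  · push Not at h
    obtain ⟨k, hk1, hk2⟩ := exists_nat_pow_near h.le (one_lt_two)
    refine ⟨k + 1, hk2.le, ?_⟩
    have h1 : (4:ℝ) ^ k ≤ a ^ 2 := by
      calc (4:ℝ) ^ k = ((2:ℝ) ^ k) ^ 2 := by rw [← pow_mul, mul_comm, pow_mul]; norm_num
        _ ≤ |a| ^ 2 := by gcongr
        _ = a ^ 2 := sq_abs a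
    have h2 : (1 + a ^ 2)⁻¹ ≤ ((4:ℝ) ^ k)⁻¹ := inv_anti₀ (by positivity) (by linarith)
    refine h2.trans (le_of_eq ?_)
    rw [pow_succ, one_div, inv_pow]
    ring

theorem tube_le {W L c : ℝ} (hW : 0 < W) (hL : 0 < L) (x : ℝ × ℝ) :
    ENNReal.ofReal (tube W L c x) ≤ ∑' n : ℕ × ℕ,
      ENNReal.ofReal (16 * ((1/2) ^ n.1 * (1/2) ^ n.2)) * Rk (2 ^ n.1 * W) (2 ^ n.2 * L) c x := by
  obtain ⟨k, hk1, hk2⟩ := cauchy_tail ((x.1 + c * x.2) / W)
  obtain ⟨l, hl1, hl2⟩ := cauchy_tail (x.2 / L)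
  refine le_trans ?_ (ENNReal.le_tsum (k, l))
  have hmem : x ∈ par (2 ^ k * W) (2 ^ l * L) c := by
    rw [abs_div, abs_of_pos hW, div_le_iff₀ hW] at hk1
    rw [abs_div, abs_of_pos hL, div_le_iff₀ hL] at hl1
    exact ⟨hk1, hl1⟩
  unfold Rk
  rw [indicator_of_mem hmem, ← ENNReal.ofReal_mul (by positivity)]
  apply ENNReal.ofReal_le_ofReal
  unfold tube
  calc (W * L)⁻¹ * (1 + ((x.1 + c * x.2) / W) ^ 2)⁻¹ * (1 + (x.2 / L) ^ 2)⁻¹
      ≤ (W * L)⁻¹ * (4 * (1 / 4) ^ k) * (4 * (1 / 4) ^ l) := by gcongr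
    _ = _ := by
      have e : (1/4:ℝ) = (1/2) * (1/2) := by norm_num
      rw [e, mul_pow, mul_pow]
      simp only [one_div, inv_pow]
      field_simp
      norm_num

theorem tsum_sq_le (w s : ℕ × ℕ → ℝ≥0∞) :
    (∑' n, w n * s n) ^ 2 ≤ 2 * (∑' n, w n) * ∑' n, w n * s n ^ 2 := by
  have h1 : (∑' n, w n * s n) ^ 2 = ∑' n, ∑' m, (w n * s n) * (w m * s m) := by
    rw [sq, ← ENNReal.tsum_mul_right]
    congr 1
    ext n
    rw [← ENNReal.tsum_mul_left]
  rw [h1]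
  calc ∑' n, ∑' m, (w n * s n) * (w m * s m)
      ≤ ∑' n, ∑' m, (w n * w m * s n ^ 2 + w n * w m * s m ^ 2) := by
        refine ENNReal.tsum_le_tsum fun n => ENNReal.tsum_le_tsum fun m => ?_
        have : s n * s m ≤ s n ^ 2 + s m ^ 2 := by
          rcases le_total (s n) (s m) with h | h
          · calc s n * s m ≤ s m * s m := by gcongr
              _ = s m ^ 2 := (sq _).symm
              _ ≤ _ := le_add_self
          · calc s n * s m ≤ s n * s n := by gcongr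
              _ = s n ^ 2 := (sq _).symm
              _ ≤ _ := le_self_add
        calc (w n * s n) * (w m * s m) = w n * w m * (s n * s m) := by ring
          _ ≤ w n * w m * (s n ^ 2 + s m ^ 2) := by gcongr
          _ = _ := by ring
    _ = 2 * (∑' n, w n) * ∑' n, w n * s n ^ 2 := by
        have e1 : ∀ n, ∑' m, (w n * w m * s n ^ 2 + w n * w m * s m ^ 2) =
            (w n * s n ^ 2) * (∑' m, w m) + w n * ∑' m, w m * s m ^ 2 := by
          intro n
          rw [ENNReal.tsum_add, ← ENNReal.tsum_mul_left, ← ENNReal.tsum_mul_left]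
          congr 2
          · ext m; ring
          · ext m; ring
        simp_rw [e1]
        rw [ENNReal.tsum_add, ENNReal.tsum_mul_right, ENNReal.tsum_mul_right]
        ring

theorem T04_nikodym : ∃ C : ℝ, 0 ≤ C ∧ ∀ (ι : Type) (J : Finset ι) (c : ι → ℝ)
    (_ : ∀ i, |c i| ≤ 10) (W L : ℝ),
    0 < W → W ≤ L → ∀ g : ι → ℝ × ℝ → ℝ≥0∞, (∀ i, Measurable (g i)) →
    ∫⁻ x : ℝ × ℝ, (∑ i ∈ J, ∫⁻ y : ℝ × ℝ, ENNReal.ofReal (tube W L (c i) (x - y)) * g i y) ^ 2
      ≤ ENNReal.ofReal (C * (1 + Real.log (L / W))) * ∫⁻ x : ℝ × ℝ, (∑ i ∈ J, g i x) ^ 2 := by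
  -- constants
  set w : ℕ × ℕ → ℝ≥0∞ := fun n => ENNReal.ofReal (16 * ((1/2) ^ n.1 * (1/2) ^ n.2)) with hw
  set C1 : ℝ≥0∞ := ∑' n : ℕ × ℕ, w n with hC1
  set C2 : ℝ≥0∞ := ∑' n : ℕ × ℕ, w n * ENNReal.ofReal (1 + n.2) with hC2
  have hgeo : Summable (fun n : ℕ => (1/2 : ℝ) ^ n) := summable_geometric_two
  have hgeo2 : Summable (fun n : ℕ => (1/2 : ℝ) ^ n * (1 + (n:ℝ))) := by
    have h1 : Summable (fun n : ℕ => ((n:ℝ) ^ 1 : ℝ) * (1/2 : ℝ) ^ n) :=
      summable_pow_mul_geometric_of_norm_lt_one 1 (by norm_num)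
    have := hgeo.add h1
    refine this.congr fun n => ?_
    ring
  have hC1' : C1 ≠ ∞ := by
    have h2 : Summable (fun n : ℕ × ℕ => (16 * ((1/2 : ℝ) ^ n.1 * (1/2) ^ n.2))) :=
      (hgeo.mul_of_nonneg hgeo (fun _ => by positivity) (fun _ => by positivity)).mul_left 16
    exact h2.tsum_ofReal_ne_top
  have hC2' : C2 ≠ ∞ := by
    have h2 : Summable (fun n : ℕ × ℕ => (16 * ((1/2 : ℝ) ^ n.1 * ((1/2) ^ n.2 * (1 + (n.2:ℝ)))))) :=
      (hgeo.mul_of_nonneg hgeo2 (fun _ => by positivity) (fun _ => by positivity)).mul_left 16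
    have h3 : C2 = ∑' n : ℕ × ℕ, ENNReal.ofReal (16 * ((1/2 : ℝ) ^ n.1 * ((1/2) ^ n.2 * (1 + (n.2:ℝ))))) := by
      rw [hC2]
      congr 1
      ext n
      rw [hw, ← ENNReal.ofReal_mul (by positivity)]
      congr 1
      ring
    rw [h3]
    exact h2.tsum_ofReal_ne_top
  refine ⟨2 * C1.toReal * C2.toReal * 4800, by positivity, ?_⟩
  intro ι J c hc W L hW hWL g hg
  have hL : 0 < L := hW.trans_le hWL
  set S : ℕ × ℕ → ℝ × ℝ → ℝ≥0∞ := fun n x =>
    ∑ i ∈ J, ∫⁻ y : ℝ × ℝ, Rk (2 ^ n.1 * W) (2 ^ n.2 * L) (c i) (x - y) * g i y with hS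
  have hRy : ∀ (n : ℕ × ℕ) i (x : ℝ × ℝ), Measurable (fun y : ℝ × ℝ =>
      Rk (2 ^ n.1 * W) (2 ^ n.2 * L) (c i) (x - y)) := fun n i x =>
    (measurable_Rk _ _ (c i)).comp (measurable_const.sub measurable_id)
  have hSm : ∀ n, Measurable (S n) := by
    intro n
    apply Finset.measurable_sum
    intro i _
    apply Measurable.lintegral_prod_right' (f := fun p : (ℝ × ℝ) × (ℝ × ℝ) =>
      Rk (2 ^ n.1 * W) (2 ^ n.2 * L) (c i) (p.1 - p.2) * g i p.2)
    exact ((measurable_Rk _ _ (c i)).comp (measurable_fst.sub measurable_snd)).mul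
      ((hg i).comp measurable_snd)
  have hpt : ∀ x : ℝ × ℝ, ∑ i ∈ J, ∫⁻ y : ℝ × ℝ, ENNReal.ofReal (tube W L (c i) (x - y)) * g i y ≤
      ∑' n, w n * S n x := by
    intro x
    calc ∑ i ∈ J, ∫⁻ y : ℝ × ℝ, ENNReal.ofReal (tube W L (c i) (x - y)) * g i y
        ≤ ∑ i ∈ J, ∫⁻ y : ℝ × ℝ, (∑' n : ℕ × ℕ, w n *
          Rk (2 ^ n.1 * W) (2 ^ n.2 * L) (c i) (x - y)) * g i y := by
          gcongr with i _ y
          exact tube_le hW hL _
      _ = ∑ i ∈ J, ∑' n : ℕ × ℕ, w n * ∫⁻ y : ℝ × ℝ,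
          Rk (2 ^ n.1 * W) (2 ^ n.2 * L) (c i) (x - y) * g i y := by
          refine Finset.sum_congr rfl fun i _ => ?_
          have : ∀ y : ℝ × ℝ, (∑' n : ℕ × ℕ, w n * Rk (2 ^ n.1 * W) (2 ^ n.2 * L) (c i) (x - y)) * g i y =
              ∑' n : ℕ × ℕ, w n * (Rk (2 ^ n.1 * W) (2 ^ n.2 * L) (c i) (x - y) * g i y) := by
            intro y
            rw [← ENNReal.tsum_mul_right]
            congr 1
            ext n
            ring
          simp_rw [this]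
          rw [lintegral_tsum]
          · congr 1
            ext n
            rw [lintegral_const_mul]
            exact (hRy n i x).mul (hg i)
          · intro n
            exact (measurable_const.mul ((hRy n i x).mul (hg i))).aemeasurable
      _ = ∑' n, w n * S n x := by
          rw [← Summable.tsum_finsetSum (fun i _ => ENNReal.summable)]
          congr 1
          ext n
          rw [hS, Finset.mul_sum]
  have hone : ∀ n, ∫⁻ x, S n x ^ 2 ≤ ENNReal.ofReal (4800 * (1 + Real.log (L / W))) *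
      ENNReal.ofReal (1 + n.2) * ∫⁻ x : ℝ × ℝ, (∑ i ∈ J, g i x) ^ 2 := by
    intro n
    refine (nik_one J c hc (by positivity) (by positivity) g hg).trans ?_
    gcongr
    rw [← ENNReal.ofReal_mul]
    · apply ENNReal.ofReal_le_ofReal
      have h1 : 1 ≤ L / W := by rw [le_div_iff₀ hW]; linarith
      have hlog0 : 0 ≤ Real.log (L / W) := Real.log_nonneg h1
      have h2 : 3 + 60 * (2 ^ n.2 * L / (2 ^ n.1 * W)) ≤ 2 ^ (n.2) * (64 * (L / W)) := by
        have e1 : (2:ℝ) ^ n.2 * L / (2 ^ n.1 * W) ≤ 2 ^ n.2 * (L / W) := by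
          rw [mul_div_assoc', div_le_div_iff₀ (by positivity) hW]
          have : (1:ℝ) ≤ 2 ^ n.1 := one_le_pow₀ (by norm_num)
          nlinarith [mul_pos (mul_pos (pow_pos two_pos n.2 : (0:ℝ) < 2 ^ n.2) hL) hW]
        have e2 : (1:ℝ) ≤ 2 ^ n.2 * (L / W) := by
          have : (1:ℝ) ≤ 2 ^ n.2 := one_le_pow₀ (by norm_num)
          nlinarith
        nlinarith
      have h3 : Real.log (3 + 60 * (2 ^ n.2 * L / (2 ^ n.1 * W))) ≤ n.2 * 1 + (5 + Real.log (L / W)) := by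
        refine (Real.log_le_log (by positivity) h2).trans ?_
        rw [Real.log_mul (by positivity) (by positivity), Real.log_mul (by norm_num) (by positivity),
          Real.log_pow]
        have e3 : Real.log 2 ≤ 1 := by linarith [Real.log_two_lt_d9]
        have e4 : Real.log 64 ≤ 5 := by
          rw [show (64:ℝ) = 2 ^ 6 by norm_num, Real.log_pow]
          push_cast
          linarith [Real.log_two_lt_d9]
        gcongr
      have hn : (0:ℝ) ≤ n.2 := Nat.cast_nonneg _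
      calc 960 * Real.log (3 + 60 * (2 ^ n.2 * L / (2 ^ n.1 * W)))
          ≤ 960 * (n.2 * 1 + (5 + Real.log (L / W))) := by gcongr
        _ ≤ 4800 * (1 + Real.log (L / W)) * (1 + n.2) := by nlinarith [mul_nonneg hn hlog0]
    · have h1 : 1 ≤ L / W := by rw [le_div_iff₀ hW]; linarith
      have := Real.log_nonneg h1
      positivity
  calc ∫⁻ x : ℝ × ℝ, (∑ i ∈ J, ∫⁻ y : ℝ × ℝ, ENNReal.ofReal (tube W L (c i) (x - y)) * g i y) ^ 2
      ≤ ∫⁻ x : ℝ × ℝ, 2 * C1 * ∑' n, w n * S n x ^ 2 := by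
        apply lintegral_mono
        intro x
        exact (pow_le_pow_left' (hpt x) 2).trans (tsum_sq_le w (fun n => S n x))
    _ = 2 * C1 * ∑' n, w n * ∫⁻ x : ℝ × ℝ, S n x ^ 2 := by
        rw [lintegral_const_mul]
        · congr 1
          rw [lintegral_tsum]
          · congr 1
            ext n
            rw [lintegral_const_mul _ ((hSm n).pow_const 2)]
          · intro n
            exact (measurable_const.mul ((hSm n).pow_const 2)).aemeasurable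
        · exact Measurable.tsum fun n => (measurable_const.mul ((hSm n).pow_const 2))
    _ ≤ 2 * C1 * ∑' n, w n * (ENNReal.ofReal (4800 * (1 + Real.log (L / W))) *
          ENNReal.ofReal (1 + n.2) * ∫⁻ x : ℝ × ℝ, (∑ i ∈ J, g i x) ^ 2) := by
        gcongr with n
        exact hone n
    _ = 2 * C1 * C2 * ENNReal.ofReal (4800 * (1 + Real.log (L / W))) *
          ∫⁻ x : ℝ × ℝ, (∑ i ∈ J, g i x) ^ 2 := by
        have : ∀ n : ℕ × ℕ, w n * (ENNReal.ofReal (4800 * (1 + Real.log (L / W))) *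
          ENNReal.ofReal (1 + n.2) * ∫⁻ x : ℝ × ℝ, (∑ i ∈ J, g i x) ^ 2) =
          (w n * ENNReal.ofReal (1 + n.2)) * (ENNReal.ofReal (4800 * (1 + Real.log (L / W))) *
          ∫⁻ x : ℝ × ℝ, (∑ i ∈ J, g i x) ^ 2) := by intro n; ring
        simp_rw [this]
        rw [ENNReal.tsum_mul_right]
        ring
    _ = _ := by
        congr 1
        have h1 : 1 ≤ L / W := by rw [le_div_iff₀ hW]; linarith
        have := Real.log_nonneg h1
        rw [show 2 * C1.toReal * C2.toReal * 4800 * (1 + Real.log (L / W)) =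
          2 * (C1.toReal * (C2.toReal * (4800 * (1 + Real.log (L / W))))) by ring]
        generalize 4800 * (1 + Real.log (L / W)) = D
        rw [ENNReal.ofReal_mul (by norm_num), ENNReal.ofReal_mul ENNReal.toReal_nonneg,
          ENNReal.ofReal_mul ENNReal.toReal_nonneg, ENNReal.ofReal_toReal hC1', ENNReal.ofReal_toReal hC2']
        rw [show ENNReal.ofReal 2 = 2 by simp]
        ring

end Vale.Agent.P117
end
end

section

section

open MeasureTheory Complex Set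
open scoped ENNReal NNReal ContDiff FourierTransform SchwartzMap ComplexConjugate

namespace Vale.Agent.P117

/-- exponential monomial -/
noncomputable def ej (j : ℤ) (t : ℝ) : ℂ := cexp (2 * Real.pi * I * j * t)

theorem continuous_ej (j : ℤ) : Continuous (ej j) := by
  unfold ej; fun_prop

theorem norm_ej (j : ℤ) (t : ℝ) : ‖ej j t‖ = 1 := by
  unfold ej
  have : (2 * Real.pi * I * j * t : ℂ) = ((2 * Real.pi * j * t : ℝ) : ℂ) * I := by
    push_cast; ring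
  rw [this, Complex.norm_exp_ofReal_mul_I]

theorem ej_add_int (j : ℤ) (t : ℝ) (n : ℤ) : ej j (t + n) = ej j t := by
  unfold ej
  have : (2 * Real.pi * I * j * ((t + n : ℝ) : ℂ)) = 2 * Real.pi * I * j * t + ((j * n : ℤ) : ℂ) * (2 * Real.pi * I) := by
    push_cast; ring
  rw [this, Complex.exp_add, Complex.exp_int_mul_two_pi_mul_I, mul_one]

theorem ej_mul_conj (j k : ℤ) (t : ℝ) : ej j t * conj (ej k t) = ej (j - k) t := by
  unfold ej
  rw [← Complex.exp_conj, ← Complex.exp_add]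
  congr 1
  simp only [map_mul, Complex.conj_I, Complex.conj_ofReal, Complex.conj_ofNat, map_intCast]
  push_cast; ring

theorem integral_ej (j : ℤ) : ∫ t in (0:ℝ)..1, ej j t = if j = 0 then 1 else 0 := by
  split_ifs with h
  · simp [h, ej]
  · have hc : (2 * Real.pi * I * j : ℂ) ≠ 0 := by
      have : (j : ℂ) ≠ 0 := by exact_mod_cast h
      have hp : (Real.pi : ℂ) ≠ 0 := by exact_mod_cast Real.pi_ne_zero
      simp [this, hp]
    unfold ej
    rw [integral_exp_mul_complex hc]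
    have : cexp (2 * Real.pi * I * j * ((1:ℝ):ℂ)) = 1 := by
      have e : (2 * Real.pi * I * j * ((1:ℝ):ℂ) : ℂ) = (j : ℂ) * (2 * Real.pi * I) := by push_cast; ring
      rw [e, Complex.exp_int_mul_two_pi_mul_I]
    rw [this]
    simp

theorem trig_L2 (J : Finset ℤ) (c : ℤ → ℂ) :
    ∫ t in (0:ℝ)..1, ‖∑ j ∈ J, c j * ej j t‖ ^ 2 = ∑ j ∈ J, ‖c j‖ ^ 2 := by
  have h1 : ((∫ t in (0:ℝ)..1, ‖∑ j ∈ J, c j * ej j t‖ ^ 2 : ℝ) : ℂ) = ((∑ j ∈ J, ‖c j‖ ^ 2 : ℝ) : ℂ) := by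
    rw [← intervalIntegral.integral_ofReal]
    have : ∀ t : ℝ, ((‖∑ j ∈ J, c j * ej j t‖ ^ 2 : ℝ) : ℂ) =
        ∑ j ∈ J, ∑ k ∈ J, c j * conj (c k) * ej (j - k) t := by
      intro t
      push_cast
      rw [← Complex.mul_conj', map_sum, Finset.sum_mul_sum]
      refine Finset.sum_congr rfl fun j _ => Finset.sum_congr rfl fun k _ => ?_
      rw [← ej_mul_conj, map_mul]; ring
    simp_rw [this]
    rw [intervalIntegral.integral_finsetSum]
    swap
    · intro j _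
      apply Continuous.intervalIntegrable
      have := continuous_ej
      fun_prop
    push_cast
    refine Finset.sum_congr rfl fun j hj => ?_
    rw [intervalIntegral.integral_finsetSum]
    swap
    · intro k _
      apply Continuous.intervalIntegrable
      have := continuous_ej
      fun_prop
    simp_rw [intervalIntegral.integral_const_mul, integral_ej]
    have : ∀ k, (c j * conj (c k) * (if j - k = 0 then (1:ℂ) else 0)) = if k = j then c j * conj (c j) else 0 := by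
      intro k
      by_cases hk : k = j
      · simp [hk]
      · have : j - k ≠ 0 := fun h => hk (by linarith)
        simp [hk, this]
    simp_rw [this]
    rw [Finset.sum_ite_eq' J j, if_pos hj, Complex.mul_conj']
  exact_mod_cast h1

theorem trig_weighted : ∃ C : ℝ, 1 ≤ C ∧ ∀ (J : Finset ℤ) (c : ℤ → ℂ),
    ∫⁻ t : ℝ, ENNReal.ofReal ((1 + t ^ 2)⁻¹ * ‖∑ j ∈ J, c j * ej j t‖ ^ 2)
      ≤ ENNReal.ofReal (C * ∑ j ∈ J, ‖c j‖ ^ 2) := by
  have hsum : Summable (fun n : ℤ => 3 * (1 + (n:ℝ) ^ 2)⁻¹) := by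
    apply Summable.mul_left
    have h2 : Summable (fun n : ℤ => ((n:ℝ) ^ 2)⁻¹) := by
      have := (Real.summable_one_div_int_pow (p := 2)).2 (by norm_num)
      simpa using this
    have h3 : Summable (fun n : ℤ => ((n:ℝ) ^ 2)⁻¹ + (if n = 0 then (1:ℝ) else 0)) := by
      apply h2.add
      exact (hasSum_ite_eq 0 (1:ℝ)).summable
    refine Summable.of_nonneg_of_le (fun n => by positivity) (fun n => ?_) h3
    by_cases hn : n = 0
    · simp [hn]
    · have : (0:ℝ) < (n:ℝ) ^ 2 := by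
        have : (n:ℝ) ≠ 0 := by exact_mod_cast hn
        positivity
      simp only [hn, if_false, add_zero]
      apply inv_anti₀ this
      linarith
  refine ⟨1 + ∑' n : ℤ, 3 * (1 + (n:ℝ) ^ 2)⁻¹, ?_, ?_⟩
  · have : 0 ≤ ∑' n : ℤ, 3 * (1 + (n:ℝ) ^ 2)⁻¹ := tsum_nonneg fun n => by positivity
    linarith
  intro J c
  set S : ℝ → ℂ := fun t => ∑ j ∈ J, c j * ej j t with hS
  have hSc : Continuous S := by
    have := continuous_ej
    fun_prop
  have hper : ∀ (t : ℝ) (n : ℤ), S (t + n) = S t := by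
    intro t n
    simp only [hS, ej_add_int]
  have h0 : ∫⁻ t in Ioc (0:ℝ) 1, ENNReal.ofReal (‖S t‖ ^ 2) = ENNReal.ofReal (∑ j ∈ J, ‖c j‖ ^ 2) := by
    rw [← trig_L2, intervalIntegral.integral_of_le (by norm_num)]
    rw [ofReal_integral_eq_lintegral_ofReal]
    · have : Continuous (fun t => ‖S t‖ ^ 2) := by fun_prop
      exact this.integrableOn_Ioc
    · filter_upwards with t; positivity
  have hn : ∀ n : ℤ, ∫⁻ t in Ioc (n:ℝ) (n + 1), ENNReal.ofReal ((1 + t ^ 2)⁻¹ * ‖S t‖ ^ 2) ≤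
      ENNReal.ofReal (3 * (1 + (n:ℝ) ^ 2)⁻¹) * ENNReal.ofReal (∑ j ∈ J, ‖c j‖ ^ 2) := by
    intro n
    have hle : ∀ t ∈ Ioc (n:ℝ) (n+1), ENNReal.ofReal ((1 + t ^ 2)⁻¹ * ‖S t‖ ^ 2) ≤
        ENNReal.ofReal (3 * (1 + (n:ℝ) ^ 2)⁻¹) * ENNReal.ofReal (‖S t‖ ^ 2) := by
      intro t ht
      rw [← ENNReal.ofReal_mul (by positivity)]
      apply ENNReal.ofReal_le_ofReal
      apply mul_le_mul_of_nonneg_right _ (by positivity)
      rw [inv_le_iff_one_le_mul₀ (by positivity), ← div_eq_mul_inv, div_mul_eq_mul_div, le_div_iff₀ (by positivity)]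
      nlinarith [ht.1, ht.2, sq_nonneg (t + (t - n)), sq_nonneg (t - (t-n))]
    calc ∫⁻ t in Ioc (n:ℝ) (n + 1), ENNReal.ofReal ((1 + t ^ 2)⁻¹ * ‖S t‖ ^ 2)
        ≤ ∫⁻ t in Ioc (n:ℝ) (n + 1), ENNReal.ofReal (3 * (1 + (n:ℝ) ^ 2)⁻¹) * ENNReal.ofReal (‖S t‖ ^ 2) :=
          setLIntegral_mono' measurableSet_Ioc hle
      _ = ENNReal.ofReal (3 * (1 + (n:ℝ) ^ 2)⁻¹) * ∫⁻ t in Ioc (n:ℝ) (n + 1), ENNReal.ofReal (‖S t‖ ^ 2) := by
          rw [lintegral_const_mul]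
          exact (hSc.norm.pow 2).measurable.ennreal_ofReal
      _ = ENNReal.ofReal (3 * (1 + (n:ℝ) ^ 2)⁻¹) * ∫⁻ t in Ioc (0:ℝ) 1, ENNReal.ofReal (‖S t‖ ^ 2) := by
          congr 1
          rw [← lintegral_indicator measurableSet_Ioc, ← lintegral_indicator measurableSet_Ioc,
            ← lintegral_add_right_eq_self _ (n:ℝ)]
          congr 1
          ext t
          simp only [indicator]
          have : (t + n ∈ Ioc (n:ℝ) (n+1)) ↔ t ∈ Ioc (0:ℝ) 1 := by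
            simp only [mem_Ioc]
            constructor <;> rintro ⟨h1, h2⟩ <;> constructor <;> linarith
          by_cases ht : t ∈ Ioc (0:ℝ) 1
          · rw [if_pos (this.2 ht), if_pos ht, hper]
          · rw [if_neg (fun h => ht (this.1 h)), if_neg ht]
      _ = _ := by rw [h0]
  have huniv : ∫⁻ t : ℝ, ENNReal.ofReal ((1 + t ^ 2)⁻¹ * ‖S t‖ ^ 2) =
      ∑' n : ℤ, ∫⁻ t in Ioc (n:ℝ) (n + 1), ENNReal.ofReal ((1 + t ^ 2)⁻¹ * ‖S t‖ ^ 2) := by
    rw [← lintegral_iUnion (fun n => measurableSet_Ioc) (pairwise_disjoint_Ioc_intCast ℝ),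
      iUnion_Ioc_intCast, Measure.restrict_univ]
  rw [huniv]
  calc _ ≤ ∑' n : ℤ, ENNReal.ofReal (3 * (1 + (n:ℝ) ^ 2)⁻¹) * ENNReal.ofReal (∑ j ∈ J, ‖c j‖ ^ 2) :=
        ENNReal.tsum_le_tsum hn
    _ = (∑' n : ℤ, ENNReal.ofReal (3 * (1 + (n:ℝ) ^ 2)⁻¹)) * ENNReal.ofReal (∑ j ∈ J, ‖c j‖ ^ 2) :=
        ENNReal.tsum_mul_right
    _ = ENNReal.ofReal (∑' n : ℤ, 3 * (1 + (n:ℝ) ^ 2)⁻¹) * ENNReal.ofReal (∑ j ∈ J, ‖c j‖ ^ 2) := by
        rw [ENNReal.ofReal_tsum_of_nonneg (fun n => by positivity) hsum]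
    _ ≤ _ := by
        rw [← ENNReal.ofReal_mul (tsum_nonneg fun n => by positivity)]
        apply ENNReal.ofReal_le_ofReal
        apply mul_le_mul_of_nonneg_right _ (Finset.sum_nonneg fun i _ => by positivity)
        linarith


theorem integrable_w {N : ℝ} (hN : 0 < N) : Integrable (fun y : ℝ => N⁻¹ * (1 + (y / N) ^ 2)⁻¹) := by
  apply Integrable.const_mul
  exact (integrable_inv_one_add_sq).comp_div hN.ne'

theorem T05_square : ∀ K : ℝ, ∃ C : ℝ, 0 ≤ C ∧ ∀ (ρ : ℝ → ℂ), Measurable ρ →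
    (∀ y, ‖ρ y‖ ≤ K * (1 + y ^ 2)⁻¹) → ∀ (N : ℝ), 0 < N → ∀ (J : Finset ℤ) (h : ℝ → ℂ),
    Measurable h → (∃ b : ℝ, ∀ y, ‖h y‖ ≤ b) →
    ∑ j ∈ J, ‖∫ y : ℝ, (N:ℂ)⁻¹ * ρ (y / N) * cexp (2 * Real.pi * I * j * y / N) * h y‖ ^ 2
      ≤ C * ∫ y : ℝ, N⁻¹ * (1 + (y / N) ^ 2)⁻¹ * ‖h y‖ ^ 2 := by
  intro K
  obtain ⟨C0, hC0, htrig⟩ := trig_weighted
  set K' := |K| + 1 with hK'
  have hK'1 : 1 ≤ K' := by have := abs_nonneg K; linarith
  have hKK' : K ≤ K' := by have := le_abs_self K; linarith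
  refine ⟨K' ^ 2 * C0, by positivity, ?_⟩
  intro ρ hρm hρ N hN J h hhm ⟨b, hb⟩
  have hb0 : 0 ≤ b := (norm_nonneg _).trans (hb 0)
  set w : ℝ → ℝ := fun y => N⁻¹ * (1 + (y / N) ^ 2)⁻¹ with hw
  have hw0 : ∀ y, 0 ≤ w y := fun y => by simp only [hw]; positivity
  have hwI : Integrable w := integrable_w hN
  have hwc : Measurable w := by
    simp only [hw]; fun_prop
  set c : ℤ → ℂ := fun j => ∫ y : ℝ, (N:ℂ)⁻¹ * ρ (y / N) * cexp (2 * Real.pi * I * j * y / N) * h y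
    with hc
  have hej : ∀ (j : ℤ) (y : ℝ), cexp (2 * Real.pi * I * j * y / N) = ej j (y / N) := by
    intro j y
    unfold ej
    congr 1
    push_cast; ring
  have hker : ∀ y, ‖(N:ℂ)⁻¹ * ρ (y / N)‖ ≤ K' * w y := by
    intro y
    rw [norm_mul, norm_inv, Complex.norm_real, Real.norm_of_nonneg hN.le]
    have h1 := hρ (y / N)
    have h2 : ‖ρ (y / N)‖ ≤ K' * (1 + (y / N) ^ 2)⁻¹ := by
      refine h1.trans ?_
      gcongr
    calc N⁻¹ * ‖ρ (y / N)‖ ≤ N⁻¹ * (K' * (1 + (y / N) ^ 2)⁻¹) := by gcongr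
      _ = K' * w y := by simp only [hw]; ring
  have hint : ∀ j, Integrable (fun y : ℝ => (N:ℂ)⁻¹ * ρ (y / N) * ej j (y / N) * h y) := by
    intro j
    refine Integrable.mono' (hwI.const_mul (K' * b)) ?_ ?_
    · have := (continuous_ej j).measurable
      exact (by fun_prop : Measurable (fun y : ℝ => (N:ℂ)⁻¹ * ρ (y / N) * ej j (y / N) * h y)).aestronglyMeasurable
    · filter_upwards with y
      rw [norm_mul, norm_mul, norm_ej, mul_one]
      have h1 := hker y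
      have h2 := hb y
      calc ‖(N:ℂ)⁻¹ * ρ (y / N)‖ * ‖h y‖ ≤ (K' * w y) * b := by
            gcongr
        _ = K' * b * w y := by ring
  set D := ∑ j ∈ J, ‖c j‖ ^ 2 with hD
  set S : ℝ → ℂ := fun t => ∑ j ∈ J, conj (c j) * ej j t with hS
  have hSc : Continuous S := by
    have := continuous_ej
    fun_prop
  -- weighted norm of S
  have hSint : Integrable (fun y : ℝ => w y * ‖S (y / N)‖ ^ 2) ∧
      ∫ y : ℝ, w y * ‖S (y / N)‖ ^ 2 ≤ C0 * D := by
    have hb' : ∀ t, ‖S t‖ ≤ ∑ j ∈ J, ‖c j‖ := by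
      intro t
      refine (norm_sum_le _ _).trans (Finset.sum_le_sum fun j _ => ?_)
      rw [norm_mul, norm_ej, mul_one, RCLike.norm_conj]
    have hI : Integrable (fun y : ℝ => w y * ‖S (y / N)‖ ^ 2) := by
      refine Integrable.mono' (hwI.mul_const ((∑ j ∈ J, ‖c j‖) ^ 2)) ?_ ?_
      · exact (hwc.mul ((hSc.comp (continuous_id.div_const N)).norm.pow 2).measurable).aestronglyMeasurable
      · filter_upwards with y
        rw [Real.norm_of_nonneg (mul_nonneg (hw0 y) (by positivity))]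
        have := hb' (y / N)
        have := hw0 y
        gcongr
    refine ⟨hI, ?_⟩
    have e : ∫ y : ℝ, w y * ‖S (y / N)‖ ^ 2 = ∫ t : ℝ, (1 + t ^ 2)⁻¹ * ‖S t‖ ^ 2 := by
      have h1 : ∀ y, w y * ‖S (y / N)‖ ^ 2 = N⁻¹ * ((fun t => (1 + t ^ 2)⁻¹ * ‖S t‖ ^ 2) (y / N)) := by
        intro y; simp only [hw]; ring
      simp_rw [h1]
      rw [integral_const_mul, Measure.integral_comp_div (fun t => (1 + t ^ 2)⁻¹ * ‖S t‖ ^ 2) N,
        abs_of_pos hN, smul_eq_mul, ← mul_assoc, inv_mul_cancel₀ hN.ne', one_mul]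
    rw [e]
    have := htrig J (fun j => conj (c j))
    rw [integral_eq_lintegral_of_nonneg_ae (by filter_upwards with t; positivity)
      (by
        have : Continuous (fun t => (1 + t ^ 2)⁻¹ * ‖S t‖ ^ 2) := by
          apply Continuous.mul
          · apply Continuous.inv₀ (by fun_prop)
            intro t; positivity
          · fun_prop
        exact this.aestronglyMeasurable)]
    apply ENNReal.toReal_le_of_le_ofReal (by positivity)
    refine this.trans ?_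
    simp only [RCLike.norm_conj]
    exact le_rfl
  have hhint : Integrable (fun y : ℝ => w y * ‖h y‖ ^ 2) := by
    refine Integrable.mono' (hwI.mul_const (b ^ 2)) ?_ ?_
    · exact (hwc.mul (hhm.norm.pow_const 2)).aestronglyMeasurable
    · filter_upwards with y
      rw [Real.norm_of_nonneg (mul_nonneg (hw0 y) (by positivity))]
      have := hb y
      have := hw0 y
      gcongr
  have hDeq : (D : ℂ) = ∫ y : ℝ, (N:ℂ)⁻¹ * ρ (y / N) * h y * S (y / N) := by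
    have h1 : (D : ℂ) = ∑ j ∈ J, conj (c j) * c j := by
      rw [hD]
      push_cast
      refine Finset.sum_congr rfl fun j _ => ?_
      rw [Complex.conj_mul']
    rw [h1]
    have h2 : ∀ j, conj (c j) * c j = ∫ y : ℝ, conj (c j) * ((N:ℂ)⁻¹ * ρ (y / N) * ej j (y / N) * h y) := by
      intro j
      rw [integral_const_mul]
      congr 1
      simp only [hc, hej]
    simp_rw [h2]
    rw [← integral_finsetSum _ (fun j _ => (hint j).const_mul _)]
    congr 1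
    ext y
    simp only [hS]
    rw [Finset.mul_sum]
    refine Finset.sum_congr rfl fun j _ => ?_
    ring
  have hDle : D ≤ ∫ y : ℝ, ((K' ^ 2 * C0 / 2) * (w y * ‖h y‖ ^ 2) + (1 / (2 * C0)) * (w y * ‖S (y / N)‖ ^ 2)) := by
    calc D ≤ ‖(D : ℂ)‖ := by rw [Complex.norm_real]; exact le_abs_self _
      _ = ‖∫ y : ℝ, (N:ℂ)⁻¹ * ρ (y / N) * h y * S (y / N)‖ := by rw [hDeq]
      _ ≤ _ := by
        apply norm_integral_le_of_norm_le
        · exact (hhint.const_mul _).add (hSint.1.const_mul _)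
        · filter_upwards with y
          rw [norm_mul, norm_mul]
          have h1 := hker y
          have h0 := hw0 y
          have h3 : K' * ‖h y‖ * ‖S (y / N)‖ ≤ (K' ^ 2 * C0 / 2) * ‖h y‖ ^ 2 + (1 / (2 * C0)) * ‖S (y / N)‖ ^ 2 := by
            have hC0p : 0 < C0 := by linarith
            have e : (K' ^ 2 * C0 / 2) * ‖h y‖ ^ 2 + (1 / (2 * C0)) * ‖S (y / N)‖ ^ 2 - K' * ‖h y‖ * ‖S (y / N)‖
              = (1 / (2 * C0)) * (K' * C0 * ‖h y‖ - ‖S (y / N)‖) ^ 2 := by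
              field_simp; ring
            have : 0 ≤ (1 / (2 * C0)) * (K' * C0 * ‖h y‖ - ‖S (y / N)‖) ^ 2 := by positivity
            linarith
          calc ‖(N:ℂ)⁻¹ * ρ (y / N)‖ * ‖h y‖ * ‖S (y / N)‖ ≤ (K' * w y) * ‖h y‖ * ‖S (y / N)‖ := by gcongr
            _ = w y * (K' * ‖h y‖ * ‖S (y / N)‖) := by ring
            _ ≤ w y * ((K' ^ 2 * C0 / 2) * ‖h y‖ ^ 2 + (1 / (2 * C0)) * ‖S (y / N)‖ ^ 2) := by gcongr
            _ = _ := by ring
  rw [integral_add (hhint.const_mul _) (hSint.1.const_mul _), integral_const_mul, integral_const_mul] at hDle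
  have hC0p : 0 < C0 := by linarith
  have h5 : (1 / (2 * C0)) * ∫ y : ℝ, w y * ‖S (y / N)‖ ^ 2 ≤ D / 2 := by
    calc (1 / (2 * C0)) * ∫ y : ℝ, w y * ‖S (y / N)‖ ^ 2 ≤ (1 / (2 * C0)) * (C0 * D) := by
          gcongr; exact hSint.2
      _ = D / 2 := by field_simp
  change D ≤ K' ^ 2 * C0 * ∫ y : ℝ, w y * ‖h y‖ ^ 2
  linarith

end Vale.Agent.P117
end
end

section

section
open MeasureTheory Complex Set
open scoped ENNReal NNReal ContDiff FourierTransform SchwartzMap ComplexConjugate Convolution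

namespace Vale.Agent.P117

/-- shear used for the change of variables -/
noncomputable def shearL (N c : ℝ) : E2 →ₗ[ℝ] E2 :=
  Matrix.toLin (EuclideanSpace.basisFun (Fin 2) ℝ).toBasis (EuclideanSpace.basisFun (Fin 2) ℝ).toBasis
    !![1/N, 0; c/N, 1/N^2]

theorem shearL_det (N c : ℝ) : LinearMap.det (shearL N c) = 1/N * (1/N^2) := by
  unfold shearL
  rw [LinearMap.det_toLin, Matrix.det_fin_two_of]
  ring

theorem shearL_zero (N c : ℝ) (y : E2) : shearL N c y 0 = y 0 / N := by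
  unfold shearL
  have := Matrix.toLin_apply (EuclideanSpace.basisFun (Fin 2) ℝ).toBasis (EuclideanSpace.basisFun (Fin 2) ℝ).toBasis
    !![1/N, 0; c/N, 1/N^2] y
  simp [Matrix.toLin_apply, Fin.sum_univ_two, Matrix.mulVec, dotProduct]
  ring

theorem shearL_one (N c : ℝ) (y : E2) : shearL N c y 1 = c * y 0 / N + y 1 / N ^ 2 := by
  unfold shearL
  simp [Matrix.toLin_apply, Fin.sum_univ_two, Matrix.mulVec, dotProduct]
  ring

theorem integral_shear {N c : ℝ} (hN : 0 < N) (F : E2 → ℂ) (X0 : E2) :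
    ∫ ξ, F ξ = ((N ^ 3)⁻¹ : ℝ) • ∫ y, F (X0 + shearL N c y) := by
  have hdet : LinearMap.det (shearL N c) ≠ 0 := by
    rw [shearL_det]; positivity
  have hmap := Measure.map_linearMap_addHaar_eq_smul_addHaar (μ := (volume : Measure E2)) hdet
  have h1 : ∫ ξ, F ξ = ∫ ξ, F (X0 + ξ) := (integral_add_left_eq_self F X0).symm
  have hme : MeasurableEmbedding (shearL N c) := by
    have : Function.Injective (shearL N c) := by
      exact (LinearMap.equivOfDetNeZero _ hdet).injective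
    exact ((shearL N c).continuous_of_finiteDimensional.measurableEmbedding this)
  have h2 : ∫ y, F (X0 + shearL N c y) = ∫ ξ, F (X0 + ξ) ∂(Measure.map (shearL N c) volume) :=
    (hme.integral_map (fun ξ => F (X0 + ξ))).symm
  rw [h1, h2, hmap, integral_smul_measure, smul_smul, ENNReal.toReal_ofReal (abs_nonneg _), shearL_det,
    abs_of_pos (by positivity)]
  have : (N ^ 3)⁻¹ * (1 / N * (1 / N ^ 2))⁻¹ = 1 := by field_simp
  rw [this, one_smul]


/-- the piece of multiplier attached to node j -/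
noncomputable def mpiece (N : ℝ) (φ : ℝ → ℂ) (a : E2 → ℂ) (η : ℝ → ℂ) (j : ℤ) (ξ : E2) : ℂ :=
  φ (N ^ 2 * (‖ξ‖ ^ 2 - 1)) * a ξ * η (N * ξ 0 - j)

/-- parameters (s, b, g, c, t) -/
abbrev Th5 := ℝ × ℝ × ℝ × ℝ × ℝ

noncomputable def P6 (z : E2 × Th5) : ℝ :=
  z.1 0 ^ 2 + (z.2.2.2.2.1 * z.1 0 + z.2.1 * z.1 1) ^ 2 + 2 * z.2.2.2.1 * z.1 1

noncomputable def X6 (z : E2 × Th5) : E2 :=
  !₂[z.2.2.1 + z.2.1 * z.1 0, z.2.2.2.1 + z.2.1 * z.2.2.2.2.1 * z.1 0 + z.2.1 ^ 2 * z.1 1]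

theorem contDiff_P6 : ContDiff ℝ ∞ P6 := by
  unfold P6
  fun_prop

theorem contDiff_X6 : ContDiff ℝ ∞ X6 := by
  rw [contDiff_euclidean]
  intro i
  fin_cases i
  · simp only [X6, Fin.zero_eta, PiLp.toLp_apply, Matrix.cons_val_zero]
    fun_prop
  · simp only [X6, Fin.mk_one, PiLp.toLp_apply, Matrix.cons_val_one, Matrix.cons_val_zero]
    fun_prop

theorem E2_norm_sq (z : E2) : ‖z‖ ^ 2 = z 0 ^ 2 + z 1 ^ 2 := by
  rw [EuclideanSpace.norm_sq_eq, Fin.sum_univ_two, Real.norm_eq_abs, Real.norm_eq_abs, sq_abs, sq_abs]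

theorem E2_inner (z w : E2) : inner ℝ z w = z 0 * w 0 + z 1 * w 1 := by
  rw [PiLp.inner_apply, Fin.sum_univ_two]
  simp [mul_comm]

theorem node_bounds (N : ℝ) (j : ℤ) : -(19/20) ≤ node N j ∧ node N j ≤ 19/20 := by
  unfold node
  constructor
  · exact le_max_left _ _
  · exact max_le (by norm_num) (min_le_left _ _)

/-- clipping is a contraction towards points of the interval -/
theorem node_clip {N : ℝ} {j : ℤ} {t : ℝ} (ht : |t| ≤ 19/20) : |t - node N j| ≤ |t - j / N| := by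
  unfold node
  rw [abs_le] at ht
  rcases le_total ((j:ℝ)/N) (-(19/20)) with h | h
  · rw [min_eq_right (h.trans (by norm_num)), max_eq_left h, abs_of_nonneg (by linarith), abs_of_nonneg (by linarith)]
    linarith
  · rcases le_total ((j:ℝ)/N) (19/20) with h' | h'
    · rw [min_eq_right h', max_eq_right h]
    · rw [min_eq_left h', max_eq_right (by norm_num), abs_of_nonpos (by linarith), abs_of_nonpos (by linarith)]
      linarith

theorem geomg {b : ℝ} (hb : -(19/20) ≤ b ∧ b ≤ 19/20) : 3/10 ≤ Real.sqrt (1 - b ^ 2) ∧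
    Real.sqrt (1 - b ^ 2) ≤ 1 ∧ Real.sqrt (1 - b ^ 2) ^ 2 = 1 - b ^ 2 ∧
    |-b / Real.sqrt (1 - b ^ 2)| ≤ 4 := by
  have hb2 : b ^ 2 ≤ (19/20) ^ 2 := sq_le_sq' hb.1 hb.2
  have h0 : 0 ≤ 1 - b ^ 2 := by linarith
  have h1 : 3/10 ≤ Real.sqrt (1 - b ^ 2) := by
    apply Real.le_sqrt_of_sq_le
    linarith
  refine ⟨h1, ?_, Real.sq_sqrt h0, ?_⟩
  · rw [Real.sqrt_le_left (by norm_num)]
    nlinarith [sq_nonneg b]
  · rw [abs_div, abs_neg, abs_of_nonneg (Real.sqrt_nonneg _), div_le_iff₀ (by linarith)]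
    have : |b| ≤ 19/20 := abs_le.2 hb
    linarith

theorem mpiece_shear {N : ℝ} (hN : 0 < N) (φ : ℝ → ℂ) (a : E2 → ℂ) (η : ℝ → ℂ) (j : ℤ)
    {b g c : ℝ} (hbg : b ^ 2 + g ^ 2 = 1) (hbc : b + g * c = 0) (y : E2) :
    mpiece N φ a η j (!₂[b, g] + shearL N c y) =
      φ (P6 (y, (1/N, b, g, c, N * b - j))) * (a (X6 (y, (1/N, b, g, c, N * b - j))) *
        η ((N * b - j) + y 0)) := by
  have e0 : (!₂[b, g] + shearL N c y : E2) 0 = b + y 0 / N := by
    simp [shearL_zero]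
  have e1 : (!₂[b, g] + shearL N c y : E2) 1 = g + (c * y 0 / N + y 1 / N ^ 2) := by
    simp [shearL_one]
  have eX : (!₂[b, g] + shearL N c y : E2) = X6 (y, (1/N, b, g, c, N * b - j)) := by
    ext i
    fin_cases i
    · change (!₂[b, g] + shearL N c y : E2) 0 = _
      rw [e0]
      simp [X6]; ring
    · change (!₂[b, g] + shearL N c y : E2) 1 = _
      rw [e1]
      simp [X6]; ring
  have eP : N ^ 2 * (‖(!₂[b, g] + shearL N c y : E2)‖ ^ 2 - 1) = P6 (y, (1/N, b, g, c, N * b - j)) := by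
    rw [E2_norm_sq, e0, e1]
    simp only [P6]
    have hb2 : b ^ 2 = 1 - g ^ 2 := by linarith
    have hb1 : b = - (g * c) := by linarith
    field_simp
    have : (1 - g ^ 2) = (g * c) ^ 2 := by rw [← hb2, hb1]; ring
    have hgc : g ^ 2 * c ^ 2 = 1 - g ^ 2 := by rw [this]; ring
    rw [hb1]
    ring_nf
    linear_combination (N ^ 4) * hgc
  unfold mpiece
  rw [eP, e0, eX, mul_assoc]
  congr 3
  field_simp
  ring


/-- support of the piece in the new coordinates -/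
theorem supp_aux {N g c u v : ℝ} (hN : 1 ≤ N) (hg : 3/10 ≤ g) (hg1 : g ≤ 1) (hc : |c| ≤ 4)
    (hu : |u| ≤ 1) (hx1 : 1/10 ≤ g + (c * u / N + v / N ^ 2))
    (hP : |u ^ 2 + (c * u + 1 / N * v) ^ 2 + 2 * g * v| ≤ 2) : |v| ≤ 1400 := by
  have hNp : 0 < N := by linarith
  set d := c * u + 1 / N * v with hd
  -- N (xi1 - g) = d
  have hx1' : 1/10 ≤ g + d / N := by
    have : c * u / N + v / N ^ 2 = d / N := by rw [hd]; field_simp
    rw [this] at hx1; exact hx1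
  -- d bounded
  have hPd : (2 * g * v) = 2 * g * (N * (d - c * u)) := by
    rw [hd]; field_simp; ring
  have hq : |N * d * (2 * g + d / N)| ≤ 2 + 1 + 8 * N := by
    have e : N * d * (2 * g + d / N) = (u ^ 2 + d ^ 2 + 2 * g * v) - u ^ 2 + 2 * g * N * c * u := by
      rw [hPd]; field_simp; ring
    rw [e]
    have h1 : |2 * g * N * c * u| ≤ 8 * N := by
      rw [abs_mul, abs_mul, abs_mul, abs_mul, abs_of_pos hNp, abs_of_nonneg (by linarith : 0 ≤ g), abs_two]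
      calc 2 * g * N * |c| * |u| ≤ 2 * 1 * N * 4 * 1 := by gcongr
        _ = 8 * N := by ring
    have h2 : |u ^ 2| ≤ 1 := by
      rw [abs_pow]; exact pow_le_one₀ (abs_nonneg _) hu
    calc _ ≤ |(u ^ 2 + d ^ 2 + 2 * g * v) - u ^ 2| + |2 * g * N * c * u| := abs_add_le _ _
      _ ≤ (|u ^ 2 + d ^ 2 + 2 * g * v| + |u ^ 2|) + |2 * g * N * c * u| := by gcongr; exact abs_sub _ _
      _ ≤ _ := by linarith
  have hlow : 4/10 ≤ 2 * g + d / N := by linarith
  have hdb : |d| ≤ 28 := by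
    rw [abs_mul, abs_mul, abs_of_pos hNp, abs_of_pos (by linarith : 0 < 2 * g + d / N)] at hq
    have h3 : N * |d| * (4/10) ≤ 2 + 1 + 8 * N := by
      refine le_trans ?_ hq
      gcongr
    have h4 : N * |d| * (4/10) ≤ N * 11 := by linarith
    have h5 : |d| * (4/10) ≤ 11 := by
      have : N * (|d| * (4/10)) ≤ N * 11 := by linarith
      exact le_of_mul_le_mul_left this hNp
    linarith
  -- now v
  have h6 : |2 * g * v| ≤ 3 + |d| ^ 2 := by
    have e : 2 * g * v = (u ^ 2 + d ^ 2 + 2 * g * v) - (u ^ 2 + d ^ 2) := by ring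
    have h2 : |u ^ 2 + d ^ 2| ≤ 1 + |d| ^ 2 := by
      rw [abs_of_nonneg (by positivity), sq_abs]
      have : u ^ 2 ≤ 1 := by
        rw [← sq_abs]; exact pow_le_one₀ (abs_nonneg _) hu
      linarith
    rw [e]
    refine (abs_sub _ _).trans ?_
    linarith
  have h7 : |d| ^ 2 ≤ 28 ^ 2 := by gcongr
  rw [abs_mul, abs_mul, abs_two, abs_of_nonneg (by linarith : 0 ≤ g)] at h6
  have h8 : 2 * (3/10) * |v| ≤ 2 * g * |v| := by gcongr
  linarith


theorem weight_le (w : E2) : (1 + w 0 ^ 2) * (1 + w 1 ^ 2) ≤ (1 + ‖w‖) ^ 4 := by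
  have h := E2_norm_sq w
  have h0 : w 0 ^ 2 ≤ ‖w‖ ^ 2 := by rw [h]; linarith [sq_nonneg (w 1)]
  have h1 : w 1 ^ 2 ≤ ‖w‖ ^ 2 := by rw [h]; linarith [sq_nonneg (w 0)]
  have hn := norm_nonneg w
  have h2 : 1 + ‖w‖ ^ 2 ≤ (1 + ‖w‖) ^ 2 := by ring_nf; linarith
  calc (1 + w 0 ^ 2) * (1 + w 1 ^ 2) ≤ (1 + ‖w‖ ^ 2) * (1 + ‖w‖ ^ 2) := by gcongr
    _ ≤ (1 + ‖w‖) ^ 2 * (1 + ‖w‖) ^ 2 := by gcongr
    _ = (1 + ‖w‖) ^ 4 := by ring

theorem T06_cap (a : E2 → ℂ) (ha : ContDiff ℝ ∞ a)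
    (hasupp : ∀ ξ, a ξ ≠ 0 → |ξ 0| ≤ 9/10 ∧ 1/10 ≤ ξ 1 ∧ ξ 1 ≤ 2)
    (η : ℝ → ℂ) (hη : ContDiff ℝ ∞ η) (hηs : ∀ t, η t ≠ 0 → |t| ≤ 1) :
    ∃ C : ℝ, 0 ≤ C ∧ ∀ (N : ℝ), 1 ≤ N → ∀ (φ : ℝ → ℂ), ContDiff ℝ ∞ φ →
    (∀ t, φ t ≠ 0 → |t| ≤ 2) → ∀ A : ℝ, (∀ i ≤ 4, ∀ t, ‖iteratedDeriv i φ t‖ ≤ A) →
    ∀ (j : ℤ) (x : E2),
    ‖𝓕⁻ (mpiece N φ a η j) x‖ ≤ C * A * tube N (N ^ 2) (slope N j) (x 0, x 1) := by
  -- the auxiliary smooth functions of (y, θ)
  have hΨ2 : ContDiff ℝ ∞ (fun z : E2 × Th5 => a (X6 z) * η (z.2.2.2.2.2 + z.1 0)) := by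
    apply ContDiff.mul
    · exact ha.comp contDiff_X6
    · exact hη.comp (by fun_prop)
  have hK : IsCompact (Metric.closedBall (0:E2) 1401 ×ˢ Metric.closedBall (0:Th5) 4) :=
    (isCompact_closedBall _ _).prod (isCompact_closedBall _ _)
  obtain ⟨C1, hC1, hb1⟩ := DB.of_param hK contDiff_P6 4
  obtain ⟨C2, hC2, hb2⟩ := DB.of_param hK hΨ2 4
  obtain ⟨C3, hC3, hdec⟩ := fourier_decay (V := E2) 4 1401
  refine ⟨C3 * (2 ^ 4 * (24 * C1 ^ 4) * C2), by positivity, ?_⟩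
  intro N hN φ hφ hφs A hA j x
  have hNp : 0 < N := by linarith
  have hA0 : 0 ≤ A := (norm_nonneg _).trans (hA 0 (by norm_num) 0)
  set b := node N j with hb
  set g := Real.sqrt (1 - b ^ 2) with hg
  have hbb := node_bounds N j
  obtain ⟨hg1, hg2, hg3, hcb⟩ := geomg hbb
  have hcs : slope N j = - b / g := rfl
  set c := slope N j with hc
  rw [← hg, ← hcs] at hcb
  have hbg : b ^ 2 + g ^ 2 = 1 := by rw [hg3]; ring
  have hbc : b + g * c = 0 := by
    have : g ≠ 0 := by linarith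
    rw [hcs]; field_simp; ring
  set τ := N * b - j with hτ
  -- tube as a product
  set w : E2 := !₂[(x 0 + c * x 1) / N, x 1 / N ^ 2] with hw
  have htube : tube N (N ^ 2) c (x 0, x 1) = (N ^ 3)⁻¹ * ((1 + w 0 ^ 2) * (1 + w 1 ^ 2))⁻¹ := by
    have hw0 : w 0 = (x 0 + c * x 1) / N := by simp [hw]
    have hw1 : w 1 = x 1 / N ^ 2 := by simp [hw]
    rw [hw0, hw1]
    simp only [tube]
    have e : N * N ^ 2 = N ^ 3 := by ring
    rw [e, mul_assoc, ← mul_inv]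
  -- trivial case
  by_cases hne : ∃ ξ, mpiece N φ a η j ξ ≠ 0
  swap
  · push Not at hne
    have : mpiece N φ a η j = 0 := by ext ξ; exact hne ξ
    rw [this, Real.fourierInv_eq']
    simp only [Pi.zero_apply, smul_zero, integral_zero, norm_zero]
    rw [htube]
    positivity
  have hsup : ∀ ξ, mpiece N φ a η j ξ ≠ 0 → |ξ 0| ≤ 9/10 ∧ 1/10 ≤ ξ 1 ∧
      |N ^ 2 * (‖ξ‖ ^ 2 - 1)| ≤ 2 ∧ |N * ξ 0 - j| ≤ 1 := by
    intro ξ hξ
    unfold mpiece at hξ
    have h1 := right_ne_zero_of_mul hξ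
    have h2 := left_ne_zero_of_mul hξ
    have h3 := hasupp ξ (right_ne_zero_of_mul h2)
    exact ⟨h3.1, h3.2.1, hφs _ (left_ne_zero_of_mul h2), hηs _ h1⟩
  have hclip : ∀ ξ : E2, |ξ 0| ≤ 9/10 → |N * ξ 0 - j| ≤ 1 → |N * (ξ 0 - b)| ≤ 1 := by
    intro ξ h1 h2
    have h3 := node_clip (N := N) (j := j) (t := ξ 0) (h1.trans (by norm_num))
    rw [abs_mul, abs_of_pos hNp]
    calc N * |ξ 0 - b| ≤ N * |ξ 0 - j / N| := by gcongr
      _ = |N * ξ 0 - j| := by
        rw [← abs_of_pos hNp, ← abs_mul, abs_of_pos hNp]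
        congr 1
        field_simp
      _ ≤ 1 := h2
  have hτb : |τ| ≤ 2 := by
    obtain ⟨ξ, hξ⟩ := hne
    obtain ⟨s1, s2, s3, s4⟩ := hsup ξ hξ
    have h5 := hclip ξ s1 s4
    have : τ = (N * ξ 0 - j) - (N * (ξ 0 - b)) := by rw [hτ]; ring
    rw [this]
    refine (abs_sub _ _).trans ?_
    linarith
  have hθ : ((1/N, b, g, c, τ) : Th5) ∈ Metric.closedBall (0:Th5) 4 := by
    rw [mem_closedBall_zero_iff]
    have h1N : |1 / N| ≤ 4 := by
      rw [abs_of_pos (by positivity), div_le_iff₀ hNp]; linarith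
    simp only [Prod.norm_def, Real.norm_eq_abs]
    refine max_le h1N (max_le ?_ (max_le ?_ (max_le hcb ?_)))
    · rw [abs_le]; constructor <;> linarith [hbb.1, hbb.2]
    · rw [abs_of_nonneg (by linarith)]; linarith
    · linarith
  -- the function in the new coordinates
  set M : E2 → ℂ := fun y => φ (P6 (y, (1/N, b, g, c, τ))) * (a (X6 (y, (1/N, b, g, c, τ))) *
        η (τ + y 0)) with hM
  have hMs : ∀ y, mpiece N φ a η j (!₂[b, g] + shearL N c y) = M y := fun y =>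
    mpiece_shear hNp φ a η j hbg hbc y
  have hMsmooth : ContDiff ℝ ∞ M := by
    apply ContDiff.mul
    · exact hφ.comp (contDiff_P6.comp (by fun_prop))
    · exact hΨ2.comp (by fun_prop : ContDiff ℝ ∞ (fun y : E2 => ((y, (1/N, b, g, c, τ)) : E2 × Th5)))
  have hMsupp : ∀ y, M y ≠ 0 → ‖y‖ ≤ 1401 := by
    intro y hy
    rw [← hMs] at hy
    obtain ⟨s1, s2, s3, s4⟩ := hsup _ hy
    have h5 := hclip _ s1 s4
    have e0 : (!₂[b, g] + shearL N c y : E2) 0 = b + y 0 / N := by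
      simp [shearL_zero]
    have e1 : (!₂[b, g] + shearL N c y : E2) 1 = g + (c * y 0 / N + y 1 / N ^ 2) := by
      simp [shearL_one]
    have hu : |y 0| ≤ 1 := by
      have : N * ((!₂[b, g] + shearL N c y : E2) 0 - b) = y 0 := by
        rw [e0]; field_simp; ring
      rw [this] at h5; exact h5
    have hx1 : 1/10 ≤ g + (c * y 0 / N + y 1 / N ^ 2) := by rw [e1] at s2; exact s2
    have hP : |y 0 ^ 2 + (c * y 0 + 1 / N * y 1) ^ 2 + 2 * g * y 1| ≤ 2 := by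
      have hnz : M y ≠ 0 := by rw [← hMs]; exact hy
      have := hφs _ (left_ne_zero_of_mul hnz)
      simpa [P6] using this
    have hv := supp_aux hN hg1 hg2 hcb hu hx1 hP
    have hn : ‖y‖ ^ 2 ≤ 1401 ^ 2 := by
      rw [E2_norm_sq, ← sq_abs (y 0), ← sq_abs (y 1)]
      have h1 : |y 0| ^ 2 ≤ 1 ^ 2 := by gcongr
      have h2 : |y 1| ^ 2 ≤ 1400 ^ 2 := by gcongr
      linarith
    exact le_of_sq_le_sq hn (by norm_num)
  have hMDB : ∀ y, ‖y‖ ≤ 1401 → DB 4 (2 ^ 4 * (24 * A * C1 ^ 4) * C2) M y := by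
    intro y hy
    have hmem : (y, ((1/N, b, g, c, τ) : Th5)) ∈
        Metric.closedBall (0:E2) 1401 ×ˢ Metric.closedBall (0:Th5) 4 :=
      ⟨by simpa using hy, hθ⟩
    have d1 := hb1 _ _ hmem
    have d2 := hb2 _ _ hmem
    have s1 : ContDiff ℝ ∞ (fun y : E2 => P6 (y, (1/N, b, g, c, τ))) := contDiff_P6.comp (by fun_prop)
    have s2 : ContDiff ℝ ∞ (fun y : E2 => a (X6 (y, (1/N, b, g, c, τ))) * η (τ + y 0)) :=
      hΨ2.comp (by fun_prop : ContDiff ℝ ∞ (fun y : E2 => ((y, (1/N, b, g, c, τ)) : E2 × Th5)))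
    have d3 := DB.comp hφ s1 (DB.of_bound_real hA _) d1 hC1
    have d4 := DB.mul (hφ.comp s1) s2 d3 d2
    have : ((4:ℕ).factorial : ℝ) = 24 := by norm_num [Nat.factorial]
    rw [this] at d4
    exact d4
  have hB0 : 0 ≤ 2 ^ 4 * (24 * A * C1 ^ 4) * C2 := by positivity
  have hfin := hdec M _ hMsmooth hMsupp hMDB hB0 (-w)
  rw [norm_neg] at hfin
  -- change of variables
  have hcv : 𝓕⁻ (mpiece N φ a η j) x = ((N ^ 3)⁻¹ : ℝ) • (cexp (((2 * Real.pi * (b * x 0 + g * x 1) : ℝ) : ℂ) * I) *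
      𝓕⁻ M w) := by
    rw [Real.fourierInv_eq', integral_shear hNp _ !₂[b, g] (c := c), Real.fourierInv_eq',
      ← integral_const_mul]
    congr 2
    ext y
    have hexp : cexp (((2 * Real.pi * inner ℝ (!₂[b, g] + shearL N c y : E2) x : ℝ) : ℂ) * I) =
        cexp (((2 * Real.pi * (b * x 0 + g * x 1) : ℝ) : ℂ) * I) *
        cexp (((2 * Real.pi * inner ℝ y w : ℝ) : ℂ) * I) := by
      rw [← Complex.exp_add, ← add_mul, ← Complex.ofReal_add]
      congr 3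
      rw [inner_add_left, E2_inner, E2_inner, E2_inner, shearL_zero, shearL_one]
      simp only [hw, PiLp.toLp_apply, Matrix.cons_val_zero, Matrix.cons_val_one]
      ring
    rw [hMs, smul_eq_mul, smul_eq_mul, hexp, mul_assoc]
  rw [hcv, norm_smul, norm_mul, Complex.norm_exp_ofReal_mul_I, one_mul, htube,
    Real.fourierInv_eq_fourier_neg, Real.norm_of_nonneg (by positivity)]
  have hwpos : 0 < (1 + w 0 ^ 2) * (1 + w 1 ^ 2) := by positivity
  have h9 : ‖𝓕 M (-w)‖ ≤ (C3 * (2 ^ 4 * (24 * A * C1 ^ 4) * C2)) * ((1 + w 0 ^ 2) * (1 + w 1 ^ 2))⁻¹ := by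
    rw [← div_eq_mul_inv, le_div_iff₀ hwpos, mul_comm]
    refine le_trans ?_ hfin
    have := weight_le w
    gcongr
  calc (N ^ 3)⁻¹ * ‖𝓕 M (-w)‖ ≤ (N ^ 3)⁻¹ * ((C3 * (2 ^ 4 * (24 * A * C1 ^ 4) * C2)) * ((1 + w 0 ^ 2) * (1 + w 1 ^ 2))⁻¹) := by
        gcongr
    _ = _ := by ring

end Vale.Agent.P117
end
end

section

section

open MeasureTheory Complex Set
open scoped ENNReal NNReal ContDiff FourierTransform SchwartzMap ComplexConjugate Convolution

namespace Vale.Agent.P117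

/-! geometry -/
theorem geom_bd {ε a b : ℝ} (hε : ε ≤ 2) (h : |a ^ 2 + b ^ 2 - 1| ≤ ε) : |a| ≤ 2 ∧ |b| ≤ 2 := by
  have := (abs_le.1 h).2
  constructor
  · apply abs_le_of_sq_le_sq _ (by norm_num); nlinarith [sq_nonneg b]
  · apply abs_le_of_sq_le_sq _ (by norm_num); nlinarith [sq_nonneg a]

theorem geom_cross (p q r s : ℝ) (hp : |p| ≤ 4) (hq : |q| ≤ 4) (hr : |r| ≤ 4) (hs : |s| ≤ 4) :
    |p * q - r * s| ≤ 32 := by
  calc |p * q - r * s| ≤ |p * q| + |r * s| := abs_sub _ _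
      _ ≤ 4 * 4 + 4 * 4 := by rw [abs_mul, abs_mul]; gcongr
      _ = 32 := by norm_num

theorem geom_core {ε a1 a2 b1 b2 S1 S2 : ℝ} (hε0 : 0 ≤ ε)
    (hab : |a1 * b1 + a2 * b2| ≤ 2 * ε) (hSa : |S1 * a1 + S2 * a2| ≤ 2 * ε)
    (hSb : |S1 * b1 + S2 * b2| ≤ 2 * ε)
    (ha1 : |a1| ≤ 4) (ha2 : |a2| ≤ 4) (hb1 : |b1| ≤ 4) (hb2 : |b2| ≤ 4)
    (hS1 : |S1| ≤ 4) (hS2 : |S2| ≤ 4) (hS : 1/5 ≤ S2) :
    (a1 ^ 2 + a2 ^ 2) * (b1 ^ 2 + b2 ^ 2) ≤ (3300 * ε) * (3300 * ε) := by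
  have hw : |(S1 ^ 2 + S2 ^ 2) * (a1 * b2 - a2 * b1)| ≤ 128 * ε := by
    have : (S1 ^ 2 + S2 ^ 2) * (a1 * b2 - a2 * b1) =
        (S1 * a1 + S2 * a2) * (S1 * b2 - S2 * b1) - (S1 * a2 - S2 * a1) * (S1 * b1 + S2 * b2) := by
      ring
    rw [this]
    calc _ ≤ |(S1 * a1 + S2 * a2) * (S1 * b2 - S2 * b1)| + |(S1 * a2 - S2 * a1) * (S1 * b1 + S2 * b2)| :=
          abs_sub _ _
      _ ≤ (2 * ε) * 32 + 32 * (2 * ε) := by
          rw [abs_mul, abs_mul]
          have i1 := geom_cross S1 b2 S2 b1 hS1 hb2 hS2 hb1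
          have i2 := geom_cross S1 a2 S2 a1 hS1 ha2 hS2 ha1
          gcongr
      _ = 128 * ε := by ring
  have hSS : 1/25 ≤ S1 ^ 2 + S2 ^ 2 := by
    have h1 : (1/5:ℝ) ^ 2 ≤ S2 ^ 2 := by gcongr
    have h2 := sq_nonneg S1
    linarith
  have hw2 : |a1 * b2 - a2 * b1| ≤ 3200 * ε := by
    rw [abs_mul, abs_of_nonneg (by positivity)] at hw
    have h0 : 0 ≤ |a1 * b2 - a2 * b1| := abs_nonneg _
    have h1 := mul_le_mul_of_nonneg_right hSS h0
    linarith
  have e : (a1 ^ 2 + a2 ^ 2) * (b1 ^ 2 + b2 ^ 2) = (a1 * b1 + a2 * b2) ^ 2 + (a1 * b2 - a2 * b1) ^ 2 := by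
    ring
  have e1 : (a1 * b1 + a2 * b2) ^ 2 ≤ (2 * ε) ^ 2 := by
    rw [← sq_abs]; gcongr
  have e2 : (a1 * b2 - a2 * b1) ^ 2 ≤ (3200 * ε) ^ 2 := by
    rw [← sq_abs]; gcongr
  have e3 := mul_nonneg hε0 hε0
  rw [e]
  linarith

theorem geom_aux {ε x1 x2 y1 y2 u1 u2 v1 v2 : ℝ} (hε0 : 0 ≤ ε) (hε : ε ≤ 2)
    (hx : |x1 ^ 2 + x2 ^ 2 - 1| ≤ ε) (hy : |y1 ^ 2 + y2 ^ 2 - 1| ≤ ε)
    (hu : |u1 ^ 2 + u2 ^ 2 - 1| ≤ ε) (hv : |v1 ^ 2 + v2 ^ 2 - 1| ≤ ε)
    (hx2 : 1/10 ≤ x2) (hy2 : 1/10 ≤ y2)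
    (h1 : x1 + y1 = u1 + v1) (h2 : x2 + y2 = u2 + v2) :
    |x1 - u1| ^ 2 ≤ 3300 * ε ∨ |x1 - v1| ^ 2 ≤ 3300 * ε := by
  obtain ⟨bx1, bx2⟩ := geom_bd hε hx
  obtain ⟨by1, by2⟩ := geom_bd hε hy
  obtain ⟨bu1, bu2⟩ := geom_bd hε hu
  obtain ⟨bv1, bv2⟩ := geom_bd hε hv
  have hx' := abs_le.1 hx
  have hy' := abs_le.1 hy
  have hu' := abs_le.1 hu
  have hv' := abs_le.1 hv
  have e1 : y1 = u1 + v1 - x1 := by linarith
  have e2 : y2 = u2 + v2 - x2 := by linarith
  have hab : |(x1 - u1) * (x1 - v1) + (x2 - u2) * (x2 - v2)| ≤ 2 * ε := by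
    have : 2 * ((x1 - u1) * (x1 - v1) + (x2 - u2) * (x2 - v2)) = (x1 ^ 2 + x2 ^ 2 - 1) + (y1 ^ 2 + y2 ^ 2 - 1) -
        (u1 ^ 2 + u2 ^ 2 - 1) - (v1 ^ 2 + v2 ^ 2 - 1) := by
      rw [e1, e2]; ring
    rw [abs_le]; constructor <;> linarith
  have hSa : |(x1 + y1) * (x1 - u1) + (x2 + y2) * (x2 - u2)| ≤ 2 * ε := by
    have : 2 * ((x1 + y1) * (x1 - u1) + (x2 + y2) * (x2 - u2)) = (x1 ^ 2 + x2 ^ 2 - 1) - (y1 ^ 2 + y2 ^ 2 - 1) -
        (u1 ^ 2 + u2 ^ 2 - 1) + (v1 ^ 2 + v2 ^ 2 - 1) := by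
      rw [e1, e2]; ring
    rw [abs_le]; constructor <;> linarith
  have hSb : |(x1 + y1) * (x1 - v1) + (x2 + y2) * (x2 - v2)| ≤ 2 * ε := by
    have : 2 * ((x1 + y1) * (x1 - v1) + (x2 + y2) * (x2 - v2)) = (x1 ^ 2 + x2 ^ 2 - 1) - (y1 ^ 2 + y2 ^ 2 - 1) +
        (u1 ^ 2 + u2 ^ 2 - 1) - (v1 ^ 2 + v2 ^ 2 - 1) := by
      rw [e1, e2]; ring
    rw [abs_le]; constructor <;> linarith
  have s4 : ∀ p q : ℝ, |p| ≤ 2 → |q| ≤ 2 → |p + q| ≤ 4 := fun p q hp hq =>
    (abs_add_le _ _).trans (by linarith)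
  have d4 : ∀ p q : ℝ, |p| ≤ 2 → |q| ≤ 2 → |p - q| ≤ 4 := fun p q hp hq =>
    (abs_sub _ _).trans (by linarith)
  have hprod := geom_core hε0 hab hSa hSb (d4 _ _ bx1 bu1) (d4 _ _ bx2 bu2) (d4 _ _ bx1 bv1)
    (d4 _ _ bx2 bv2) (s4 _ _ bx1 by1) (s4 _ _ bx2 by2) (by linarith)
  by_contra hcon
  push Not at hcon
  obtain ⟨c1, c2⟩ := hcon
  rw [sq_abs] at c1 c2
  have q2 := sq_nonneg (x2 - u2)
  have q3 := sq_nonneg (x2 - v2)
  have d1 : 3300 * ε < (x1 - u1) ^ 2 + (x2 - u2) ^ 2 := by linarith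
  have d2 : 3300 * ε < (x1 - v1) ^ 2 + (x2 - v2) ^ 2 := by linarith
  have h0 : 0 ≤ 3300 * ε := by linarith
  have := mul_lt_mul'' d1 d2 h0 h0
  exact absurd hprod (not_le.2 this)

/-- closeness relation on pairs -/
def close (p q : ℤ × ℤ) : Prop :=
  (|p.1 - q.1| ≤ 85 ∧ |p.2 - q.2| ≤ 85) ∨ (|p.1 - q.2| ≤ 85 ∧ |p.2 - q.1| ≤ 85)

theorem close_of_sum {N : ℝ} (hN : 1 ≤ N) {j k j' k' : ℤ} {ξ η ξ' η' : E2}
    (h1 : |N * ξ 0 - j| ≤ 1 ∧ |‖ξ‖ ^ 2 - 1| ≤ 2 / N ^ 2 ∧ 1/10 ≤ ξ 1)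
    (h2 : |N * η 0 - k| ≤ 1 ∧ |‖η‖ ^ 2 - 1| ≤ 2 / N ^ 2 ∧ 1/10 ≤ η 1)
    (h3 : |N * ξ' 0 - j'| ≤ 1 ∧ |‖ξ'‖ ^ 2 - 1| ≤ 2 / N ^ 2 ∧ 1/10 ≤ ξ' 1)
    (h4 : |N * η' 0 - k'| ≤ 1 ∧ |‖η'‖ ^ 2 - 1| ≤ 2 / N ^ 2 ∧ 1/10 ≤ η' 1)
    (hs : ξ + η = ξ' + η') : close (j, k) (j', k') := by
  have nsq : ∀ z : E2, ‖z‖ ^ 2 = z 0 ^ 2 + z 1 ^ 2 := by
    intro z
    rw [EuclideanSpace.norm_sq_eq, Fin.sum_univ_two, Real.norm_eq_abs, Real.norm_eq_abs, sq_abs, sq_abs]
  have hs0 : ξ 0 + η 0 = ξ' 0 + η' 0 := by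
    have := congrArg (fun z : E2 => z 0) hs
    simpa using this
  have hs1 : ξ 1 + η 1 = ξ' 1 + η' 1 := by
    have := congrArg (fun z : E2 => z 1) hs
    simpa using this
  have hNpos : 0 < N := by linarith
  have hε : 2 / N ^ 2 ≤ 2 := by
    rw [div_le_iff₀ (by positivity)]
    have := one_le_pow₀ hN (n := 2)
    linarith
  rw [nsq] at h1 h2 h3 h4
  have key := geom_aux (by positivity) hε h1.2.1 h2.2.1 h3.2.1 h4.2.1 h1.2.2 h2.2.2 hs0 hs1
  have conv : ∀ d : ℝ, |d| ^ 2 ≤ 3300 * (2 / N ^ 2) → |N * d| ≤ 82 := by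
    intro d hd
    apply abs_le_of_sq_le_sq _ (by norm_num)
    rw [mul_pow, ← sq_abs d]
    calc N ^ 2 * |d| ^ 2 ≤ N ^ 2 * (3300 * (2 / N ^ 2)) := by gcongr
      _ = 6600 := by field_simp; norm_num
      _ ≤ 82 ^ 2 := by norm_num
  have fin : ∀ (a b : ℤ) (p q : ℝ), |N * p - a| ≤ 1 → |N * q - b| ≤ 1 → |N * (p - q)| ≤ 82 →
      |a - b| ≤ 85 := by
    intro a b p q hp hq hpq
    have : |((a - b : ℤ) : ℝ)| ≤ 85 := by
      push_cast
      rw [mul_sub] at hpq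
      rw [abs_le] at hp hq hpq ⊢
      constructor <;> linarith
    exact_mod_cast this
  rcases key with h | h
  · left
    have e1 := conv _ h
    have e2 : |N * (η 0 - η' 0)| ≤ 82 := by
      have : N * (η 0 - η' 0) = -(N * (ξ 0 - ξ' 0)) := by
        have : η 0 - η' 0 = -(ξ 0 - ξ' 0) := by linarith
        rw [this]; ring
      rw [this, abs_neg]; exact e1
    exact ⟨fin _ _ _ _ h1.1 h3.1 e1, fin _ _ _ _ h2.1 h4.1 e2⟩
  · right
    have e1 := conv _ h
    have e2 : |N * (η 0 - ξ' 0)| ≤ 82 := by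
      have : N * (η 0 - ξ' 0) = -(N * (ξ 0 - η' 0)) := by
        have : η 0 - ξ' 0 = -(ξ 0 - η' 0) := by linarith
        rw [this]; ring
      rw [this, abs_neg]; exact e1
    exact ⟨fin _ _ _ _ h1.1 h4.1 e1, fin _ _ _ _ h2.1 h3.1 e2⟩


/-- the convolution of two pieces vanishes off the sum set -/
theorem conv_ne_zero {h k : E2 → ℂ} {ζ : E2} (hz : (∫ t, h t * k (ζ - t)) ≠ 0) :
    ∃ ξ η : E2, h ξ ≠ 0 ∧ k η ≠ 0 ∧ ζ = ξ + η := by
  by_contra hcon
  push Not at hcon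
  apply hz
  have : (fun t => h t * k (ζ - t)) = fun _ => 0 := by
    ext t
    by_cases h1 : h t = 0
    · simp [h1]
    · by_cases h2 : k (ζ - t) = 0
      · simp [h2]
      · exact absurd (by abel) (hcon t (ζ - t) h1 h2)
  rw [this]; simp

theorem orth_aux {N : ℝ} (hN : 1 ≤ N) (m : ℤ → 𝓢(E2, ℂ))
    (hm : ∀ j ξ, m j ξ ≠ 0 → |N * ξ 0 - j| ≤ 1 ∧ |‖ξ‖ ^ 2 - 1| ≤ 2 / N ^ 2 ∧ 1/10 ≤ ξ 1)
    {f : E2 → ℂ} (hf : Integrable f) (j k j' k' : ℤ) (hnc : ¬ close (j, k) (j', k')) :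
    ∫ x, (cv (𝓕⁻ (m j) : 𝓢(E2, ℂ)) f x * cv (𝓕⁻ (m k) : 𝓢(E2, ℂ)) f x) *
      conj (cv (𝓕⁻ (m j') : 𝓢(E2, ℂ)) f x * cv (𝓕⁻ (m k') : 𝓢(E2, ℂ)) f x) = 0 := by
  have hI : ∀ j, Integrable (fun ξ => m j ξ * 𝓕 f ξ) := by
    intro j
    apply (m j).integrable.mul_bdd (c := ∫ v, ‖f v‖)
    · exact (continuous_fourier hf).aestronglyMeasurable
    · filter_upwards with x
      exact norm_fourier_le f x
  have hC : ∀ j, Continuous (fun ξ => m j ξ * 𝓕 f ξ) := fun j =>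
    (m j).continuous.mul (continuous_fourier hf)
  have hB : ∀ j ξ, ‖m j ξ * 𝓕 f ξ‖ ≤ SchwartzMap.seminorm ℝ 0 0 (m j) * ∫ v, ‖f v‖ := by
    intro j ξ
    rw [norm_mul]
    have h1 := SchwartzMap.norm_le_seminorm ℝ (m j) ξ
    have h2 := norm_fourier_le f ξ
    gcongr
  have hK : ∀ j, Integrable (cv (𝓕⁻ (m j) : 𝓢(E2, ℂ)) f) := fun j =>
    integrable_cv (𝓕⁻ (m j) : 𝓢(E2, ℂ)).integrable hf
  have hprod : ∀ j k x, cv (𝓕⁻ (m j) : 𝓢(E2, ℂ)) f x * cv (𝓕⁻ (m k) : 𝓢(E2, ℂ)) f x =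
      𝓕⁻ (fun ζ => ∫ t, (m j t * 𝓕 f t) * (m k (ζ - t) * 𝓕 f (ζ - t))) x := by
    intro j k x
    rw [cv_schwartz_eq (m j) hf, cv_schwartz_eq (m k) hf]
    exact fourierInv_mul_conv (hI j) (hI k) x
  have hconv : ∀ j k, (fun ζ => ∫ t, (m j t * 𝓕 f t) * (m k (ζ - t) * 𝓕 f (ζ - t))) =
      (fun ξ => m j ξ * 𝓕 f ξ) ⋆[ContinuousLinearMap.mul ℂ ℂ] (fun ξ => m k ξ * 𝓕 f ξ) := by
    intro j k; rfl
  have hHI : ∀ j k, Integrable (fun ζ => ∫ t, (m j t * 𝓕 f t) * (m k (ζ - t) * 𝓕 f (ζ - t))) := by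
    intro j k
    rw [hconv]
    exact (hI j).integrable_convolution _ (hI k)
  have hHC : ∀ j k, Continuous (fun ζ => ∫ t, (m j t * 𝓕 f t) * (m k (ζ - t) * 𝓕 f (ζ - t))) := by
    intro j k
    rw [hconv]
    refine BddAbove.continuous_convolution_right_of_integrable _ ?_ (hI j) (hC k)
    refine ⟨SchwartzMap.seminorm ℝ 0 0 (m k) * ∫ v, ‖f v‖, ?_⟩
    rintro x ⟨y, rfl⟩
    exact hB k y
  have hcvb : ∀ j, ∃ C, ∀ x, ‖cv (𝓕⁻ (m j) : 𝓢(E2, ℂ)) f x‖ ≤ C := by
    intro j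
    exact ⟨_, norm_cv_le (fun x => SchwartzMap.norm_le_seminorm ℝ (𝓕⁻ (m j) : 𝓢(E2, ℂ)) x) hf⟩
  have hPI : Integrable (𝓕⁻ (fun ζ => ∫ t, (m j' t * 𝓕 f t) * (m k' (ζ - t) * 𝓕 f (ζ - t)))) := by
    have e : 𝓕⁻ (fun ζ => ∫ t, (m j' t * 𝓕 f t) * (m k' (ζ - t) * 𝓕 f (ζ - t))) =
        fun x => cv (𝓕⁻ (m j') : 𝓢(E2, ℂ)) f x * cv (𝓕⁻ (m k') : 𝓢(E2, ℂ)) f x := by
      ext x; exact (hprod j' k' x).symm
    rw [e]
    obtain ⟨C, hC'⟩ := hcvb k'
    apply (hK j').mul_bdd (c := C)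
    · exact (hK k').aestronglyMeasurable
    · filter_upwards with x
      exact hC' x
  simp_rw [hprod]
  rw [parseval_inv (hHI j k) (hHI j' k') (hHC j' k') hPI]
  have : (fun ζ => (∫ t, (m j t * 𝓕 f t) * (m k (ζ - t) * 𝓕 f (ζ - t))) *
      conj (∫ t, (m j' t * 𝓕 f t) * (m k' (ζ - t) * 𝓕 f (ζ - t)))) = fun _ => 0 := by
    ext ζ
    by_contra hne
    have h1 := left_ne_zero_of_mul hne
    have h2 := right_ne_zero_of_mul hne
    have h2' : (∫ t, (m j' t * 𝓕 f t) * (m k' (ζ - t) * 𝓕 f (ζ - t))) ≠ 0 := by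
      intro h; apply h2; rw [h]; simp
    obtain ⟨ξ, η, a1, a2, a3⟩ := conv_ne_zero (h := fun t => m j t * 𝓕 f t)
      (k := fun t => m k t * 𝓕 f t) h1
    obtain ⟨ξ', η', b1, b2, b3⟩ := conv_ne_zero (h := fun t => m j' t * 𝓕 f t)
      (k := fun t => m k' t * 𝓕 f t) h2'
    apply hnc
    exact close_of_sum hN (hm _ _ (left_ne_zero_of_mul a1)) (hm _ _ (left_ne_zero_of_mul a2))
      (hm _ _ (left_ne_zero_of_mul b1)) (hm _ _ (left_ne_zero_of_mul b2)) (a3.symm.trans b3)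
  rw [this]; simp


theorem close_symm {p q : ℤ × ℤ} (h : close p q) : close q p := by
  rcases h with ⟨h1, h2⟩ | ⟨h1, h2⟩
  · left; exact ⟨by rw [abs_sub_comm]; exact h1, by rw [abs_sub_comm]; exact h2⟩
  · right; exact ⟨by rw [abs_sub_comm]; exact h2, by rw [abs_sub_comm]; exact h1⟩

open Classical in
theorem close_card (S : Finset (ℤ × ℤ)) (p : ℤ × ℤ) :
    (S.filter (fun q => close p q)).card ≤ 58482 := by
  have hsub : S.filter (fun q => close p q) ⊆
      (Finset.Icc (p.1 - 85) (p.1 + 85) ×ˢ Finset.Icc (p.2 - 85) (p.2 + 85)) ∪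
      (Finset.Icc (p.2 - 85) (p.2 + 85) ×ˢ Finset.Icc (p.1 - 85) (p.1 + 85)) := by
    intro q hq
    have hc := (Finset.mem_filter.1 hq).2
    rw [Finset.mem_union, Finset.mem_product, Finset.mem_product]
    simp only [Finset.mem_Icc]
    rcases hc with ⟨h1, h2⟩ | ⟨h1, h2⟩
    · left
      rw [abs_le] at h1 h2
      constructor <;> constructor <;> linarith
    · right
      rw [abs_le] at h1 h2
      constructor <;> constructor <;> linarith
  refine (Finset.card_le_card hsub).trans ((Finset.card_union_le _ _).trans ?_)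
  rw [Finset.card_product, Finset.card_product, Int.card_Icc, Int.card_Icc]
  have e1 : p.1 + 85 + 1 - (p.1 - 85) = 171 := by ring
  have e2 : p.2 + 85 + 1 - (p.2 - 85) = 171 := by ring
  rw [e1, e2]
  decide

open Classical in
/-- abstract almost-orthogonality argument -/
theorem almost_orth {α : Type*} [MeasurableSpace α] (μ : Measure α) (S : Finset (ℤ × ℤ))
    (P : ℤ × ℤ → α → ℂ) (hint : ∀ p q, Integrable (fun x => P p x * conj (P q x)) μ)
    (hint2 : ∀ p, Integrable (fun x => ‖P p x‖ ^ 2) μ)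
    (horth : ∀ p q, ¬ close p q → ∫ x, P p x * conj (P q x) ∂μ = 0) :
    ∫ x, ‖∑ p ∈ S, P p x‖ ^ 2 ∂μ ≤ 58482 * ∑ p ∈ S, ∫ x, ‖P p x‖ ^ 2 ∂μ := by
  have h1 : ((∫ x, ‖∑ p ∈ S, P p x‖ ^ 2 ∂μ : ℝ) : ℂ) =
      ∑ p ∈ S, ∑ q ∈ S, ∫ x, P p x * conj (P q x) ∂μ := by
    rw [← integral_complex_ofReal]
    have : ∀ x, ((‖∑ p ∈ S, P p x‖ ^ 2 : ℝ) : ℂ) = ∑ p ∈ S, ∑ q ∈ S, P p x * conj (P q x) := by
      intro x
      push_cast
      rw [← Complex.mul_conj', map_sum, Finset.sum_mul_sum]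
    simp_rw [this]
    rw [integral_finsetSum _ (fun p _ => integrable_finsetSum _ (fun q _ => hint p q))]
    congr 1
    ext p
    rw [integral_finsetSum _ (fun q _ => hint p q)]
  have h2 : ∀ p q, ‖∫ x, P p x * conj (P q x) ∂μ‖ ≤
      (if close p q then (∫ x, ‖P p x‖ ^ 2 ∂μ) / 2 + (∫ x, ‖P q x‖ ^ 2 ∂μ) / 2 else 0) := by
    intro p q
    split_ifs with hc
    · rw [← add_div, ← integral_add (hint2 p) (hint2 q), ← integral_div]
      refine norm_integral_le_of_norm_le (((hint2 p).add (hint2 q)).div_const 2) ?_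
      filter_upwards with x
      rw [norm_mul, RCLike.norm_conj]
      nlinarith [sq_nonneg (‖P p x‖ - ‖P q x‖)]
    · rw [horth p q hc]; simp
  have h3 : ∫ x, ‖∑ p ∈ S, P p x‖ ^ 2 ∂μ ≤ ∑ p ∈ S, ∑ q ∈ S,
      (if close p q then (∫ x, ‖P p x‖ ^ 2 ∂μ) / 2 + (∫ x, ‖P q x‖ ^ 2 ∂μ) / 2 else 0) := by
    calc ∫ x, ‖∑ p ∈ S, P p x‖ ^ 2 ∂μ ≤ ‖((∫ x, ‖∑ p ∈ S, P p x‖ ^ 2 ∂μ : ℝ) : ℂ)‖ := by
          rw [Complex.norm_real]; exact le_abs_self _
      _ ≤ _ := by
          rw [h1]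
          refine (norm_sum_le _ _).trans (Finset.sum_le_sum fun p _ => ?_)
          exact (norm_sum_le _ _).trans (Finset.sum_le_sum fun q _ => h2 p q)
  refine h3.trans ?_
  have hn : ∀ p, 0 ≤ ∫ x, ‖P p x‖ ^ 2 ∂μ := fun p => integral_nonneg fun x => by positivity
  have h4 : ∀ p q, (if close p q then (∫ x, ‖P p x‖ ^ 2 ∂μ) / 2 + (∫ x, ‖P q x‖ ^ 2 ∂μ) / 2 else 0) =
      (if close p q then (∫ x, ‖P p x‖ ^ 2 ∂μ) / 2 else 0) +
      (if close q p then (∫ x, ‖P q x‖ ^ 2 ∂μ) / 2 else 0) := by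
    intro p q
    by_cases hc : close p q
    · rw [if_pos hc, if_pos hc, if_pos (close_symm hc)]
    · rw [if_neg hc, if_neg hc, if_neg (fun h => hc (close_symm h))]; simp
  have h5 : ∀ p, ∑ q ∈ S, (if close p q then (∫ x, ‖P p x‖ ^ 2 ∂μ) / 2 else 0) ≤
      58482 * ((∫ x, ‖P p x‖ ^ 2 ∂μ) / 2) := by
    intro p
    rw [← Finset.sum_filter, Finset.sum_const, nsmul_eq_mul]
    have := close_card S p
    have hh : ((S.filter (fun q => close p q)).card : ℝ) ≤ 58482 := by exact_mod_cast this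
    have := hn p
    gcongr
  simp_rw [h4, Finset.sum_add_distrib]
  rw [Finset.sum_comm (f := fun p q => (if close q p then (∫ x, ‖P q x‖ ^ 2 ∂μ) / 2 else 0))]
  calc _ ≤ ∑ p ∈ S, 58482 * ((∫ x, ‖P p x‖ ^ 2 ∂μ) / 2) + ∑ p ∈ S, 58482 * ((∫ x, ‖P p x‖ ^ 2 ∂μ) / 2) := by
        apply add_le_add
        · exact Finset.sum_le_sum fun p _ => h5 p
        · exact Finset.sum_le_sum fun p _ => h5 p
    _ = 58482 * ∑ p ∈ S, ∫ x, ‖P p x‖ ^ 2 ∂μ := by
        rw [← Finset.sum_add_distrib, Finset.mul_sum]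
        congr 1
        ext p
        ring

theorem T07_reverse : ∃ C : ℝ, 0 ≤ C ∧ ∀ (N : ℝ), 1 ≤ N → ∀ (J : Finset ℤ) (m : ℤ → 𝓢(E2, ℂ)),
    (∀ j ξ, m j ξ ≠ 0 → |N * ξ 0 - j| ≤ 1 ∧ |‖ξ‖ ^ 2 - 1| ≤ 2 / N ^ 2 ∧ 1/10 ≤ ξ 1) →
    ∀ f : E2 → ℂ, Adm volume f →
    ∫⁻ x : E2, ‖∑ j ∈ J, ∫ y : E2, 𝓕⁻ (m j) (x - y) * f y‖ₑ ^ 4
      ≤ ENNReal.ofReal C * ∫⁻ x : E2, (∑ j ∈ J, ‖∫ y : E2, 𝓕⁻ (m j) (x - y) * f y‖ₑ ^ 2) ^ 2 := by
  refine ⟨58482, by norm_num, ?_⟩
  intro N hN J m hm f hf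
  change ∫⁻ x : E2, ‖∑ j ∈ J, cv (𝓕⁻ (m j) : 𝓢(E2, ℂ)) f x‖ₑ ^ 4 ≤ ENNReal.ofReal 58482 *
    ∫⁻ x : E2, (∑ j ∈ J, ‖cv (𝓕⁻ (m j) : 𝓢(E2, ℂ)) f x‖ₑ ^ 2) ^ 2
  set F : ℤ → E2 → ℂ := fun j => cv (𝓕⁻ (m j) : 𝓢(E2, ℂ)) f with hFdef
  have hbd : ∀ j, ∃ C, ∀ x, ‖F j x‖ ≤ C := fun j =>
    ⟨_, norm_cv_le (fun x => SchwartzMap.norm_le_seminorm ℝ (𝓕⁻ (m j) : 𝓢(E2, ℂ)) x) hf.int⟩
  have hcont : ∀ j, Continuous (F j) := fun j =>
    continuous_cv (𝓕⁻ (m j) : 𝓢(E2, ℂ)).continuous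
      (fun x => SchwartzMap.norm_le_seminorm ℝ (𝓕⁻ (m j) : 𝓢(E2, ℂ)) x) hf.int
  have hint : ∀ j, Integrable (F j) := fun j =>
    integrable_cv (𝓕⁻ (m j) : 𝓢(E2, ℂ)).integrable hf.int
  have hPI : ∀ j k, Integrable (fun x => F j x * F k x) := by
    intro j k
    obtain ⟨C, hC⟩ := hbd k
    exact (hint j).mul_bdd (c := C) (hcont k).aestronglyMeasurable (by filter_upwards with x; exact hC x)
  have hPb : ∀ j k, ∃ C, ∀ x, ‖F j x * F k x‖ ≤ C := by
    intro j k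
    obtain ⟨C, hC⟩ := hbd j
    obtain ⟨C', hC'⟩ := hbd k
    refine ⟨C * C', fun x => ?_⟩
    rw [norm_mul]
    have h1 := hC x
    have h2 := hC' x
    gcongr
    exact (norm_nonneg _).trans h1
  set P : ℤ × ℤ → E2 → ℂ := fun p x => F p.1 x * F p.2 x with hPdef
  have hPc : ∀ p, Continuous (P p) := fun p => (hcont p.1).mul (hcont p.2)
  have i1 : ∀ p q, Integrable (fun x => P p x * conj (P q x)) := by
    intro p q
    obtain ⟨C, hC⟩ := hPb q.1 q.2
    refine (hPI p.1 p.2).mul_bdd (c := C) ?_ ?_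
    · exact (Complex.continuous_conj.comp (hPc q)).aestronglyMeasurable
    · filter_upwards with x
      rw [RCLike.norm_conj]; exact hC x
  have i2 : ∀ p, Integrable (fun x => ‖P p x‖ ^ 2) := by
    intro p
    have := (i1 p p).norm
    refine this.congr ?_
    filter_upwards with x
    rw [norm_mul, RCLike.norm_conj, sq]
  have key := almost_orth volume (J ×ˢ J) P i1 i2 (fun p q hpq =>
    orth_aux hN m hm hf.int p.1 p.2 q.1 q.2 hpq)
  have e1 : ∀ x, ‖∑ p ∈ J ×ˢ J, P p x‖ ^ 2 = ‖∑ j ∈ J, F j x‖ ^ 4 := by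
    intro x
    rw [Finset.sum_product]
    simp only [hPdef]
    rw [← Finset.sum_mul_sum, norm_mul]
    ring
  have e2 : ∑ p ∈ J ×ˢ J, ∫ x, ‖P p x‖ ^ 2 = ∫ x, (∑ j ∈ J, ‖F j x‖ ^ 2) ^ 2 := by
    rw [← integral_finsetSum _ (fun p _ => i2 p)]
    congr 1
    ext x
    rw [Finset.sum_product]
    simp only [hPdef, norm_mul, mul_pow]
    rw [← Finset.sum_mul_sum, sq]
  simp_rw [e1] at key
  rw [e2] at key
  have I1 : Integrable (fun x => ‖∑ j ∈ J, F j x‖ ^ 4) := by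
    have : Integrable (fun x => ‖∑ p ∈ J ×ˢ J, P p x‖ ^ 2) := by
      have h : Integrable (fun x => (∑ p ∈ J ×ˢ J, P p x) * conj (∑ q ∈ J ×ˢ J, P q x)) := by
        simp_rw [map_sum, Finset.sum_mul_sum]
        exact integrable_finsetSum _ (fun p _ => integrable_finsetSum _ (fun q _ => i1 p q))
      refine h.norm.congr ?_
      filter_upwards with x
      rw [norm_mul, RCLike.norm_conj, sq]
    simp_rw [e1] at this
    exact this
  have I2 : Integrable (fun x => (∑ j ∈ J, ‖F j x‖ ^ 2) ^ 2) := by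
    have : Integrable (fun x => ∑ p ∈ J ×ˢ J, ‖P p x‖ ^ 2) :=
      integrable_finsetSum _ (fun p _ => i2 p)
    refine this.congr ?_
    filter_upwards with x
    rw [Finset.sum_product]
    simp only [hPdef, norm_mul, mul_pow]
    rw [← Finset.sum_mul_sum, sq]
  have l1 : ∫⁻ x, ‖∑ j ∈ J, F j x‖ₑ ^ 4 = ENNReal.ofReal (∫ x, ‖∑ j ∈ J, F j x‖ ^ 4) := by
    rw [ofReal_integral_eq_lintegral_ofReal I1 (by filter_upwards with x; positivity)]
    congr 1
    ext x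
    rw [ENNReal.ofReal_pow (norm_nonneg _), ofReal_norm]
  have l2 : ∫⁻ x, (∑ j ∈ J, ‖F j x‖ₑ ^ 2) ^ 2 = ENNReal.ofReal (∫ x, (∑ j ∈ J, ‖F j x‖ ^ 2) ^ 2) := by
    rw [ofReal_integral_eq_lintegral_ofReal I2 (by filter_upwards with x; positivity)]
    congr 1
    ext x
    rw [ENNReal.ofReal_pow (by positivity), ENNReal.ofReal_sum_of_nonneg (fun i _ => by positivity)]
    congr 2
    ext j
    rw [ENNReal.ofReal_pow (norm_nonneg _), ofReal_norm]
  rw [l1, l2, ← ENNReal.ofReal_mul (by norm_num)]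
  exact ENNReal.ofReal_le_ofReal key

end Vale.Agent.P117
end
end

section

section

open MeasureTheory Complex Set
open scoped ENNReal NNReal ContDiff FourierTransform SchwartzMap ComplexConjugate Convolution

namespace Vale.Agent.P117

/-- the plane as a product -/
noncomputable def pe : E2 ≃ᵐ ℝ × ℝ :=
  (MeasurableEquiv.toLp 2 (Fin 2 → ℝ)).symm.trans MeasurableEquiv.finTwoArrow

theorem pe_apply (x : E2) : pe x = (x 0, x 1) := rfl

theorem mp_pe : MeasurePreserving pe volume volume :=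
  (volume_preserving_finTwoArrow ℝ).comp (PiLp.volume_preserving_ofLp (Fin 2))

theorem lintegral_E2 (F : ℝ × ℝ → ℝ≥0∞) : ∫⁻ x : E2, F (x 0, x 1) = ∫⁻ z, F z :=
  mp_pe.lintegral_comp_emb pe.measurableEmbedding F

theorem integral_E2 (F : ℝ × ℝ → ℂ) : ∫ x : E2, F (x 0, x 1) = ∫ z, F z :=
  mp_pe.integral_comp pe.measurableEmbedding F

theorem holder_pow {α : Type*} [MeasurableSpace α] (μ : Measure α) {k g : α → ℝ≥0∞}
    (hk : AEMeasurable k μ) (hg : AEMeasurable g μ) {p : ℝ} (hp : 1 ≤ p) :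
    (∫⁻ a, k a * g a ∂μ) ^ p ≤ (∫⁻ a, k a ∂μ) ^ (p - 1) * ∫⁻ a, k a * g a ^ p ∂μ := by
  rcases eq_or_lt_of_le hp with h1 | h1
  · rw [← h1]; simp
  have hp0 : 0 < p := by linarith
  have hpq := Real.HolderConjugate.conjExponent h1
  set q := p.conjExponent with hq
  have hq0 : 0 < q := hpq.symm.pos
  have hqp : p / q = p - 1 := by
    have := hpq.sub_one_mul_conj
    rw [div_eq_iff hq0.ne']
    exact this.symm
  have h := ENNReal.lintegral_mul_le_Lp_mul_Lq μ hpq.symm (f := fun a => k a ^ (1/q))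
    (g := fun a => k a ^ (1/p) * g a) (hk.pow_const _) ((hk.pow_const _).mul hg)
  have e1 : ∀ a, ((fun a => k a ^ (1/q)) * (fun a => k a ^ (1/p) * g a)) a = k a * g a := by
    intro a
    simp only [Pi.mul_apply]
    rw [← mul_assoc, ← ENNReal.rpow_add_of_nonneg _ _ (by positivity) (by positivity)]
    have : 1 / q + 1 / p = 1 := by
      have := hpq.symm.inv_add_inv_eq_one
      simpa using this
    rw [this, ENNReal.rpow_one]
  have e2 : ∀ a, (k a ^ (1/q)) ^ q = k a := by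
    intro a
    rw [← ENNReal.rpow_mul, one_div, inv_mul_cancel₀ hq0.ne', ENNReal.rpow_one]
  have e3 : ∀ a, (k a ^ (1/p) * g a) ^ p = k a * g a ^ p := by
    intro a
    rw [ENNReal.mul_rpow_of_nonneg _ _ hp0.le, ← ENNReal.rpow_mul, one_div, inv_mul_cancel₀ hp0.ne',
      ENNReal.rpow_one]
  simp_rw [e1, e2, e3] at h
  calc (∫⁻ a, k a * g a ∂μ) ^ p ≤ ((∫⁻ a, k a ∂μ) ^ (1/q) * (∫⁻ a, k a * g a ^ p ∂μ) ^ (1/p)) ^ p := by
        gcongr
    _ = _ := by
        rw [ENNReal.mul_rpow_of_nonneg _ _ hp0.le, ← ENNReal.rpow_mul, ← ENNReal.rpow_mul]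
        congr 2
        · rw [← hqp]; ring
        · rw [one_div, inv_mul_cancel₀ hp0.ne', ENNReal.rpow_one]

section
variable {V : Type*} [NormedAddCommGroup V] [InnerProductSpace ℝ V] [FiniteDimensional ℝ V]
  [MeasurableSpace V] [BorelSpace V]

theorem enorm_cv_le (K f : V → ℂ) (x : V) : ‖cv K f x‖ₑ ≤ ∫⁻ y, ‖K (x - y)‖ₑ * ‖f y‖ₑ := by
  unfold cv
  refine (enorm_integral_le_lintegral_enorm _).trans_eq ?_
  congr 1
  ext y
  rw [enorm_mul]

/-- Young inequality for nonnegative functions -/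
theorem young_lintegral {k g : V → ℝ≥0∞} (hk : Measurable k) (hg : Measurable g) {p : ℝ}
    (hp : 1 ≤ p) : ∫⁻ x, (∫⁻ y, k (x - y) * g y) ^ p ≤ (∫⁻ y, k y) ^ p * ∫⁻ y, g y ^ p := by
  have hm : Measurable (fun z : V × V => k (z.1 - z.2) * g z.2 ^ p) := by fun_prop
  calc ∫⁻ x, (∫⁻ y, k (x - y) * g y) ^ p
      ≤ ∫⁻ x, (∫⁻ y, k y) ^ (p - 1) * ∫⁻ y, k (x - y) * g y ^ p := by
        apply lintegral_mono
        intro x
        refine (holder_pow volume (hk.comp (measurable_id.const_sub x)).aemeasurable hg.aemeasurable hp).trans_eq ?_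
        congr 2
        exact lintegral_sub_left_eq_self k x
    _ = (∫⁻ y, k y) ^ (p - 1) * ∫⁻ x, ∫⁻ y, k (x - y) * g y ^ p := by
        rw [lintegral_const_mul]
        exact hm.lintegral_prod_right'
    _ = (∫⁻ y, k y) ^ (p - 1) * ∫⁻ y, ∫⁻ x, k (x - y) * g y ^ p := by
        rw [lintegral_lintegral_swap]
        exact hm.aemeasurable
    _ = (∫⁻ y, k y) ^ (p - 1) * ∫⁻ y, (∫⁻ x, k x) * g y ^ p := by
        congr 2
        ext y
        rw [lintegral_mul_const _ (by fun_prop)]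
        congr 1
        exact lintegral_sub_right_eq_self k y
    _ = (∫⁻ y, k y) ^ (p - 1) * ((∫⁻ x, k x) * ∫⁻ y, g y ^ p) := by
        rw [lintegral_const_mul _ (by fun_prop)]
    _ = _ := by
        rw [← mul_assoc]
        congr 1
        conv_lhs => rw [← ENNReal.rpow_one (∫⁻ x, k x), ← ENNReal.rpow_mul, one_mul]
        rw [← ENNReal.rpow_add_of_nonneg _ _ (by linarith) (by norm_num)]
        congr 1; ring

theorem young_L1 {K f : V → ℂ} (hK : Measurable K) (hf : Measurable f) (p : ℝ≥0∞) (hp : 1 ≤ p) :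
    eLpNorm (cv K f) p volume ≤ (∫⁻ y, ‖K y‖ₑ) * eLpNorm f p volume := by
  rcases eq_or_ne p ⊤ with rfl | htop
  · rw [eLpNorm_exponent_top, eLpNorm_exponent_top]
    apply eLpNormEssSup_le_of_ae_enorm_bound
    filter_upwards with x
    refine (enorm_cv_le K f x).trans ?_
    calc ∫⁻ y, ‖K (x - y)‖ₑ * ‖f y‖ₑ ≤ ∫⁻ y, ‖K (x - y)‖ₑ * eLpNormEssSup f volume := by
          apply lintegral_mono_ae
          filter_upwards [ae_le_eLpNormEssSup (f := f) (μ := (volume : Measure V))] with y hy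
          gcongr
      _ = (∫⁻ y, ‖K (x - y)‖ₑ) * eLpNormEssSup f volume := by
          have hKx : Measurable (fun y => ‖K (x - y)‖ₑ) := (hK.comp (measurable_id.const_sub x)).enorm
          rw [lintegral_mul_const _ hKx]
      _ = _ := by
          congr 1
          exact lintegral_sub_left_eq_self (fun y => ‖K y‖ₑ) x
  · have hp0 : p ≠ 0 := fun h => by rw [h] at hp; exact absurd hp (by norm_num)
    rw [eLpNorm_eq_lintegral_rpow_enorm_toReal hp0 htop, eLpNorm_eq_lintegral_rpow_enorm_toReal hp0 htop]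
    have hp1 : 1 ≤ p.toReal := by
      rw [← ENNReal.toReal_one]
      exact ENNReal.toReal_mono htop hp
    have hpp : 0 < p.toReal := by linarith
    have h := young_lintegral (k := fun y => ‖K y‖ₑ) (g := fun y => ‖f y‖ₑ) hK.enorm hf.enorm hp1
    have h2 : ∫⁻ x, ‖cv K f x‖ₑ ^ p.toReal ≤ (∫⁻ y, ‖K y‖ₑ) ^ p.toReal * ∫⁻ y, ‖f y‖ₑ ^ p.toReal := by
      refine le_trans (lintegral_mono fun x => ?_) h
      have := enorm_cv_le K f x
      gcongr
    calc _ ≤ ((∫⁻ y, ‖K y‖ₑ) ^ p.toReal * ∫⁻ y, ‖f y‖ₑ ^ p.toReal) ^ (1 / p.toReal) := by gcongr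
      _ = _ := by
        rw [ENNReal.mul_rpow_of_nonneg _ _ (by positivity), ← ENNReal.rpow_mul, mul_one_div,
          div_self hpp.ne', ENNReal.rpow_one]

end

end Vale.Agent.P117
end
end

section

section

open MeasureTheory Complex Set
open scoped ENNReal NNReal ContDiff FourierTransform SchwartzMap ComplexConjugate Convolution

namespace Vale.Agent.P117

/-! one dimensional cut-offs -/

noncomputable def eta0 (t : ℝ) : ℂ :=
  ((Real.smoothTransition (t + 1) - Real.smoothTransition t : ℝ) : ℂ)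

theorem contDiff_st : ContDiff ℝ ∞ Real.smoothTransition := Real.smoothTransition.contDiff

theorem contDiff_eta0 : ContDiff ℝ ∞ eta0 := by
  unfold eta0
  have h := contDiff_st
  exact Complex.ofRealCLM.contDiff.comp ((h.comp (by fun_prop)).sub h)

theorem eta0_supp (t : ℝ) (ht : eta0 t ≠ 0) : |t| ≤ 1 := by
  by_contra hcon
  push Not at hcon
  apply ht
  unfold eta0
  rcases lt_abs.1 hcon with h | h
  · rw [Real.smoothTransition.one_of_one_le (by linarith), Real.smoothTransition.one_of_one_le (by linarith)]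
    simp
  · rw [Real.smoothTransition.zero_of_nonpos (by linarith), Real.smoothTransition.zero_of_nonpos (by linarith)]
    simp

theorem eta0_sum_aux (m : ℕ) (t : ℝ) : ∑ j ∈ Finset.Icc (-(m:ℤ)) m, eta0 (t - j) =
    ((Real.smoothTransition (t + m + 1) - Real.smoothTransition (t - m) : ℝ) : ℂ) := by
  induction m with
  | zero => simp [eta0]
  | succ m ih =>
    have e : Finset.Icc (-((m + 1 : ℕ):ℤ)) ((m + 1 : ℕ) : ℤ) =
        insert ((m + 1 : ℕ) : ℤ) (insert (-((m + 1 : ℕ):ℤ)) (Finset.Icc (-(m:ℤ)) m)) := by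
      ext k
      simp only [Finset.mem_Icc, Finset.mem_insert]
      omega
    rw [e, Finset.sum_insert, Finset.sum_insert, ih]
    · unfold eta0
      push_cast
      have h1 : t - (m + 1) + 1 = t - m := by ring
      have h2 : t - -(1 + (m:ℝ)) + 1 = t + (m + 1) + 1 := by ring
      have h3 : t - (-1 + -(m:ℝ)) + 1 = t + (m + 1) + 1 := by ring
      have h4 : t - (-1 + -(m:ℝ)) = t + m + 1 := by ring
      have h5 : t - -(m + 1 : ℝ) + 1 = t + (m + 1) + 1 := by ring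
      have h6 : t - -(m + 1 : ℝ) = t + m + 1 := by ring
      rw [h1, h5, h6]
      ring
    · simp only [Finset.mem_Icc]; omega
    · simp only [Finset.mem_Icc, Finset.mem_insert]; omega

theorem eta0_sum (m : ℕ) (t : ℝ) (ht : |t| ≤ m) : ∑ j ∈ Finset.Icc (-(m:ℤ)) m, eta0 (t - j) = 1 := by
  rw [eta0_sum_aux]
  rw [abs_le] at ht
  rw [Real.smoothTransition.one_of_one_le (by linarith [ht.1]),
    Real.smoothTransition.zero_of_nonpos (by linarith [ht.2])]
  simp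

noncomputable def eta1 (t : ℝ) : ℂ :=
  ((Real.smoothTransition (t + 2) * Real.smoothTransition (2 - t) : ℝ) : ℂ)

theorem contDiff_eta1 : ContDiff ℝ ∞ eta1 := by
  unfold eta1
  have h := contDiff_st
  exact Complex.ofRealCLM.contDiff.comp ((h.comp (by fun_prop)).mul (h.comp (by fun_prop)))

theorem eta1_one {t : ℝ} (ht : |t| ≤ 1) : eta1 t = 1 := by
  unfold eta1
  rw [abs_le] at ht
  rw [Real.smoothTransition.one_of_one_le (by linarith), Real.smoothTransition.one_of_one_le (by linarith)]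
  simp

theorem hasCompactSupport_eta1 : HasCompactSupport eta1 := by
  apply HasCompactSupport.of_support_subset_isCompact (isCompact_Icc (a := (-2:ℝ)) (b := 2))
  intro t ht
  by_contra hcon
  apply ht
  unfold eta1
  rw [mem_Icc, not_and_or] at hcon
  push Not at hcon
  rcases hcon with h | h
  · rw [Real.smoothTransition.zero_of_nonpos (show t + 2 ≤ 0 by linarith)]
    simp
  · rw [Real.smoothTransition.zero_of_nonpos (show 2 - t ≤ 0 by linarith)]
    simp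

noncomputable def eta1S : 𝓢(ℝ, ℂ) := hasCompactSupport_eta1.toSchwartzMap contDiff_eta1

theorem eta1S_apply (t : ℝ) : eta1S t = eta1 t := rfl

noncomputable def rho : 𝓢(ℝ, ℂ) := 𝓕⁻ eta1S

theorem fourier_rho (v : ℝ) : 𝓕 (rho : ℝ → ℂ) v = eta1 v := by
  have : 𝓕 rho = eta1S := by unfold rho; simp
  rw [← SchwartzMap.fourier_coe, this, eta1S_apply]

theorem rho_bound : ∃ K : ℝ, ∀ y, ‖rho y‖ ≤ K * (1 + y ^ 2)⁻¹ := by
  obtain ⟨C0, h0⟩ := rho.decay 0 0
  obtain ⟨C2, h2⟩ := rho.decay 2 0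
  refine ⟨C0 + C2, fun y => ?_⟩
  have a0 := h0.2 y
  have a2 := h2.2 y
  simp only [pow_zero, one_mul, norm_iteratedFDeriv_zero, Real.norm_eq_abs, sq_abs] at a0 a2
  rw [← div_eq_mul_inv, le_div_iff₀ (by positivity)]
  linarith

noncomputable def pj (N : ℝ) (j : ℤ) (s : ℝ) : ℂ :=
  (N:ℂ)⁻¹ * rho (s / N) * cexp (2 * Real.pi * I * j * s / N)

theorem continuous_pj (N : ℝ) (j : ℤ) : Continuous (pj N j) := by
  unfold pj
  have := rho.continuous
  have h2 : Continuous (fun s : ℝ => rho (s / N)) := this.comp (by fun_prop)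
  fun_prop

theorem norm_pj {N : ℝ} (hN : 0 < N) (j : ℤ) (s : ℝ) : ‖pj N j s‖ = N⁻¹ * ‖rho (s / N)‖ := by
  unfold pj
  have : (2 * Real.pi * I * j * s / N : ℂ) = ((2 * Real.pi * j * s / N : ℝ) : ℂ) * I := by
    push_cast; ring
  rw [norm_mul, norm_mul, this, Complex.norm_exp_ofReal_mul_I, mul_one, norm_inv, Complex.norm_real,
    Real.norm_of_nonneg hN.le]

theorem integrable_pj {N : ℝ} (hN : 0 < N) (j : ℤ) : Integrable (pj N j) := by
  have h : Integrable (fun s : ℝ => N⁻¹ * ‖rho (s / N)‖) :=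
    (rho.integrable.norm.comp_div hN.ne').const_mul _
  refine h.mono' (continuous_pj N j).aestronglyMeasurable ?_
  filter_upwards with s
  rw [norm_pj hN]

theorem integral_pj {N : ℝ} (hN : 0 < N) (j : ℤ) (v : ℝ) :
    ∫ s : ℝ, pj N j s * cexp (((-2 * Real.pi * s * v : ℝ) : ℂ) * I) = eta1 (N * v - j) := by
  rw [← fourier_rho, Real.fourier_real_eq_integral_exp_smul]
  set g : ℝ → ℂ := fun t => cexp (((-2 * Real.pi * t * (N * v - j) : ℝ) : ℂ) * I) • rho t with hg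
  have h1 : ∀ s : ℝ, pj N j s * cexp (((-2 * Real.pi * s * v : ℝ) : ℂ) * I) = (N:ℂ)⁻¹ * g (s / N) := by
    intro s
    simp only [hg, pj, smul_eq_mul]
    have hN' : (N:ℂ) ≠ 0 := by exact_mod_cast hN.ne'
    have : cexp (((-2 * Real.pi * (s / N) * (N * v - j) : ℝ) : ℂ) * I) =
        cexp (2 * Real.pi * I * j * s / N) * cexp (((-2 * Real.pi * s * v : ℝ) : ℂ) * I) := by
      rw [← Complex.exp_add]
      congr 1
      push_cast
      field_simp
      ring
    rw [this]; ring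
  simp_rw [h1]
  rw [integral_const_mul, Measure.integral_comp_div g N, abs_of_pos hN, real_smul, ← mul_assoc,
    inv_mul_cancel₀ (by exact_mod_cast hN.ne'), one_mul]

/-- first basis vector -/
noncomputable def E0 : E2 := EuclideanSpace.single 0 1

theorem inner_E0 (ξ : E2) : inner ℝ ξ E0 = ξ 0 := by
  unfold E0
  rw [EuclideanSpace.inner_single_right]; simp

theorem repro {N : ℝ} (hN : 0 < N) (j : ℤ) (m : 𝓢(E2, ℂ)) (hm : ∀ ξ, m ξ ≠ 0 → |N * ξ 0 - j| ≤ 1)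
    (x : E2) : (𝓕⁻ m : 𝓢(E2, ℂ)) x = ∫ s : ℝ, pj N j s * (𝓕⁻ m : 𝓢(E2, ℂ)) (x - s • E0) := by
  have hK : ∀ x, (𝓕⁻ m : 𝓢(E2, ℂ)) x = ∫ ξ, cexp (((2 * Real.pi * inner ℝ ξ x : ℝ) : ℂ) * I) * m ξ := by
    intro x
    rw [SchwartzMap.fourierInv_coe, Real.fourierInv_eq']
    rfl
  simp_rw [hK]
  have h1 : ∀ s : ℝ, pj N j s * ∫ ξ, cexp (((2 * Real.pi * inner ℝ ξ (x - s • E0) : ℝ) : ℂ) * I) * m ξ =
      ∫ ξ, (cexp (((2 * Real.pi * inner ℝ ξ x : ℝ) : ℂ) * I) * m ξ) *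
        (pj N j s * cexp (((-2 * Real.pi * s * ξ 0 : ℝ) : ℂ) * I)) := by
    intro s
    rw [← integral_const_mul]
    congr 1
    ext ξ
    have : cexp (((2 * Real.pi * inner ℝ ξ (x - s • E0) : ℝ) : ℂ) * I) =
      cexp (((2 * Real.pi * inner ℝ ξ x : ℝ) : ℂ) * I) * cexp (((-2 * Real.pi * s * ξ 0 : ℝ) : ℂ) * I) := by
      rw [← Complex.exp_add]
      congr 1
      rw [inner_sub_right, inner_smul_right, inner_E0]
      push_cast; ring
    rw [this]; ring
  simp_rw [h1]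
  rw [integral_integral_swap]
  · congr 1
    ext ξ
    rw [integral_const_mul, integral_pj hN]
    by_cases h : m ξ = 0
    · simp [h]
    · rw [eta1_one (hm ξ h), mul_one]
  · have hI : Integrable (fun z : ℝ × E2 => pj N j z.1 * m z.2) (volume.prod volume) :=
      (integrable_pj hN j).mul_prod m.integrable
    refine hI.mono ?_ ?_
    · have c1 := continuous_pj N j
      have c2 := m.continuous
      have : Continuous (Function.uncurry fun (s : ℝ) (ξ : E2) => (cexp (((2 * Real.pi * inner ℝ ξ x : ℝ) : ℂ) * I) * m ξ) *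
        (pj N j s * cexp (((-2 * Real.pi * s * ξ 0 : ℝ) : ℂ) * I))) := by
        unfold Function.uncurry
        fun_prop
      exact this.aestronglyMeasurable
    · filter_upwards with z
      simp only [Function.uncurry, norm_mul, Complex.norm_exp_ofReal_mul_I, one_mul, mul_one]
      rw [mul_comm]

/-- one dimensional frequency projection in the first variable -/
noncomputable def Pf (N : ℝ) (j : ℤ) (f : E2 → ℂ) (x : E2) : ℂ := ∫ s : ℝ, pj N j s * f (x - s • E0)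

theorem measurable_Pf (N : ℝ) (j : ℤ) {f : E2 → ℂ} (hf : Measurable f) : Measurable (Pf N j f) := by
  have h : Measurable (fun z : E2 × ℝ => pj N j z.2 * f (z.1 - z.2 • E0)) := by
    have := (continuous_pj N j).measurable
    fun_prop
  exact (h.stronglyMeasurable.integral_prod_right).measurable

theorem cv_repro {N : ℝ} (hN : 0 < N) (j : ℤ) (m : 𝓢(E2, ℂ)) (hm : ∀ ξ, m ξ ≠ 0 → |N * ξ 0 - j| ≤ 1)
    {f : E2 → ℂ} (hf : Adm volume f) (x : E2) :
    cv (𝓕⁻ m : 𝓢(E2, ℂ)) f x = cv (𝓕⁻ m : 𝓢(E2, ℂ)) (Pf N j f) x := by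
  set K := (𝓕⁻ m : 𝓢(E2, ℂ)) with hK
  have hKb : ∀ x, ‖K x‖ ≤ SchwartzMap.seminorm ℝ 0 0 K := fun x => SchwartzMap.norm_le_seminorm ℝ K x
  obtain ⟨b, hb⟩ := hf.bdd
  have hKm := K.continuous.measurable
  have hpm := (continuous_pj N j).measurable
  have hfm := hf.meas
  unfold cv
  calc ∫ y, K (x - y) * f y = ∫ y, ∫ s : ℝ, pj N j s * K (x - y - s • E0) * f y := by
        congr 1
        ext y
        rw [repro hN j m hm (x - y), ← integral_mul_const]
    _ = ∫ s : ℝ, ∫ y, pj N j s * K (x - y - s • E0) * f y := by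
        rw [integral_integral_swap]
        have hI : Integrable (fun z : E2 × ℝ => f z.1 * pj N j z.2) (volume.prod volume) :=
          hf.int.mul_prod (integrable_pj hN j)
        refine (hI.norm.const_mul (SchwartzMap.seminorm ℝ 0 0 K)).mono' ?_ ?_
        · have : Measurable (Function.uncurry fun (y : E2) (s : ℝ) => pj N j s * K (x - y - s • E0) * f y) := by
            unfold Function.uncurry
            fun_prop
          exact this.aestronglyMeasurable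
        · filter_upwards with z
          simp only [Function.uncurry, norm_mul]
          have := hKb (x - z.1 - z.2 • E0)
          calc ‖pj N j z.2‖ * ‖K (x - z.1 - z.2 • E0)‖ * ‖f z.1‖
              ≤ ‖pj N j z.2‖ * SchwartzMap.seminorm ℝ 0 0 K * ‖f z.1‖ := by gcongr
            _ = _ := by ring
    _ = ∫ s : ℝ, ∫ y, pj N j s * K (x - y) * f (y - s • E0) := by
        congr 1
        ext s
        rw [← integral_sub_right_eq_self _ (s • E0)]
        congr 1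
        ext y
        congr 3
        abel
    _ = ∫ y, ∫ s : ℝ, pj N j s * K (x - y) * f (y - s • E0) := by
        rw [integral_integral_swap]
        have hI : Integrable (fun z : ℝ × E2 => pj N j z.1 * K (x - z.2)) (volume.prod volume) :=
          (integrable_pj hN j).mul_prod (K.integrable.comp_sub_left x)
        refine (hI.norm.mul_const b).mono' ?_ ?_
        · have : Measurable (Function.uncurry fun (s : ℝ) (y : E2) => pj N j s * K (x - y) * f (y - s • E0)) := by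
            unfold Function.uncurry
            fun_prop
          exact this.aestronglyMeasurable
        · filter_upwards with z
          simp only [Function.uncurry, norm_mul]
          have := hb (z.2 - z.1 • E0)
          gcongr
    _ = ∫ y, K (x - y) * Pf N j f y := by
        congr 1
        ext y
        unfold Pf
        rw [← integral_const_mul]
        congr 1
        ext s
        ring

end Vale.Agent.P117
end
end

section

section

open MeasureTheory Complex Set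
open scoped ENNReal NNReal ContDiff FourierTransform SchwartzMap ComplexConjugate Convolution

namespace Vale.Agent.P117

theorem lintegral_w {N : ℝ} (hN : 0 < N) :
    ∫⁻ y : ℝ, ENNReal.ofReal (N⁻¹ * (1 + (y / N) ^ 2)⁻¹) = ENNReal.ofReal Real.pi := by
  rw [← ofReal_integral_eq_lintegral_ofReal (integrable_w hN) (by filter_upwards with y; positivity)]
  congr 1
  rw [integral_const_mul, Measure.integral_comp_div (fun t => (1 + t ^ 2)⁻¹) N, abs_of_pos hN,
    smul_eq_mul, ← mul_assoc, inv_mul_cancel₀ hN.ne', one_mul, integral_univ_inv_one_add_sq]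

theorem lintegral_tube {W L : ℝ} (c : ℝ) (hW : 0 < W) (hL : 0 < L) :
    ∫⁻ z : ℝ × ℝ, ENNReal.ofReal (tube W L c z) = ENNReal.ofReal Real.pi * ENNReal.ofReal Real.pi := by
  have hm : Measurable (fun z : ℝ × ℝ => ENNReal.ofReal (tube W L c z)) := by
    unfold tube; fun_prop
  rw [Measure.volume_eq_prod, lintegral_prod_symm _ hm.aemeasurable]
  have h1 : ∀ y : ℝ, ∫⁻ x : ℝ, ENNReal.ofReal (tube W L c (x, y)) =
      ENNReal.ofReal Real.pi * ENNReal.ofReal (L⁻¹ * (1 + (y / L) ^ 2)⁻¹) := by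
    intro y
    have e : ∀ x : ℝ, ENNReal.ofReal (tube W L c (x, y)) =
        (fun x => ENNReal.ofReal (W⁻¹ * (1 + (x / W) ^ 2)⁻¹)) (x + c * y) *
          ENNReal.ofReal (L⁻¹ * (1 + (y / L) ^ 2)⁻¹) := by
      intro x
      simp only
      rw [← ENNReal.ofReal_mul (by positivity)]
      congr 1
      simp only [tube]
      rw [mul_inv]; ring
    simp_rw [e]
    rw [lintegral_mul_const _ (by fun_prop)]
    congr 1
    exact (lintegral_add_right_eq_self (fun x : ℝ => ENNReal.ofReal (W⁻¹ * (1 + (x / W) ^ 2)⁻¹)) (c * y)).trans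
      (lintegral_w hW)
  simp_rw [h1]
  rw [lintegral_const_mul _ (by fun_prop), lintegral_w hL]

theorem measurable_tube (W L c : ℝ) : Measurable (tube W L c) := by
  unfold tube; fun_prop

theorem enorm_cv_sq_le {K g : E2 → ℂ} (hK : Measurable K) (hg : Measurable g) {D : ℝ≥0∞} {W L c : ℝ}
    (hW : 0 < W) (hL : 0 < L)
    (hD : ∀ x, ‖K x‖ₑ ≤ D * ENNReal.ofReal (tube W L c (x 0, x 1))) (x : E2) :
    ‖cv K g x‖ₑ ^ 2 ≤ (D ^ 2 * (ENNReal.ofReal Real.pi * ENNReal.ofReal Real.pi)) *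
      ∫⁻ y, ENNReal.ofReal (tube W L c ((x - y) 0, (x - y) 1)) * ‖g y‖ₑ ^ 2 := by
  have hmt : Measurable (fun y : E2 => ENNReal.ofReal (tube W L c ((x - y) 0, (x - y) 1))) := by
    apply ENNReal.measurable_ofReal.comp
    apply (measurable_tube W L c).comp
    fun_prop
  have h1 := enorm_cv_le K g x
  have h2 := holder_pow (volume : Measure E2) (k := fun y => ‖K (x - y)‖ₑ) (g := fun y => ‖g y‖ₑ)
    (hK.comp (measurable_id.const_sub x)).enorm.aemeasurable hg.enorm.aemeasurable (p := 2) (by norm_num)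
  have h3 : ∫⁻ y, ‖K (x - y)‖ₑ ≤ D * (ENNReal.ofReal Real.pi * ENNReal.ofReal Real.pi) := by
    calc ∫⁻ y, ‖K (x - y)‖ₑ = ∫⁻ y, ‖K y‖ₑ := lintegral_sub_left_eq_self (fun y => ‖K y‖ₑ) x
      _ ≤ ∫⁻ y : E2, D * ENNReal.ofReal (tube W L c (y 0, y 1)) := lintegral_mono hD
      _ = D * ∫⁻ y : E2, ENNReal.ofReal (tube W L c (y 0, y 1)) := by
          rw [lintegral_const_mul]
          apply ENNReal.measurable_ofReal.comp
          apply (measurable_tube W L c).comp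
          fun_prop
      _ = _ := by rw [lintegral_E2 (fun z => ENNReal.ofReal (tube W L c z)), lintegral_tube c hW hL]
  have h4 : ∫⁻ y, ‖K (x - y)‖ₑ * ‖g y‖ₑ ^ (2:ℝ) ≤
      D * ∫⁻ y, ENNReal.ofReal (tube W L c ((x - y) 0, (x - y) 1)) * ‖g y‖ₑ ^ 2 := by
    have hmg : Measurable (fun y : E2 => ENNReal.ofReal (tube W L c ((x - y) 0, (x - y) 1)) * ‖g y‖ₑ ^ 2) :=
      hmt.mul (hg.enorm.pow_const 2)
    rw [← lintegral_const_mul _ hmg]
    apply lintegral_mono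
    intro y
    simp only
    rw [← mul_assoc]
    have := hD (x - y)
    rw [ENNReal.rpow_ofNat]
    gcongr
  calc ‖cv K g x‖ₑ ^ 2 ≤ (∫⁻ y, ‖K (x - y)‖ₑ * ‖g y‖ₑ) ^ 2 := by gcongr
    _ ≤ (∫⁻ y, ‖K (x - y)‖ₑ) * ∫⁻ y, ‖K (x - y)‖ₑ * ‖g y‖ₑ ^ (2:ℝ) := by
        have e : (2:ℝ) - 1 = 1 := by norm_num
        rw [e, ENNReal.rpow_one] at h2
        rw [← ENNReal.rpow_ofNat]
        exact h2
    _ ≤ (D * (ENNReal.ofReal Real.pi * ENNReal.ofReal Real.pi)) *
        (D * ∫⁻ y, ENNReal.ofReal (tube W L c ((x - y) 0, (x - y) 1)) * ‖g y‖ₑ ^ 2) := by gcongr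
    _ = _ := by ring

/-- Nikodym bound on E2 -/
theorem nikodym_E2 : ∃ C : ℝ, 0 ≤ C ∧ ∀ (J : Finset ℤ) (c : ℤ → ℝ) (_ : ∀ i, |c i| ≤ 10) (W L : ℝ),
    0 < W → W ≤ L → ∀ g : ℤ → E2 → ℝ≥0∞, (∀ i, Measurable (g i)) →
    ∫⁻ x : E2, (∑ i ∈ J, ∫⁻ y : E2, ENNReal.ofReal (tube W L (c i) ((x - y) 0, (x - y) 1)) * g i y) ^ 2
      ≤ ENNReal.ofReal (C * (1 + Real.log (L / W))) * ∫⁻ x : E2, (∑ i ∈ J, g i x) ^ 2 := by
  obtain ⟨C, hC, h⟩ := T04_nikodym
  refine ⟨C, hC, ?_⟩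
  intro J c hc W L hW hWL g hg
  have key := h ℤ J c hc W L hW hWL (fun i z => g i (pe.symm z)) (fun i => (hg i).comp pe.symm.measurable)
  have e1 : ∫⁻ x : E2, (∑ i ∈ J, g i x) ^ 2 = ∫⁻ z : ℝ × ℝ, (∑ i ∈ J, g i (pe.symm z)) ^ 2 := by
    rw [← lintegral_E2]
    congr 1
    ext x
    have : pe.symm (x 0, x 1) = x := by rw [← pe_apply, pe.symm_apply_apply]
    rw [this]
  have e2 : ∫⁻ x : E2, (∑ i ∈ J, ∫⁻ y : E2, ENNReal.ofReal (tube W L (c i) ((x - y) 0, (x - y) 1)) * g i y) ^ 2 =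
      ∫⁻ z : ℝ × ℝ, (∑ i ∈ J, ∫⁻ y : ℝ × ℝ, ENNReal.ofReal (tube W L (c i) (z - y)) * g i (pe.symm y)) ^ 2 := by
    rw [← lintegral_E2]
    congr 1
    ext x
    congr 1
    refine Finset.sum_congr rfl fun i _ => ?_
    rw [← lintegral_E2]
    congr 1
    ext y
    have : pe.symm (y 0, y 1) = y := by rw [← pe_apply, pe.symm_apply_apply]
    rw [this]
    rfl
  rw [e1, e2]
  exact key

/-- pointwise square function on E2 -/
theorem square_E2 : ∃ C : ℝ, 0 ≤ C ∧ ∀ (N : ℝ), 0 < N → ∀ (J : Finset ℤ) (f : E2 → ℂ),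
    Adm volume f → ∀ x : E2, ∑ j ∈ J, ‖Pf N j f x‖ₑ ^ 2 ≤
      ENNReal.ofReal C * ∫⁻ s : ℝ, ENNReal.ofReal (N⁻¹ * (1 + (s / N) ^ 2)⁻¹) * ‖f (x - s • E0)‖ₑ ^ 2 := by
  obtain ⟨K, hK⟩ := rho_bound
  obtain ⟨C, hC, h⟩ := T05_square K
  refine ⟨C, hC, ?_⟩
  intro N hN J f hf x
  obtain ⟨b, hb⟩ := hf.bdd
  have hfm := hf.meas
  have key := h (fun y => rho y) rho.continuous.measurable hK N hN J (fun s => f (x - s • E0))
    (by fun_prop) ⟨b, fun y => hb _⟩
  have e1 : ∑ j ∈ J, ‖Pf N j f x‖ₑ ^ 2 = ENNReal.ofReal (∑ j ∈ J, ‖Pf N j f x‖ ^ 2) := by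
    rw [ENNReal.ofReal_sum_of_nonneg (fun i _ => by positivity)]
    refine Finset.sum_congr rfl fun j _ => ?_
    rw [ENNReal.ofReal_pow (norm_nonneg _), ofReal_norm]
  have hI : Integrable (fun s : ℝ => N⁻¹ * (1 + (s / N) ^ 2)⁻¹ * ‖f (x - s • E0)‖ ^ 2) := by
    refine ((integrable_w hN).mul_const (b ^ 2)).mono' ?_ ?_
    · exact (by fun_prop : Measurable (fun s : ℝ => N⁻¹ * (1 + (s / N) ^ 2)⁻¹ * ‖f (x - s • E0)‖ ^ 2)).aestronglyMeasurable
    · filter_upwards with s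
      rw [Real.norm_of_nonneg (by positivity)]
      have := hb (x - s • E0)
      gcongr
  have e2 : ∫⁻ s : ℝ, ENNReal.ofReal (N⁻¹ * (1 + (s / N) ^ 2)⁻¹) * ‖f (x - s • E0)‖ₑ ^ 2 =
      ENNReal.ofReal (∫ s : ℝ, N⁻¹ * (1 + (s / N) ^ 2)⁻¹ * ‖f (x - s • E0)‖ ^ 2) := by
    rw [ofReal_integral_eq_lintegral_ofReal hI (by filter_upwards with s; positivity)]
    congr 1
    ext s
    rw [ENNReal.ofReal_mul (p := N⁻¹ * (1 + (s / N) ^ 2)⁻¹) (by positivity),
      ENNReal.ofReal_pow (norm_nonneg _), ofReal_norm]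
  rw [e1, e2, ← ENNReal.ofReal_mul hC]
  exact ENNReal.ofReal_le_ofReal key

theorem line_avg {N : ℝ} (hN : 0 < N) {f : E2 → ℂ} (hf : Measurable f) :
    ∫⁻ x : E2, (∫⁻ s : ℝ, ENNReal.ofReal (N⁻¹ * (1 + (s / N) ^ 2)⁻¹) * ‖f (x - s • E0)‖ₑ ^ 2) ^ 2 ≤
      ENNReal.ofReal Real.pi ^ 2 * ∫⁻ x : E2, ‖f x‖ₑ ^ 4 := by
  have hfe : Measurable (fun x => ‖f x‖ₑ) := hf.enorm
  have hm : Measurable (fun z : E2 × ℝ => ENNReal.ofReal (N⁻¹ * (1 + (z.2 / N) ^ 2)⁻¹) * ‖f (z.1 - z.2 • E0)‖ₑ ^ 4) := by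
    have h1 : Measurable (fun z : E2 × ℝ => ENNReal.ofReal (N⁻¹ * (1 + (z.2 / N) ^ 2)⁻¹)) := by fun_prop
    have h2 : Measurable (fun z : E2 × ℝ => z.1 - z.2 • E0) := by fun_prop
    exact h1.mul ((hfe.comp h2).pow_const 4)
  calc _ ≤ ∫⁻ x : E2, ENNReal.ofReal Real.pi *
        ∫⁻ s : ℝ, ENNReal.ofReal (N⁻¹ * (1 + (s / N) ^ 2)⁻¹) * ‖f (x - s • E0)‖ₑ ^ 4 := by
        apply lintegral_mono
        intro x
        have h2 := holder_pow (volume : Measure ℝ) (k := fun s => ENNReal.ofReal (N⁻¹ * (1 + (s / N) ^ 2)⁻¹))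
          (g := fun s => ‖f (x - s • E0)‖ₑ ^ 2) (by fun_prop) (by fun_prop) (p := 2) (by norm_num)
        have e : (2:ℝ) - 1 = 1 := by norm_num
        rw [e, ENNReal.rpow_one, lintegral_w hN] at h2
        simp only [ENNReal.rpow_ofNat, ← pow_mul] at h2
        exact h2
    _ = ENNReal.ofReal Real.pi * ∫⁻ x : E2, ∫⁻ s : ℝ, ENNReal.ofReal (N⁻¹ * (1 + (s / N) ^ 2)⁻¹) * ‖f (x - s • E0)‖ₑ ^ 4 := by
        rw [lintegral_const_mul]
        exact hm.lintegral_prod_right'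
    _ = ENNReal.ofReal Real.pi * ∫⁻ s : ℝ, ∫⁻ x : E2, ENNReal.ofReal (N⁻¹ * (1 + (s / N) ^ 2)⁻¹) * ‖f (x - s • E0)‖ₑ ^ 4 := by
        rw [lintegral_lintegral_swap]
        exact hm.aemeasurable
    _ = ENNReal.ofReal Real.pi * ∫⁻ s : ℝ, ENNReal.ofReal (N⁻¹ * (1 + (s / N) ^ 2)⁻¹) * ∫⁻ x : E2, ‖f x‖ₑ ^ 4 := by
        congr 2
        ext s
        rw [lintegral_const_mul _ (by fun_prop)]
        congr 1
        exact lintegral_sub_right_eq_self (fun x => ‖f x‖ₑ ^ 4) (s • E0)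
    _ = _ := by
        rw [lintegral_mul_const _ (by fun_prop), lintegral_w hN]
        ring


/-- mpiece is smooth with compact support -/
theorem contDiff_mpiece {N : ℝ} {φ : ℝ → ℂ} (hφ : ContDiff ℝ ∞ φ) {a : E2 → ℂ} (ha : ContDiff ℝ ∞ a)
    {η : ℝ → ℂ} (hη : ContDiff ℝ ∞ η) (j : ℤ) : ContDiff ℝ ∞ (mpiece N φ a η j) := by
  unfold mpiece
  apply ContDiff.mul
  · apply ContDiff.mul _ ha
    apply hφ.comp
    have : ContDiff ℝ ∞ (fun ξ : E2 => ‖ξ‖ ^ 2) := contDiff_norm_sq ℝ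
    exact contDiff_const.mul (this.sub contDiff_const)
  · exact hη.comp (by fun_prop)

theorem hasCompactSupport_ring {Λ : ℝ} (hΛ : 0 < Λ) {φ : ℝ → ℂ} (hφs : ∀ t, φ t ≠ 0 → |t| ≤ 2)
    {F : E2 → ℂ} (hF : ∀ ξ, F ξ ≠ 0 → φ (Λ * (‖ξ‖ ^ 2 - 1)) ≠ 0) : HasCompactSupport F := by
  apply HasCompactSupport.of_support_subset_isCompact (isCompact_closedBall (0:E2) (1 + 2 / Λ))
  intro ξ hξ
  have h1 := hφs _ (hF ξ hξ)
  rw [mem_closedBall_zero_iff]
  have h2 : Λ * (‖ξ‖ ^ 2 - 1) ≤ 2 := (abs_le.1 h1).2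
  have h3 : ‖ξ‖ ^ 2 ≤ 1 + 2 / Λ := by
    have : ‖ξ‖ ^ 2 - 1 ≤ 2 / Λ := by rw [le_div_iff₀ hΛ]; linarith
    linarith
  have h4 : 0 < 2 / Λ := by positivity
  apply le_of_sq_le_sq _ (by linarith)
  nlinarith

noncomputable def mS {N : ℝ} (hN : 1 ≤ N) {φ : ℝ → ℂ} (hφ : ContDiff ℝ ∞ φ)
    (hφs : ∀ t, φ t ≠ 0 → |t| ≤ 2) {a : E2 → ℂ} (ha : ContDiff ℝ ∞ a) (j : ℤ) : 𝓢(E2, ℂ) :=
  HasCompactSupport.toSchwartzMap (f := mpiece N φ a eta0 j)
    (hasCompactSupport_ring (Λ := N ^ 2) (by positivity) hφs (fun ξ hξ => by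
      unfold mpiece at hξ
      exact left_ne_zero_of_mul (left_ne_zero_of_mul hξ)))
    (contDiff_mpiece hφ ha contDiff_eta0 j)

theorem mS_apply {N : ℝ} (hN : 1 ≤ N) {φ : ℝ → ℂ} (hφ : ContDiff ℝ ∞ φ)
    (hφs : ∀ t, φ t ≠ 0 → |t| ≤ 2) {a : E2 → ℂ} (ha : ContDiff ℝ ∞ a) (j : ℤ) (ξ : E2) :
    mS hN hφ hφs ha j ξ = mpiece N φ a eta0 j ξ := rfl

theorem slope_bd (N : ℝ) (j : ℤ) : |slope N j| ≤ 10 := by
  have := (geomg (node_bounds N j)).2.2.2
  unfold slope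
  linarith

/-- L4 estimate for the sum of the pieces -/
theorem arc_lintegral (a : E2 → ℂ) (ha : ContDiff ℝ ∞ a)
    (hasupp : ∀ ξ, a ξ ≠ 0 → |ξ 0| ≤ 9/10 ∧ 1/10 ≤ ξ 1 ∧ ξ 1 ≤ 2) :
    ∃ C : ℝ, 0 ≤ C ∧ ∀ (N : ℝ) (hN : 1 ≤ N) (φ : ℝ → ℂ) (hφ : ContDiff ℝ ∞ φ)
    (hφs : ∀ t, φ t ≠ 0 → |t| ≤ 2) (A : ℝ), (∀ i ≤ 4, ∀ t, ‖iteratedDeriv i φ t‖ ≤ A) →
    ∀ (J : Finset ℤ) (f : E2 → ℂ), Adm volume f →
    ∫⁻ x : E2, ‖∑ j ∈ J, cv (𝓕⁻ (mS hN hφ hφs ha j) : 𝓢(E2, ℂ)) f x‖ₑ ^ 4 ≤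
      ENNReal.ofReal (C * A ^ 4 * (1 + Real.log N)) * ∫⁻ x : E2, ‖f x‖ₑ ^ 4 := by
  obtain ⟨C6, hC6, h6⟩ := T06_cap a ha hasupp eta0 contDiff_eta0 eta0_supp
  obtain ⟨C7, hC7, h7⟩ := T07_reverse
  obtain ⟨C4, hC4, h4⟩ := nikodym_E2
  obtain ⟨C5, hC5, h5⟩ := square_E2
  refine ⟨C7 * ((C6 ^ 2 * Real.pi ^ 2) ^ 2) * C4 * C5 ^ 2 * Real.pi ^ 2, by positivity, ?_⟩
  intro N hN φ hφ hφs A hA J f hf
  have hNp : 0 < N := by linarith
  have hA0 : 0 ≤ A := (norm_nonneg _).trans (hA 0 (by norm_num) 0)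
  have hlog : 0 ≤ Real.log N := Real.log_nonneg hN
  have hmS : ∀ j ξ, mS hN hφ hφs ha j ξ ≠ 0 → |N * ξ 0 - j| ≤ 1 ∧ |‖ξ‖ ^ 2 - 1| ≤ 2 / N ^ 2 ∧ 1/10 ≤ ξ 1 := by
    intro j ξ hξ
    rw [mS_apply] at hξ
    unfold mpiece at hξ
    have i1 := right_ne_zero_of_mul hξ
    have i2 := left_ne_zero_of_mul hξ
    have i3 := hasupp ξ (right_ne_zero_of_mul i2)
    have i4 := hφs _ (left_ne_zero_of_mul i2)
    refine ⟨eta0_supp _ i1, ?_, i3.2.1⟩
    rw [abs_mul, abs_of_pos (by positivity : 0 < N ^ 2)] at i4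
    rw [le_div_iff₀ (by positivity)]
    linarith
  have step1 := h7 N hN J (mS hN hφ hφs ha) hmS f hf
  set D : ℝ≥0∞ := ENNReal.ofReal (C6 * A) with hD
  have hker : ∀ j x, ‖(𝓕⁻ (mS hN hφ hφs ha j) : 𝓢(E2, ℂ)) x‖ₑ ≤
      D * ENNReal.ofReal (tube N (N ^ 2) (slope N j) (x 0, x 1)) := by
    intro j x
    have := h6 N hN φ hφ hφs A hA j x
    rw [hD, ← ENNReal.ofReal_mul (by positivity), ← ofReal_norm]
    apply ENNReal.ofReal_le_ofReal
    rw [SchwartzMap.fourierInv_coe]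
    exact this
  have hPm : ∀ j, Measurable (Pf N j f) := fun j => measurable_Pf N j hf.meas
  have step2 : ∀ j x, ‖cv (𝓕⁻ (mS hN hφ hφs ha j) : 𝓢(E2, ℂ)) f x‖ₑ ^ 2 ≤
      (D ^ 2 * (ENNReal.ofReal Real.pi * ENNReal.ofReal Real.pi)) *
      ∫⁻ y, ENNReal.ofReal (tube N (N ^ 2) (slope N j) ((x - y) 0, (x - y) 1)) * ‖Pf N j f y‖ₑ ^ 2 := by
    intro j x
    rw [cv_repro hNp j _ (fun ξ hξ => (hmS j ξ hξ).1) hf]
    exact enorm_cv_sq_le (𝓕⁻ (mS hN hφ hφs ha j) : 𝓢(E2, ℂ)).continuous.measurable (hPm j) hNp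
      (by positivity) (hker j) x
  set D2 := D ^ 2 * (ENNReal.ofReal Real.pi * ENNReal.ofReal Real.pi) with hD2
  have step3 : ∫⁻ x : E2, (∑ j ∈ J, ‖cv (𝓕⁻ (mS hN hφ hφs ha j) : 𝓢(E2, ℂ)) f x‖ₑ ^ 2) ^ 2 ≤
      D2 ^ 2 * ∫⁻ x : E2, (∑ j ∈ J, ∫⁻ y, ENNReal.ofReal (tube N (N ^ 2) (slope N j) ((x - y) 0, (x - y) 1)) *
        ‖Pf N j f y‖ₑ ^ 2) ^ 2 := by
    rw [← lintegral_const_mul']
    · apply lintegral_mono
      intro x
      simp only
      rw [← mul_pow, Finset.mul_sum]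
      gcongr with j _
      exact step2 j x
    · rw [hD2, hD]
      exact ENNReal.pow_ne_top (ENNReal.mul_ne_top (ENNReal.pow_ne_top ENNReal.ofReal_ne_top)
        (ENNReal.mul_ne_top ENNReal.ofReal_ne_top ENNReal.ofReal_ne_top))
  have step4 := h4 J (slope N) (slope_bd N) N (N ^ 2) hNp (by nlinarith) (fun j y => ‖Pf N j f y‖ₑ ^ 2)
    (fun j => ((hPm j).enorm.pow_const 2))
  have step5 : ∫⁻ x : E2, (∑ j ∈ J, ‖Pf N j f x‖ₑ ^ 2) ^ 2 ≤
      ENNReal.ofReal C5 ^ 2 * (ENNReal.ofReal Real.pi ^ 2 * ∫⁻ x : E2, ‖f x‖ₑ ^ 4) := by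
    calc _ ≤ ∫⁻ x : E2, ENNReal.ofReal C5 ^ 2 *
          (∫⁻ s : ℝ, ENNReal.ofReal (N⁻¹ * (1 + (s / N) ^ 2)⁻¹) * ‖f (x - s • E0)‖ₑ ^ 2) ^ 2 := by
          apply lintegral_mono
          intro x
          simp only
          rw [← mul_pow]
          gcongr
          exact h5 N hNp J f hf x
      _ = ENNReal.ofReal C5 ^ 2 * ∫⁻ x : E2,
          (∫⁻ s : ℝ, ENNReal.ofReal (N⁻¹ * (1 + (s / N) ^ 2)⁻¹) * ‖f (x - s • E0)‖ₑ ^ 2) ^ 2 :=
          lintegral_const_mul' _ _ (ENNReal.pow_ne_top ENNReal.ofReal_ne_top)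
      _ ≤ _ := by
          gcongr
          exact line_avg hNp hf.meas
  have e1 : N ^ 2 / N = N := by field_simp
  rw [e1] at step4
  calc ∫⁻ x : E2, ‖∑ j ∈ J, cv (𝓕⁻ (mS hN hφ hφs ha j) : 𝓢(E2, ℂ)) f x‖ₑ ^ 4
      ≤ ENNReal.ofReal C7 * ∫⁻ x : E2, (∑ j ∈ J, ‖cv (𝓕⁻ (mS hN hφ hφs ha j) : 𝓢(E2, ℂ)) f x‖ₑ ^ 2) ^ 2 := step1
    _ ≤ ENNReal.ofReal C7 * (D2 ^ 2 * (ENNReal.ofReal (C4 * (1 + Real.log N)) *
        (ENNReal.ofReal C5 ^ 2 * (ENNReal.ofReal Real.pi ^ 2 * ∫⁻ x : E2, ‖f x‖ₑ ^ 4)))) := by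
        gcongr
        refine step3.trans ?_
        gcongr
        refine step4.trans ?_
        gcongr
    _ = ENNReal.ofReal (C7 * ((C6 ^ 2 * Real.pi ^ 2) ^ 2) * C4 * C5 ^ 2 * Real.pi ^ 2 * A ^ 4 * (1 + Real.log N)) *
        ∫⁻ x : E2, ‖f x‖ₑ ^ 4 := by
        have hpi := Real.pi_pos
        rw [hD2, hD]
        simp only [← mul_assoc]
        congr 1
        rw [← ENNReal.ofReal_pow (by positivity), ← ENNReal.ofReal_pow (by positivity),
          ← ENNReal.ofReal_pow (by positivity), ← ENNReal.ofReal_mul (by positivity),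
          ← ENNReal.ofReal_mul (by positivity), ← ENNReal.ofReal_pow (by positivity),
          ← ENNReal.ofReal_mul (by positivity), ← ENNReal.ofReal_mul (by positivity),
          ← ENNReal.ofReal_mul (by positivity), ← ENNReal.ofReal_mul (by positivity)]
        congr 1
        ring

end Vale.Agent.P117
end
end

section

section

open MeasureTheory Complex Set
open scoped ENNReal NNReal ContDiff FourierTransform SchwartzMap ComplexConjugate Convolution

namespace Vale.Agent.P117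

theorem eLpNorm4_le {F f : E2 → ℂ} {B : ℝ} (hB : 0 ≤ B)
    (h : ∫⁻ x, ‖F x‖ₑ ^ 4 ≤ ENNReal.ofReal (B ^ 4) * ∫⁻ x, ‖f x‖ₑ ^ 4) :
    eLpNorm F 4 volume ≤ ENNReal.ofReal B * eLpNorm f 4 volume := by
  have e : ∀ F : E2 → ℂ, eLpNorm F 4 volume = (∫⁻ x, ‖F x‖ₑ ^ 4) ^ (1 / 4 : ℝ) := by
    intro F
    rw [eLpNorm_eq_lintegral_rpow_enorm_toReal (by norm_num) (by norm_num)]
    have : (4 : ℝ≥0∞).toReal = 4 := by norm_num
    rw [this]
    congr 2
    ext x
    rw [← ENNReal.rpow_ofNat]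
  rw [e F, e f]
  calc (∫⁻ x, ‖F x‖ₑ ^ 4) ^ (1 / 4 : ℝ) ≤ (ENNReal.ofReal (B ^ 4) * ∫⁻ x, ‖f x‖ₑ ^ 4) ^ (1 / 4 : ℝ) := by
        gcongr
    _ = _ := by
        rw [ENNReal.mul_rpow_of_nonneg _ _ (by norm_num), ENNReal.ofReal_pow hB]
        congr 1
        rw [← ENNReal.rpow_natCast, ← ENNReal.rpow_mul]
        norm_num

theorem integrable_of_ring {Λ : ℝ} (hΛ : 0 < Λ) {φ : ℝ → ℂ} (hφ : ContDiff ℝ ∞ φ)
    (hφs : ∀ t, φ t ≠ 0 → |t| ≤ 2) {a : E2 → ℂ} (ha : ContDiff ℝ ∞ a) :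
    Integrable (fun ξ : E2 => φ (Λ * (‖ξ‖ ^ 2 - 1)) * a ξ) := by
  apply Continuous.integrable_of_hasCompactSupport
  · apply Continuous.mul _ ha.continuous
    exact hφ.continuous.comp (by fun_prop)
  · exact hasCompactSupport_ring hΛ hφs (fun ξ hξ => left_ne_zero_of_mul hξ)

theorem arc_eq {Λ N : ℝ} (hN : 1 ≤ N) (hΛN : N ^ 2 = Λ) {φ : ℝ → ℂ} (hφ : ContDiff ℝ ∞ φ)
    (hφs : ∀ t, φ t ≠ 0 → |t| ≤ 2) {a : E2 → ℂ} (ha : ContDiff ℝ ∞ a)
    (hasupp : ∀ ξ, a ξ ≠ 0 → |ξ 0| ≤ 9/10 ∧ 1/10 ≤ ξ 1 ∧ ξ 1 ≤ 2) {m : ℕ} (hm : N ≤ m)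
    {f : E2 → ℂ} (hf : Integrable f) (x : E2) :
    cv (𝓕⁻ (fun ξ : E2 => φ (Λ * (‖ξ‖ ^ 2 - 1)) * a ξ)) f x =
      ∑ j ∈ Finset.Icc (-(m:ℤ)) m, cv (𝓕⁻ (mS hN hφ hφs ha j) : 𝓢(E2, ℂ)) f x := by
  have h1 : (fun ξ : E2 => φ (Λ * (‖ξ‖ ^ 2 - 1)) * a ξ) =
      fun ξ => ∑ j ∈ Finset.Icc (-(m:ℤ)) m, mS hN hφ hφs ha j ξ := by
    ext ξ
    simp only [mS_apply, mpiece]
    rw [← Finset.mul_sum, hΛN]
    by_cases h : a ξ = 0
    · simp [h]
    · rw [eta0_sum, mul_one]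
      have := (hasupp ξ h).1
      rw [abs_mul, abs_of_pos (by linarith)]
      calc N * |ξ 0| ≤ N * 1 := by
            gcongr
            linarith
        _ ≤ m := by linarith
  have h2 : ∀ z, 𝓕⁻ (fun ξ : E2 => φ (Λ * (‖ξ‖ ^ 2 - 1)) * a ξ) z =
      ∑ j ∈ Finset.Icc (-(m:ℤ)) m, (𝓕⁻ (mS hN hφ hφs ha j) : 𝓢(E2, ℂ)) z := by
    intro z
    rw [h1, Real.fourierInv_eq']
    simp_rw [Finset.smul_sum]
    rw [integral_finsetSum]
    · refine Finset.sum_congr rfl fun j _ => ?_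
      rw [SchwartzMap.fourierInv_coe, Real.fourierInv_eq']
    · intro j _
      have := (mS hN hφ hφs ha j).integrable (μ := volume)
      refine this.mono ?_ ?_
      · have c := (mS hN hφ hφs ha j).continuous
        exact (by fun_prop : Continuous fun v : E2 => cexp (((2 * Real.pi * inner ℝ v z : ℝ) : ℂ) * I) • mS hN hφ hφs ha j v).aestronglyMeasurable
      · filter_upwards with v
        rw [norm_smul, Complex.norm_exp_ofReal_mul_I, one_mul]
  unfold cv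
  simp_rw [h2, Finset.sum_mul]
  rw [integral_finsetSum]
  intro j _
  have hK := (𝓕⁻ (mS hN hφ hφs ha j) : 𝓢(E2, ℂ)).continuous
  refine (hf.norm.const_mul (SchwartzMap.seminorm ℝ 0 0 (𝓕⁻ (mS hN hφ hφs ha j) : 𝓢(E2, ℂ)))).mono' ?_ ?_
  · exact ((hK.comp (by fun_prop : Continuous fun y => x - y)).aestronglyMeasurable).mul hf.aestronglyMeasurable
  · filter_upwards with y
    rw [norm_mul]
    have := SchwartzMap.norm_le_seminorm ℝ (𝓕⁻ (mS hN hφ hφs ha j) : 𝓢(E2, ℂ)) (x - y)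
    gcongr

theorem T08_arc (a : E2 → ℂ) (ha : ContDiff ℝ ∞ a)
    (hasupp : ∀ ξ, a ξ ≠ 0 → |ξ 0| ≤ 9/10 ∧ 1/10 ≤ ξ 1 ∧ ξ 1 ≤ 2) :
    ∃ C : ℝ, 0 ≤ C ∧ ∀ (Λ : ℝ), 1 ≤ Λ → ∀ (φ : ℝ → ℂ), ContDiff ℝ ∞ φ →
    (∀ t, φ t ≠ 0 → |t| ≤ 2) → ∀ A : ℝ, (∀ i ≤ 4, ∀ t, ‖iteratedDeriv i φ t‖ ≤ A) →
    ∀ f : E2 → ℂ, Adm volume f →
    eLpNorm (fun x : E2 => ∫ y : E2, 𝓕⁻ (fun ξ => φ (Λ * (‖ξ‖ ^ 2 - 1)) * a ξ) (x - y) * f y) 4 volume
      ≤ ENNReal.ofReal (C * A * (1 + Real.log Λ)) * eLpNorm f 4 volume := by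
  obtain ⟨C, hC, h⟩ := arc_lintegral a ha hasupp
  refine ⟨C + 1, by positivity, ?_⟩
  intro Λ hΛ φ hφ hφs A hA f hf
  set N := Real.sqrt Λ with hNdef
  have hN : 1 ≤ N := Real.one_le_sqrt.2 hΛ
  have hN2 : N ^ 2 = Λ := Real.sq_sqrt (by linarith)
  have hA0 : 0 ≤ A := (norm_nonneg _).trans (hA 0 (by norm_num) 0)
  have hlogN : 0 ≤ Real.log N := Real.log_nonneg hN
  have hlog : Real.log Λ = 2 * Real.log N := by rw [← hN2, Real.log_pow]; norm_num
  have hm := Nat.le_ceil N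
  have key := h N hN φ hφ hφs A hA (Finset.Icc (-(⌈N⌉₊:ℤ)) ⌈N⌉₊) f hf
  change eLpNorm (fun x => cv (𝓕⁻ (fun ξ : E2 => φ (Λ * (‖ξ‖ ^ 2 - 1)) * a ξ)) f x) 4 volume ≤ _
  simp_rw [arc_eq hN hN2 hφ hφs ha hasupp hm hf.int]
  have hlogΛ : 0 ≤ Real.log Λ := by rw [hlog]; linarith
  apply eLpNorm4_le (by positivity)
  refine key.trans ?_
  gcongr
  rw [hlog]
  set E := 1 + Real.log N with hE
  have hE1 : 1 ≤ E := by linarith
  have hE2 : E ≤ 1 + 2 * Real.log N := by linarith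
  calc C * A ^ 4 * E ≤ (C + 1) ^ 4 * A ^ 4 * E ^ 4 := by
        have i1 : C ≤ (C + 1) ^ 4 := by
          have : C + 1 ≤ (C + 1) ^ 4 := le_self_pow₀ (by linarith) (by norm_num)
          linarith
        have i2 : E ≤ E ^ 4 := le_self_pow₀ hE1 (by norm_num)
        gcongr
    _ = ((C + 1) * A * E) ^ 4 := by ring
    _ ≤ ((C + 1) * A * (1 + 2 * Real.log N)) ^ 4 := by gcongr


/-! rotations -/

/-- reflection in the first axis -/
noncomputable def Rf : E2 ≃ₗᵢ[ℝ] E2 :=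
  { toFun := fun x => !₂[x 0, -x 1]
    invFun := fun x => !₂[x 0, -x 1]
    map_add' := by intro x y; ext i; fin_cases i <;> simp; ring
    map_smul' := by intro c x; ext i; fin_cases i <;> simp
    left_inv := by intro x; ext i; fin_cases i <;> simp
    right_inv := by intro x; ext i; fin_cases i <;> simp
    norm_map' := by
      intro x
      have : ‖(!₂[x 0, -x 1] : E2)‖ ^ 2 = ‖x‖ ^ 2 := by rw [E2_norm_sq, E2_norm_sq]; simp
      exact (sq_eq_sq₀ (norm_nonneg _) (norm_nonneg _)).1 this }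

/-- swap of the axes -/
noncomputable def Sw : E2 ≃ₗᵢ[ℝ] E2 :=
  { toFun := fun x => !₂[x 1, x 0]
    invFun := fun x => !₂[x 1, x 0]
    map_add' := by intro x y; ext i; fin_cases i <;> simp
    map_smul' := by intro c x; ext i; fin_cases i <;> simp
    left_inv := by intro x; ext i; fin_cases i <;> simp
    right_inv := by intro x; ext i; fin_cases i <;> simp
    norm_map' := by
      intro x
      have : ‖(!₂[x 1, x 0] : E2)‖ ^ 2 = ‖x‖ ^ 2 := by rw [E2_norm_sq, E2_norm_sq]; simp; ring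
      exact (sq_eq_sq₀ (norm_nonneg _) (norm_nonneg _)).1 this }

theorem Rf_zero (x : E2) : Rf x 0 = x 0 := by simp [Rf]
theorem Rf_one (x : E2) : Rf x 1 = -x 1 := by simp [Rf]
theorem Sw_zero (x : E2) : Sw x 0 = x 1 := by simp [Sw]
theorem Sw_one (x : E2) : Sw x 1 = x 0 := by simp [Sw]

theorem Adm.comp_isom {f : E2 → ℂ} (hf : Adm volume f) (R : E2 ≃ₗᵢ[ℝ] E2) :
    Adm volume (f ∘ R) := by
  refine ⟨hf.meas.comp R.continuous.measurable, ?_, ?_⟩
  · exact (R.measurePreserving.integrable_comp_emb R.toHomeomorph.measurableEmbedding).2 hf.int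
  · obtain ⟨C, hC⟩ := hf.bdd
    exact ⟨C, fun x => hC _⟩

theorem cv_rot (M : E2 → ℂ) (R : E2 ≃ₗᵢ[ℝ] E2) (f : E2 → ℂ) (x : E2) :
    cv (𝓕⁻ (M ∘ R)) f x = cv (𝓕⁻ M) (f ∘ R.symm) (R x) := by
  unfold cv
  have h := R.measurePreserving.integral_comp R.toHomeomorph.measurableEmbedding
    (fun y => 𝓕⁻ M (R x - y) * (f ∘ R.symm) y)
  rw [← h]
  congr 1
  ext y
  rw [Real.fourierInv_comp_linearIsometry, map_sub]
  simp

theorem eLpNorm_rot (F : E2 → ℂ) (R : E2 ≃ₗᵢ[ℝ] E2) (p : ℝ≥0∞) :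
    eLpNorm (F ∘ R) p volume = eLpNorm F p volume := by
  have := R.toHomeomorph.measurableEmbedding.eLpNorm_map_measure (p := p) (g := F) (μ := volume)
  have h2 : Measure.map R (volume : Measure E2) = volume := R.measurePreserving.map_eq
  change eLpNorm F p (Measure.map R volume) = eLpNorm (F ∘ R) p volume at this
  rw [h2] at this
  exact this.symm

theorem rot_bound {M : E2 → ℂ} {B : ℝ≥0∞} (h : ∀ f, Adm volume f → eLpNorm (cv (𝓕⁻ M) f) 4 volume ≤
    B * eLpNorm f 4 volume) (R : E2 ≃ₗᵢ[ℝ] E2) (f : E2 → ℂ) (hf : Adm volume f) :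
    eLpNorm (cv (𝓕⁻ (M ∘ R)) f) 4 volume ≤ B * eLpNorm f 4 volume := by
  have e : cv (𝓕⁻ (M ∘ R)) f = (cv (𝓕⁻ M) (f ∘ R.symm)) ∘ R := by
    ext x; exact cv_rot M R f x
  rw [e, eLpNorm_rot]
  refine (h _ (hf.comp_isom R.symm)).trans_eq ?_
  rw [eLpNorm_rot]

/-! cut-offs for the arcs -/

noncomputable def hc (t : ℝ) : ℂ :=
  ((Real.smoothTransition ((t - 1/10) * (5/2)) * Real.smoothTransition (2 * (2 - t)) : ℝ) : ℂ)

noncomputable def zc (s : ℝ) : ℂ := ((Real.smoothTransition (14/5 - 4 * s) : ℝ) : ℂ)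

noncomputable def zc2 (s : ℝ) : ℂ := ((Real.smoothTransition ((81/100 - s) * 5) : ℝ) : ℂ)

theorem contDiff_hc : ContDiff ℝ ∞ hc := by
  unfold hc
  have h := contDiff_st
  exact Complex.ofRealCLM.contDiff.comp ((h.comp (by fun_prop)).mul (h.comp (by fun_prop)))

theorem contDiff_zc : ContDiff ℝ ∞ zc := by
  unfold zc
  have h := contDiff_st
  exact Complex.ofRealCLM.contDiff.comp (h.comp (by fun_prop))

theorem contDiff_zc2 : ContDiff ℝ ∞ zc2 := by
  unfold zc2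
  have h := contDiff_st
  exact Complex.ofRealCLM.contDiff.comp (h.comp (by fun_prop))

theorem hc_supp {t : ℝ} (h : hc t ≠ 0) : 1/10 ≤ t ∧ t ≤ 2 := by
  by_contra hcon
  apply h
  unfold hc
  rw [not_and_or] at hcon
  push Not at hcon
  rcases hcon with h1 | h1
  · rw [Real.smoothTransition.zero_of_nonpos (show (t - 1/10) * (5/2) ≤ 0 by linarith)]; simp
  · rw [Real.smoothTransition.zero_of_nonpos (show 2 * (2 - t) ≤ 0 by linarith)]; simp

theorem hc_zero {t : ℝ} (h : t ≤ 1/10) : hc t = 0 := by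
  unfold hc
  rw [Real.smoothTransition.zero_of_nonpos (show (t - 1/10) * (5/2) ≤ 0 by linarith)]; simp

theorem hc_one {t : ℝ} (h : 1/2 ≤ t) (h' : t ≤ 3/2) : hc t = 1 := by
  unfold hc
  rw [Real.smoothTransition.one_of_one_le (show 1 ≤ (t - 1/10) * (5/2) by linarith),
    Real.smoothTransition.one_of_one_le (show 1 ≤ 2 * (2 - t) by linarith)]; simp

theorem hc_pm {t : ℝ} (h : 1/2 ≤ |t|) (h' : |t| ≤ 3/2) : hc t + hc (-t) = 1 := by
  rcases le_total 0 t with h0 | h0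
  · rw [abs_of_nonneg h0] at h h'
    rw [hc_one h h', hc_zero (by linarith), add_zero]
  · rw [abs_of_nonpos h0] at h h'
    rw [hc_one h h', hc_zero (by linarith), zero_add]

theorem zc_supp {s : ℝ} (h : zc s ≠ 0) : s ≤ 7/10 := by
  by_contra hcon
  push Not at hcon
  apply h
  unfold zc
  rw [Real.smoothTransition.zero_of_nonpos (by linarith)]; simp

theorem zc_one {s : ℝ} (h : s ≤ 9/20) : zc s = 1 := by
  unfold zc
  rw [Real.smoothTransition.one_of_one_le (by linarith)]; simp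

theorem zc2_supp {s : ℝ} (h : zc2 s ≠ 0) : s ≤ 81/100 := by
  by_contra hcon
  push Not at hcon
  apply h
  unfold zc2
  rw [Real.smoothTransition.zero_of_nonpos (by linarith)]; simp

theorem zc2_one {s : ℝ} (h : s ≤ 61/100) : zc2 s = 1 := by
  unfold zc2
  rw [Real.smoothTransition.one_of_one_le (by linarith)]; simp

noncomputable def aup (ξ : E2) : ℂ := zc (ξ 0 ^ 2) * hc (ξ 1)
noncomputable def asd (ξ : E2) : ℂ := (1 - zc (ξ 1 ^ 2)) * hc (ξ 1) * zc2 (ξ 0 ^ 2)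

theorem contDiff_aup : ContDiff ℝ ∞ aup := by
  unfold aup
  exact (contDiff_zc.comp (by fun_prop)).mul (contDiff_hc.comp (by fun_prop))

theorem contDiff_asd : ContDiff ℝ ∞ asd := by
  unfold asd
  exact ((contDiff_const.sub (contDiff_zc.comp (by fun_prop))).mul (contDiff_hc.comp (by fun_prop))).mul
    (contDiff_zc2.comp (by fun_prop))

theorem aup_supp (ξ : E2) (h : aup ξ ≠ 0) : |ξ 0| ≤ 9/10 ∧ 1/10 ≤ ξ 1 ∧ ξ 1 ≤ 2 := by
  unfold aup at h
  have h1 := zc_supp (left_ne_zero_of_mul h)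
  have h2 := hc_supp (right_ne_zero_of_mul h)
  refine ⟨?_, h2⟩
  apply abs_le_of_sq_le_sq _ (by norm_num)
  linarith

theorem asd_supp (ξ : E2) (h : asd ξ ≠ 0) : |ξ 0| ≤ 9/10 ∧ 1/10 ≤ ξ 1 ∧ ξ 1 ≤ 2 := by
  unfold asd at h
  have h1 := zc2_supp (right_ne_zero_of_mul h)
  have h2 := hc_supp (right_ne_zero_of_mul (left_ne_zero_of_mul h))
  refine ⟨?_, h2⟩
  apply abs_le_of_sq_le_sq _ (by norm_num)
  linarith

theorem four_arcs (ξ : E2) (h : |‖ξ‖ ^ 2 - 1| ≤ 1/20) :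
    aup ξ + aup (Rf ξ) + asd (Sw ξ) + asd (Rf (Sw ξ)) = 1 := by
  rw [E2_norm_sq, abs_le] at h
  unfold aup asd
  rw [Rf_zero, Rf_one, Sw_zero, Sw_one, Rf_zero, Rf_one, Sw_zero, Sw_one, neg_sq]
  have e : zc (ξ 0 ^ 2) * hc (ξ 1) + zc (ξ 0 ^ 2) * hc (-ξ 1) +
      (1 - zc (ξ 0 ^ 2)) * hc (ξ 0) * zc2 (ξ 1 ^ 2) + (1 - zc (ξ 0 ^ 2)) * hc (-ξ 0) * zc2 (ξ 1 ^ 2) =
      zc (ξ 0 ^ 2) * (hc (ξ 1) + hc (-ξ 1)) +
      (1 - zc (ξ 0 ^ 2)) * (hc (ξ 0) + hc (-ξ 0)) * zc2 (ξ 1 ^ 2) := by ring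
  rw [e]
  have b0 : |ξ 0| ≤ 3/2 := by
    apply abs_le_of_sq_le_sq _ (by norm_num); nlinarith [sq_nonneg (ξ 1)]
  have b1 : |ξ 1| ≤ 3/2 := by
    apply abs_le_of_sq_le_sq _ (by norm_num); nlinarith [sq_nonneg (ξ 0)]
  have first : zc (ξ 0 ^ 2) * (hc (ξ 1) + hc (-ξ 1)) = zc (ξ 0 ^ 2) := by
    by_cases hz : zc (ξ 0 ^ 2) = 0
    · rw [hz]; simp
    · have h1 := zc_supp hz
      have h2 : 1/2 ≤ |ξ 1| := by
        apply le_of_sq_le_sq _ (abs_nonneg _)
        rw [sq_abs]; linarith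
      rw [hc_pm h2 b1, mul_one]
  have second : (1 - zc (ξ 0 ^ 2)) * (hc (ξ 0) + hc (-ξ 0)) * zc2 (ξ 1 ^ 2) = 1 - zc (ξ 0 ^ 2) := by
    by_cases hz : ξ 0 ^ 2 ≤ 9/20
    · rw [zc_one hz]; simp
    · push Not at hz
      have h2 : 1/2 ≤ |ξ 0| := by
        apply le_of_sq_le_sq _ (abs_nonneg _)
        rw [sq_abs]; linarith
      rw [hc_pm h2 b0, zc2_one (by linarith), mul_one, mul_one]
  rw [first, second]; ring

/-- large Λ -/
theorem circle_large : ∃ C : ℝ, 0 ≤ C ∧ ∀ (Λ : ℝ), 40 ≤ Λ → ∀ (φ : ℝ → ℂ), ContDiff ℝ ∞ φ →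
    (∀ t, φ t ≠ 0 → |t| ≤ 2) → ∀ A : ℝ, (∀ i ≤ 4, ∀ t, ‖iteratedDeriv i φ t‖ ≤ A) →
    ∀ f : E2 → ℂ, Adm volume f →
    eLpNorm (cv (𝓕⁻ (fun ξ : E2 => φ (Λ * (‖ξ‖ ^ 2 - 1)))) f) 4 volume
      ≤ ENNReal.ofReal (C * A * (1 + Real.log Λ)) * eLpNorm f 4 volume := by
  obtain ⟨C1, hC1, h1⟩ := T08_arc aup contDiff_aup aup_supp
  obtain ⟨C2, hC2, h2⟩ := T08_arc asd contDiff_asd asd_supp
  refine ⟨2 * C1 + 2 * C2, by positivity, ?_⟩
  intro Λ hΛ φ hφ hφs A hA f hf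
  have hΛ0 : 0 < Λ := by linarith
  have hA0 : 0 ≤ A := (norm_nonneg _).trans (hA 0 (by norm_num) 0)
  have hlog : 0 ≤ Real.log Λ := Real.log_nonneg (by linarith)
  set M1 : E2 → ℂ := fun ξ => φ (Λ * (‖ξ‖ ^ 2 - 1)) * aup ξ with hM1
  set M2 : E2 → ℂ := fun ξ => φ (Λ * (‖ξ‖ ^ 2 - 1)) * asd ξ with hM2
  have k1 : ∀ f, Adm volume f → eLpNorm (cv (𝓕⁻ M1) f) 4 volume ≤
      ENNReal.ofReal (C1 * A * (1 + Real.log Λ)) * eLpNorm f 4 volume := fun f hf =>
    h1 Λ (by linarith) φ hφ hφs A hA f hf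
  have k2 : ∀ f, Adm volume f → eLpNorm (cv (𝓕⁻ M2) f) 4 volume ≤
      ENNReal.ofReal (C2 * A * (1 + Real.log Λ)) * eLpNorm f 4 volume := fun f hf =>
    h2 Λ (by linarith) φ hφ hφs A hA f hf
  have i1 : Integrable M1 := integrable_of_ring hΛ0 hφ hφs contDiff_aup
  have i2 : Integrable M2 := integrable_of_ring hΛ0 hφ hφs contDiff_asd
  have iR : ∀ (M : E2 → ℂ) (R : E2 ≃ₗᵢ[ℝ] E2), Integrable M → Integrable (M ∘ R) := fun M R hM =>
    (R.measurePreserving.integrable_comp_emb R.toHomeomorph.measurableEmbedding).2 hM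
  have hdec : (fun ξ : E2 => φ (Λ * (‖ξ‖ ^ 2 - 1))) = ((M1 + (M1 ∘ Rf)) + (M2 ∘ Sw)) + (M2 ∘ (Sw.trans Rf)) := by
    ext ξ
    simp only [Pi.add_apply, hM1, hM2, Function.comp, LinearIsometryEquiv.norm_map, LinearIsometryEquiv.trans_apply]
    rw [← mul_add, ← mul_add, ← mul_add]
    by_cases h : φ (Λ * (‖ξ‖ ^ 2 - 1)) = 0
    · rw [h]; simp
    · rw [four_arcs, mul_one]
      have := hφs _ h
      rw [abs_mul, abs_of_pos hΛ0] at this
      have h3 : 40 * |‖ξ‖ ^ 2 - 1| ≤ Λ * |‖ξ‖ ^ 2 - 1| := by gcongr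
      linarith
  have hinv : ∀ {G H : E2 → ℂ}, Integrable G → Integrable H → ∀ z, 𝓕⁻ (G + H) z = 𝓕⁻ G z + 𝓕⁻ H z := by
    intro G H hG hH z
    rw [Real.fourierInv_eq, Real.fourierInv_eq, Real.fourierInv_eq, ← integral_add]
    · simp_rw [Pi.add_apply, smul_add]
    · have := (Real.fourierIntegral_convergent_iff (-z)).2 hG
      simpa using this
    · have := (Real.fourierIntegral_convergent_iff (-z)).2 hH
      simpa using this
  have hcvI : ∀ {G : E2 → ℂ}, Integrable G → ∀ x, Integrable (fun y => 𝓕⁻ G (x - y) * f y) := by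
    intro G hG x
    refine (hf.int.norm.const_mul (∫ v, ‖G v‖)).mono' ?_ ?_
    · exact (((continuous_fourierInv hG).comp (by fun_prop : Continuous fun y => x - y)).aestronglyMeasurable).mul
        hf.int.aestronglyMeasurable
    · filter_upwards with y
      rw [norm_mul]
      have := norm_fourierInv_le G (x - y)
      gcongr
  have hcvadd : ∀ {G H : E2 → ℂ}, Integrable G → Integrable H →
      cv (𝓕⁻ (G + H)) f = cv (𝓕⁻ G) f + cv (𝓕⁻ H) f := by
    intro G H hG hH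
    ext x
    simp only [Pi.add_apply]
    unfold cv
    rw [← integral_add (hcvI hG x) (hcvI hH x)]
    congr 1
    ext y
    rw [hinv hG hH, add_mul]
  have hmeas : ∀ {G : E2 → ℂ}, Integrable G → AEStronglyMeasurable (cv (𝓕⁻ G) f) volume := by
    intro G hG
    exact (continuous_cv (continuous_fourierInv hG) (norm_fourierInv_le G) hf.int).aestronglyMeasurable
  have j1 := iR M1 Rf i1
  have j2 := iR M2 Sw i2
  have j3 := iR M2 (Sw.trans Rf) i2
  rw [hdec, hcvadd ((i1.add j1).add j2) j3, hcvadd (i1.add j1) j2, hcvadd i1 j1]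
  have m1 := hmeas i1
  have m2 := hmeas j1
  have m3 := hmeas j2
  have m4 := hmeas j3
  refine (eLpNorm_add_le ((m1.add m2).add m3) m4 (by norm_num)).trans ?_
  have a1 := eLpNorm_add_le (m1.add m2) m3 (p := 4) (by norm_num)
  have a2 := eLpNorm_add_le m1 m2 (p := 4) (by norm_num)
  have b1 := k1 f hf
  have b2 := rot_bound k1 Rf f hf
  have b3 := rot_bound k2 Sw f hf
  have b4 := rot_bound k2 (Sw.trans Rf) f hf
  calc _ ≤ (((ENNReal.ofReal (C1 * A * (1 + Real.log Λ)) * eLpNorm f 4 volume +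
        ENNReal.ofReal (C1 * A * (1 + Real.log Λ)) * eLpNorm f 4 volume) +
        ENNReal.ofReal (C2 * A * (1 + Real.log Λ)) * eLpNorm f 4 volume) +
        ENNReal.ofReal (C2 * A * (1 + Real.log Λ)) * eLpNorm f 4 volume) := by
        refine add_le_add (a1.trans (add_le_add (a2.trans (add_le_add b1 b2)) b3)) b4
    _ = _ := by
        rw [← add_mul, ← add_mul, ← add_mul, ← ENNReal.ofReal_add (by positivity) (by positivity),
          ← ENNReal.ofReal_add (by positivity) (by positivity), ← ENNReal.ofReal_add (by positivity) (by positivity)]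
        congr 2
        ring

/-- small Λ: the kernel is integrable uniformly -/
theorem circle_small_L1 : ∃ C : ℝ, 0 ≤ C ∧ ∀ (Λ : ℝ), 0 < Λ → Λ ≤ 40 → ∀ (φ : ℝ → ℂ), ContDiff ℝ ∞ φ →
    (∀ t, φ t ≠ 0 → |t| ≤ 2) → ∀ A : ℝ, (∀ i ≤ 4, ∀ t, ‖iteratedDeriv i φ t‖ ≤ A) →
    ∫⁻ x, ‖𝓕⁻ (fun ξ : E2 => φ (Λ * (‖ξ‖ ^ 2 - 1))) x‖ₑ ≤ ENNReal.ofReal (C * A) := by
  have hΨ : ContDiff ℝ ∞ (fun z : E2 × ℝ => ‖z.1‖ ^ 2 - z.2) := by
    have : ContDiff ℝ ∞ (fun z : E2 × ℝ => ‖z.1‖ ^ 2) := (contDiff_norm_sq ℝ).comp contDiff_fst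
    exact this.sub contDiff_snd
  have hK : IsCompact (Metric.closedBall (0:E2) 7 ×ˢ Metric.closedBall (0:ℝ) 40) :=
    (isCompact_closedBall _ _).prod (isCompact_closedBall _ _)
  obtain ⟨C1, hC1, hb1⟩ := DB.of_param hK hΨ 4
  obtain ⟨C3, hC3, hdec⟩ := fourier_decay (V := E2) 4 7
  have hint : Integrable (fun w : E2 => (1 + ‖w‖) ^ (-(4:ℝ))) := by
    apply integrable_one_add_norm
    simp; norm_num
  set I0 := ∫ w : E2, (1 + ‖w‖) ^ (-(4:ℝ)) with hI0
  have hI00 : 0 ≤ I0 := integral_nonneg fun w => by positivity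
  refine ⟨C3 * (24 * C1 ^ 4) * I0, by positivity, ?_⟩
  intro Λ hΛ0 hΛ φ hφ hφs A hA
  have hA0 : 0 ≤ A := (norm_nonneg _).trans (hA 0 (by norm_num) 0)
  set G : E2 → ℂ := fun y => φ (‖y‖ ^ 2 - Λ) with hG
  have hGs : ContDiff ℝ ∞ G := by
    apply hφ.comp
    have : ContDiff ℝ ∞ (fun ξ : E2 => ‖ξ‖ ^ 2) := contDiff_norm_sq ℝ
    exact this.sub contDiff_const
  have hGsupp : ∀ y, G y ≠ 0 → ‖y‖ ≤ 7 := by
    intro y hy
    have := (abs_le.1 (hφs _ hy)).2
    apply le_of_sq_le_sq _ (by norm_num)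
    linarith
  have hGDB : ∀ y, ‖y‖ ≤ 7 → DB 4 (24 * A * C1 ^ 4) G y := by
    intro y hy
    have hmem : (y, Λ) ∈ Metric.closedBall (0:E2) 7 ×ˢ Metric.closedBall (0:ℝ) 40 := by
      refine ⟨by simpa using hy, ?_⟩
      rw [mem_closedBall_zero_iff, Real.norm_of_nonneg hΛ0.le]; exact hΛ
    have d1 := hb1 _ _ hmem
    have s1 : ContDiff ℝ ∞ (fun y : E2 => ‖y‖ ^ 2 - Λ) := by
      have : ContDiff ℝ ∞ (fun ξ : E2 => ‖ξ‖ ^ 2) := contDiff_norm_sq ℝ
      exact this.sub contDiff_const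
    have d3 := DB.comp hφ s1 (DB.of_bound_real hA _) d1 hC1
    have : ((4:ℕ).factorial : ℝ) = 24 := by norm_num [Nat.factorial]
    rw [this] at d3
    exact d3
  have hfin := hdec G _ hGs hGsupp hGDB (by positivity)
  -- scaling
  set r := Real.sqrt Λ with hr
  have hr0 : 0 < r := Real.sqrt_pos.2 hΛ0
  have hr2 : r ^ 2 = Λ := Real.sq_sqrt hΛ0.le
  have hfun : (fun ξ : E2 => φ (Λ * (‖ξ‖ ^ 2 - 1))) = fun ξ => G (r • ξ) := by
    ext ξ
    simp only [hG]
    congr 1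
    rw [norm_smul, mul_pow, Real.norm_of_nonneg hr0.le, hr2]; ring
  have hsc : ∀ x, 𝓕⁻ (fun ξ : E2 => φ (Λ * (‖ξ‖ ^ 2 - 1))) x = ((r ^ 2)⁻¹ : ℝ) • 𝓕⁻ G (r⁻¹ • x) := by
    intro x
    rw [hfun, Real.fourierInv_eq', Real.fourierInv_eq']
    have h := Measure.integral_comp_smul (volume : Measure E2)
      (fun v => cexp (((2 * Real.pi * inner ℝ v (r⁻¹ • x) : ℝ) : ℂ) * I) • G v) r
    have hfr : Module.finrank ℝ E2 = 2 := by simp
    rw [hfr, abs_of_pos (by positivity)] at h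
    rw [← h]
    congr 1
    ext v
    congr 3
    rw [inner_smul_left, inner_smul_right]
    have : (starRingEnd ℝ) r = r := rfl
    rw [this, ← mul_assoc r, mul_inv_cancel₀ hr0.ne', one_mul]
  simp_rw [hsc]
  have e1 : ∀ x : E2, ‖((r ^ 2)⁻¹ : ℝ) • 𝓕⁻ G (r⁻¹ • x)‖ₑ ≤ ENNReal.ofReal ((r ^ 2)⁻¹) *
      ENNReal.ofReal (C3 * (24 * A * C1 ^ 4) * (1 + ‖r⁻¹ • x‖) ^ (-(4:ℝ))) := by
    intro x
    rw [enorm_smul, Real.enorm_of_nonneg (by positivity)]
    gcongr
    rw [← ofReal_norm]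
    apply ENNReal.ofReal_le_ofReal
    rw [Real.fourierInv_eq_fourier_neg, Real.rpow_neg (by positivity), ← div_eq_mul_inv,
      le_div_iff₀ (by positivity)]
    have := hfin (-(r⁻¹ • x))
    rw [norm_neg] at this
    rw [mul_comm]
    exact_mod_cast this
  have hI2 : Integrable (fun x : E2 => (1 + ‖r⁻¹ • x‖) ^ (-(4:ℝ))) := by
    exact (integrable_comp_smul_iff volume (fun x : E2 => (1 + ‖x‖) ^ (-(4:ℝ))) (inv_ne_zero hr0.ne')).2 hint
  calc _ ≤ ∫⁻ x : E2, ENNReal.ofReal ((r ^ 2)⁻¹) *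
      ENNReal.ofReal (C3 * (24 * A * C1 ^ 4) * (1 + ‖r⁻¹ • x‖) ^ (-(4:ℝ))) := lintegral_mono e1
    _ = ENNReal.ofReal ((r ^ 2)⁻¹) * ENNReal.ofReal (∫ x : E2, C3 * (24 * A * C1 ^ 4) * (1 + ‖r⁻¹ • x‖) ^ (-(4:ℝ))) := by
        rw [lintegral_const_mul' _ _ ENNReal.ofReal_ne_top]
        congr 1
        rw [ofReal_integral_eq_lintegral_ofReal (hI2.const_mul _) (by filter_upwards with y; positivity)]
    _ = _ := by
        rw [← ENNReal.ofReal_mul (by positivity)]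
        congr 1
        rw [integral_const_mul, Measure.integral_comp_smul (volume : Measure E2) (fun x : E2 => (1 + ‖x‖) ^ (-(4:ℝ))) r⁻¹]
        have hfr : Module.finrank ℝ E2 = 2 := by simp
        rw [hfr, smul_eq_mul, abs_of_pos (by positivity), ← hI0]
        field_simp

theorem T08_circle : ∃ C : ℝ, 0 ≤ C ∧ ∀ (Λ : ℝ), 0 < Λ → ∀ (φ : ℝ → ℂ), ContDiff ℝ ∞ φ →
    (∀ t, φ t ≠ 0 → |t| ≤ 2) → ∀ A : ℝ, (∀ i ≤ 4, ∀ t, ‖iteratedDeriv i φ t‖ ≤ A) →
    ∀ f : E2 → ℂ, Adm volume f →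
    eLpNorm (fun x : E2 => ∫ y : E2, 𝓕⁻ (fun ξ : E2 => φ (Λ * (‖ξ‖ ^ 2 - 1))) (x - y) * f y) 4 volume
      ≤ ENNReal.ofReal (C * A * (1 + Real.log (1 + Λ))) * eLpNorm f 4 volume := by
  obtain ⟨C1, hC1, h1⟩ := circle_large
  obtain ⟨C2, hC2, h2⟩ := circle_small_L1
  refine ⟨C1 + C2, by positivity, ?_⟩
  intro Λ hΛ φ hφ hφs A hA f hf
  have hA0 : 0 ≤ A := (norm_nonneg _).trans (hA 0 (by norm_num) 0)
  have hlog : 0 ≤ Real.log (1 + Λ) := Real.log_nonneg (by linarith)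
  change eLpNorm (cv (𝓕⁻ (fun ξ : E2 => φ (Λ * (‖ξ‖ ^ 2 - 1)))) f) 4 volume ≤ _
  rcases le_total 40 Λ with h | h
  · refine (h1 Λ h φ hφ hφs A hA f hf).trans ?_
    have hl : Real.log Λ ≤ Real.log (1 + Λ) := Real.log_le_log hΛ (by linarith)
    have hl0 : 0 ≤ Real.log Λ := Real.log_nonneg (by linarith)
    have hC : C1 ≤ C1 + C2 := by linarith
    gcongr
  · have hm : Measurable (𝓕⁻ (fun ξ : E2 => φ (Λ * (‖ξ‖ ^ 2 - 1)))) := by
      apply Continuous.measurable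
      apply continuous_fourierInv
      have := integrable_of_ring hΛ hφ hφs (a := fun _ => 1) contDiff_const
      simpa using this
    refine (young_L1 hm hf.meas 4 (by norm_num)).trans ?_
    gcongr
    refine (h2 Λ hΛ h φ hφ hφs A hA).trans ?_
    apply ENNReal.ofReal_le_ofReal
    calc C2 * A ≤ (C1 + C2) * A * 1 := by
          rw [mul_one]; gcongr; linarith
      _ ≤ _ := by
          gcongr
          linarith

end Vale.Agent.P117
end
end

section

section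

open MeasureTheory Complex Set
open scoped ENNReal NNReal ContDiff FourierTransform SchwartzMap ComplexConjugate Convolution

namespace Vale.Agent.P117

section
variable {α β : Type*} [MeasurableSpace α] [MeasurableSpace β] {μ : Measure α} {ν' : Measure β}

theorem Adm.memLp {F : α → ℂ} (h : Adm μ F) {p : ℝ≥0∞} (hp : 1 ≤ p) : MemLp F p μ := by
  obtain ⟨C, hC⟩ := h.bdd
  rcases eq_or_ne p ⊤ with rfl | htop
  · exact memLp_top_of_bound h.meas.aestronglyMeasurable C (by filter_upwards with x; exact hC x)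
  have hp0 : p ≠ 0 := fun h0 => by rw [h0] at hp; exact absurd hp (by norm_num)
  refine ⟨h.meas.aestronglyMeasurable, ?_⟩
  rw [eLpNorm_lt_top_iff_lintegral_rpow_enorm_lt_top hp0 htop]
  have hp1 : 1 ≤ p.toReal := by
    rw [← ENNReal.toReal_one]
    exact ENNReal.toReal_mono htop hp
  have h1 : ∀ x, ‖F x‖ₑ ^ p.toReal ≤ ENNReal.ofReal C ^ (p.toReal - 1) * ‖F x‖ₑ := by
    intro x
    have e : ‖F x‖ₑ ^ p.toReal = ‖F x‖ₑ ^ (p.toReal - 1) * ‖F x‖ₑ := by
      conv_rhs => rw [← ENNReal.rpow_one ‖F x‖ₑ, ← ENNReal.rpow_mul, one_mul]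
      rw [← ENNReal.rpow_add_of_nonneg _ _ (by linarith) (by norm_num)]
      congr 1; ring
    have hb : ‖F x‖ₑ ≤ ENNReal.ofReal C := by
      rw [← ofReal_norm]
      exact ENNReal.ofReal_le_ofReal (hC x)
    have h0 : 0 ≤ p.toReal - 1 := by linarith
    rw [e]
    gcongr
  calc ∫⁻ x, ‖F x‖ₑ ^ p.toReal ∂μ ≤ ∫⁻ x, ENNReal.ofReal C ^ (p.toReal - 1) * ‖F x‖ₑ ∂μ :=
        lintegral_mono h1
    _ = ENNReal.ofReal C ^ (p.toReal - 1) * ∫⁻ x, ‖F x‖ₑ ∂μ := by
        rw [lintegral_const_mul _ h.meas.enorm]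
    _ < ⊤ := ENNReal.mul_lt_top (ENNReal.rpow_lt_top_of_nonneg (by linarith) ENNReal.ofReal_ne_top)
        h.int.2

theorem Adm.eLpNorm_ne_top {F : α → ℂ} (h : Adm μ F) {p : ℝ≥0∞} (hp : 1 ≤ p) :
    eLpNorm F p μ ≠ ⊤ := (h.memLp hp).2.ne

theorem nrm_nonneg {F : α → ℂ} {p : ℝ≥0∞} : 0 ≤ nrm p F μ := ENNReal.toReal_nonneg

theorem Adm.ofReal_nrm {F : α → ℂ} (h : Adm μ F) {p : ℝ≥0∞} (hp : 1 ≤ p) :
    ENNReal.ofReal (nrm p F μ) = eLpNorm F p μ := ENNReal.ofReal_toReal (h.eLpNorm_ne_top hp)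

theorem Adm.add {F G : α → ℂ} (hF : Adm μ F) (hG : Adm μ G) : Adm μ (F + G) := by
  refine ⟨hF.meas.add hG.meas, hF.int.add hG.int, ?_⟩
  obtain ⟨C, hC⟩ := hF.bdd
  obtain ⟨D, hD⟩ := hG.bdd
  exact ⟨C + D, fun x => (norm_add_le _ _).trans (add_le_add (hC x) (hD x))⟩

theorem Adm.smul {F : α → ℂ} (hF : Adm μ F) (c : ℂ) : Adm μ (c • F) := by
  refine ⟨hF.meas.const_smul c, hF.int.smul c, ?_⟩
  obtain ⟨C, hC⟩ := hF.bdd
  refine ⟨‖c‖ * C, fun x => ?_⟩
  rw [Pi.smul_apply, norm_smul]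
  have := hC x
  gcongr

/-- multiplication by a bounded measurable function -/
theorem Adm.mul_bdd {F G : α → ℂ} (hF : Adm μ F) (hG : Measurable G) {C : ℝ} (hC : ∀ x, ‖G x‖ ≤ C) :
    Adm μ (fun x => G x * F x) := by
  refine ⟨hG.mul hF.meas, ?_, ?_⟩
  · refine (hF.int.norm.const_mul C).mono' (hG.mul hF.meas).aestronglyMeasurable ?_
    filter_upwards with x
    rw [norm_mul]
    have := hC x
    gcongr
  · obtain ⟨D, hD⟩ := hF.bdd
    refine ⟨C * D, fun x => ?_⟩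
    rw [norm_mul]
    have h1 := hC x
    have h2 := hD x
    have h3 : 0 ≤ C := (norm_nonneg _).trans h1
    gcongr

theorem Adm.indicator {F : α → ℂ} (hF : Adm μ F) {s : Set α} (hs : MeasurableSet s) :
    Adm μ (s.indicator F) := by
  refine ⟨hF.meas.indicator hs, hF.int.indicator hs, ?_⟩
  obtain ⟨C, hC⟩ := hF.bdd
  refine ⟨C, fun x => ?_⟩
  have h0 : 0 ≤ C := (norm_nonneg _).trans (hC x)
  by_cases hx : x ∈ s
  · rw [indicator_of_mem hx]; exact hC x
  · rw [indicator_of_notMem hx, norm_zero]; exact h0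

theorem Adm.comp_mp {F : β → ℂ} (hF : Adm ν' F) {e : α → β} (he : MeasurePreserving e μ ν')
    (hem : MeasurableEmbedding e) : Adm μ (F ∘ e) := by
  refine ⟨hF.meas.comp he.measurable, (he.integrable_comp_emb hem).2 hF.int, ?_⟩
  obtain ⟨C, hC⟩ := hF.bdd
  exact ⟨C, fun x => hC _⟩

theorem nrm_comp_mp {F : β → ℂ} {e : α → β} (he : MeasurePreserving e μ ν')
    (hem : MeasurableEmbedding e) (p : ℝ≥0∞) : nrm p (F ∘ e) μ = nrm p F ν' := by
  unfold nrm
  have := hem.eLpNorm_map_measure (p := p) (g := F) (μ := μ)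
  rw [he.map_eq] at this
  rw [this]

theorem enorm_integral_mul_le {F G : α → ℂ} (hF : AEStronglyMeasurable F μ) (hG : AEStronglyMeasurable G μ)
    (p q : ℝ≥0∞) (hpq : p⁻¹ + q⁻¹ = 1) :
    ‖∫ x, F x * G x ∂μ‖ₑ ≤ eLpNorm F p μ * eLpNorm G q μ := by
  have : ENNReal.HolderTriple p q 1 := ⟨by rw [hpq, inv_one]⟩
  have h := eLpNorm_smul_le_mul_eLpNorm hG hF (p := p) (q := q) (r := 1)
  refine (enorm_integral_le_lintegral_enorm _).trans ?_
  refine le_trans (le_of_eq ?_) h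
  rw [eLpNorm_one_eq_lintegral_enorm]
  rfl

theorem norm_integral_mul_le {F G : α → ℂ} (hF : AEStronglyMeasurable F μ) (hG : Adm μ G)
    (p q : ℝ≥0∞) (hpq : p⁻¹ + q⁻¹ = 1) (hq : 1 ≤ q) {B : ℝ} (hB : 0 ≤ B)
    (h : eLpNorm F p μ ≤ ENNReal.ofReal B) :
    ‖∫ x, F x * G x ∂μ‖ ≤ B * nrm q G μ := by
  have h1 := enorm_integral_mul_le hF hG.meas.aestronglyMeasurable p q hpq
  have h2 : ‖∫ x, F x * G x ∂μ‖ₑ ≤ ENNReal.ofReal (B * nrm q G μ) := by
    rw [ENNReal.ofReal_mul hB, hG.ofReal_nrm hq]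
    refine h1.trans ?_
    gcongr
  rw [← ofReal_norm] at h2
  exact (ENNReal.ofReal_le_ofReal_iff (mul_nonneg hB nrm_nonneg)).1 h2

end

/-- transfer to E2 -/
theorem Adm.toE2 {F : ℝ × ℝ → ℂ} (hF : Adm volume F) : Adm volume (F ∘ pe) :=
  hF.comp_mp mp_pe pe.measurableEmbedding

theorem nrm_pe (F : ℝ × ℝ → ℂ) (p : ℝ≥0∞) : nrm p (F ∘ pe) volume = nrm p F volume :=
  nrm_comp_mp mp_pe pe.measurableEmbedding p

theorem B2_E2 (Λ : ℝ) (θ : ℝ → ℂ) (f g : ℝ × ℝ → ℂ) :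
    B2 Λ θ f g = ∫ x : E2, (∫ y : E2, k2 Λ θ (‖x - y‖ ^ 2) * (f ∘ pe) y) * (g ∘ pe) x := by
  unfold B2
  rw [← integral_E2]
  congr 1
  ext x
  rw [← integral_E2, ← integral_mul_const]
  congr 1
  ext y
  have : ‖x - y‖ ^ 2 = (x 0 - y 0) ^ 2 + (x 1 - y 1) ^ 2 := by
    rw [EuclideanSpace.norm_sq_eq, Fin.sum_univ_two, Real.norm_eq_abs, Real.norm_eq_abs, sq_abs, sq_abs]
    rfl
  rw [this]
  rfl

end Vale.Agent.P117
end
end

section

section

open MeasureTheory Complex Set Filter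
open scoped ENNReal NNReal ContDiff FourierTransform SchwartzMap ComplexConjugate Convolution Topology

namespace Vale.Agent.P117

/-- decay of the derivatives of the Fourier transform of a bump -/
theorem th_decay : ∃ C : ℝ, 0 ≤ C ∧ ∀ (A : ℝ) (θ : ℝ → ℂ), Bump 6 A θ → ∀ k ≤ 4, ∀ n ≤ 6, ∀ w : ℝ,
    |w| ^ n * ‖iteratedDeriv k (𝓕 θ) w‖ ≤ C * A := by
  refine ⟨(2 * Real.pi) ^ 4 * 10 ^ 6 * (35 * (4 ^ 4 * 4)), by positivity, ?_⟩
  intro A θ h k hk n hn w
  have hA := h.nonneg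
  have hI : ∀ (a b : ℕ), Integrable (fun v : ℝ => ‖v‖ ^ a * ‖iteratedFDeriv ℝ b θ v‖) := by
    intro a b
    have hc : Continuous (iteratedFDeriv ℝ b θ) := h.smooth.continuous_iteratedFDeriv
      (by exact_mod_cast le_top)
    apply Continuous.integrable_of_hasCompactSupport ((continuous_norm.pow a).mul hc.norm)
    exact (h.hasCompactSupport.iteratedFDeriv b).norm.mul_left
  have hb : ∀ (a b : ℕ), a ≤ 4 → b ≤ 6 → ∫ v : ℝ, ‖v‖ ^ a * ‖iteratedFDeriv ℝ b θ v‖ ≤ 4 ^ 4 * (4 * A) := by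
    intro a b ha hb
    have h1 : ∀ v : ℝ, ‖v‖ ^ a * ‖iteratedFDeriv ℝ b θ v‖ ≤ 4 ^ 4 * ‖iteratedDeriv b θ v‖ := by
      intro v
      rw [norm_iteratedFDeriv_eq_norm_iteratedDeriv]
      by_cases hv : v ∈ Icc (1/4 : ℝ) 4
      · have : ‖v‖ ≤ 4 := by
          rw [Real.norm_of_nonneg (by linarith [hv.1])]; exact hv.2
        have h2 : ‖v‖ ^ a ≤ 4 ^ 4 := by
          calc ‖v‖ ^ a ≤ 4 ^ a := by gcongr
            _ ≤ 4 ^ 4 := pow_le_pow_right₀ (by norm_num) ha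
        gcongr
      · rw [h.iteratedDeriv_support b hv, norm_zero]; simp
    calc ∫ v : ℝ, ‖v‖ ^ a * ‖iteratedFDeriv ℝ b θ v‖ ≤ ∫ v : ℝ, 4 ^ 4 * ‖iteratedDeriv b θ v‖ := by
          apply integral_mono (hI a b) _ h1
          apply Integrable.const_mul
          exact ((h.continuous_iteratedDeriv b).integrable_of_hasCompactSupport
            (h.hasCompactSupport_iteratedDeriv b)).norm
      _ = 4 ^ 4 * ∫ v : ℝ, ‖iteratedDeriv b θ v‖ := integral_const_mul _ _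
      _ ≤ _ := by
          gcongr
          exact h.integral_norm_le b hb
  have hpow := Real.pow_mul_norm_iteratedFDeriv_fourier_le (K := ⊤) (N := ⊤) (k := k) (n := n)
    (f := θ) (h.smooth) (fun a b _ _ => hI a b) le_top le_top w
  rw [norm_iteratedFDeriv_eq_norm_iteratedDeriv, Real.norm_eq_abs] at hpow
  refine hpow.trans ?_
  have hsum : ∑ p ∈ Finset.range (k + 1) ×ˢ Finset.range (n + 1),
      ∫ v : ℝ, ‖v‖ ^ p.1 * ‖iteratedFDeriv ℝ p.2 θ v‖ ≤ 35 * (4 ^ 4 * (4 * A)) := by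
    calc _ ≤ ∑ p ∈ Finset.range (k + 1) ×ˢ Finset.range (n + 1), 4 ^ 4 * (4 * A) := by
          apply Finset.sum_le_sum
          intro p hp
          rw [Finset.mem_product, Finset.mem_range, Finset.mem_range] at hp
          exact hb p.1 p.2 (by omega) (by omega)
      _ = ((k + 1) * (n + 1) : ℝ) * (4 ^ 4 * (4 * A)) := by
          rw [Finset.sum_const, Finset.card_product, Finset.card_range, Finset.card_range, nsmul_eq_mul]
          push_cast; ring
      _ ≤ 35 * (4 ^ 4 * (4 * A)) := by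
          have hk' : (k:ℝ) ≤ 4 := by exact_mod_cast hk
          have hn' : (n:ℝ) ≤ 6 := by exact_mod_cast hn
          have : ((k + 1) * (n + 1) : ℝ) ≤ 35 := by nlinarith [Nat.cast_nonneg (α := ℝ) k, Nat.cast_nonneg (α := ℝ) n]
          gcongr
  have h2 : ((2:ℝ) * k + 2) ^ n ≤ 10 ^ 6 := by
    have hk' : (k:ℝ) ≤ 4 := by exact_mod_cast hk
    calc ((2:ℝ) * k + 2) ^ n ≤ 10 ^ n := by gcongr; linarith
      _ ≤ 10 ^ 6 := pow_le_pow_right₀ (by norm_num) hn
  have h3 : (2 * Real.pi) ^ k ≤ (2 * Real.pi) ^ 4 := by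
    apply pow_le_pow_right₀ _ hk
    linarith [Real.pi_gt_three]
  have hpi := Real.pi_pos
  calc _ ≤ (2 * Real.pi) ^ 4 * 10 ^ 6 * (35 * (4 ^ 4 * (4 * A))) := by
        gcongr
    _ = _ := by ring


theorem DB.exists_of_compact {f : ℝ → ℂ} (hf : ContDiff ℝ ∞ f) (hs : HasCompactSupport f) (n : ℕ) :
    ∃ C : ℝ, 0 ≤ C ∧ ∀ t, DB n C f t := by
  have hb : ∀ i : ℕ, ∃ C : ℝ, ∀ t, ‖iteratedFDeriv ℝ i f t‖ ≤ C := by
    intro i
    have hc : Continuous (iteratedFDeriv ℝ i f) := hf.continuous_iteratedFDeriv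
      (by exact_mod_cast le_top)
    exact (hs.iteratedFDeriv i).exists_bound_of_continuous hc
  choose C hC using hb
  refine ⟨∑ i ∈ Finset.range (n + 1), |C i|, Finset.sum_nonneg fun i _ => abs_nonneg _, ?_⟩
  intro t i hi
  refine ((hC i t).trans (le_abs_self _)).trans ?_
  exact Finset.single_le_sum (f := fun i => |C i|) (fun _ _ => abs_nonneg _) (Finset.mem_range.2 (by omega))

theorem eta1_supp {t : ℝ} (h : eta1 t ≠ 0) : |t| ≤ 2 := by
  by_contra hcon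
  push Not at hcon
  apply h
  unfold eta1
  rcases lt_abs.1 hcon with h | h
  · rw [Real.smoothTransition.zero_of_nonpos (show 2 - t ≤ 0 by linarith)]; simp
  · rw [Real.smoothTransition.zero_of_nonpos (show t + 2 ≤ 0 by linarith)]; simp

theorem norm_eta1_le (t : ℝ) : ‖eta1 t‖ ≤ 1 := by
  unfold eta1
  rw [Complex.norm_real, Real.norm_of_nonneg (mul_nonneg (Real.smoothTransition.nonneg _)
    (Real.smoothTransition.nonneg _))]
  exact mul_le_one₀ (Real.smoothTransition.le_one _) (Real.smoothTransition.nonneg _)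
    (Real.smoothTransition.le_one _)

/-- dyadic cut-off -/
noncomputable def psik (k : ℕ) (t : ℝ) : ℂ := if k = 0 then eta1 t else eta1 t - eta1 (2 * t)

theorem contDiff_psik (k : ℕ) : ContDiff ℝ ∞ (psik k) := by
  unfold psik
  by_cases h : k = 0
  · simp only [h, if_true]; exact contDiff_eta1
  · simp only [h, if_false]; exact contDiff_eta1.sub (contDiff_eta1.comp (by fun_prop))

theorem psik_supp {k : ℕ} {t : ℝ} (h : psik k t ≠ 0) : |t| ≤ 2 := by
  by_contra hcon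
  apply h
  unfold psik
  have h1 : eta1 t = 0 := by
    by_contra h1; exact hcon (eta1_supp h1)
  have h2 : eta1 (2 * t) = 0 := by
    by_contra h2
    have := eta1_supp h2
    rw [abs_mul, abs_two] at this
    push Not at hcon
    linarith
  split_ifs
  · exact h1
  · rw [h1, h2, sub_zero]

theorem psik_zero {k : ℕ} (hk : k ≠ 0) {t : ℝ} (h : |t| ≤ 1/2) : psik k t = 0 := by
  unfold psik
  rw [if_neg hk, eta1_one (by linarith), eta1_one (by rw [abs_mul, abs_two]; linarith), sub_self]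

theorem psik_DB : ∃ C : ℝ, 0 ≤ C ∧ ∀ k t, DB 4 C (psik k) t := by
  obtain ⟨C1, h1, hb1⟩ := DB.exists_of_compact (contDiff_psik 0) (by
    apply HasCompactSupport.of_support_subset_isCompact (isCompact_Icc (a := (-2:ℝ)) (b := 2))
    intro t ht
    exact abs_le.1 (psik_supp ht)) 4
  obtain ⟨C2, h2, hb2⟩ := DB.exists_of_compact (contDiff_psik 1) (by
    apply HasCompactSupport.of_support_subset_isCompact (isCompact_Icc (a := (-2:ℝ)) (b := 2))
    intro t ht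
    exact abs_le.1 (psik_supp ht)) 4
  refine ⟨C1 + C2, by positivity, ?_⟩
  intro k t
  by_cases hk : k = 0
  · rw [hk]; exact (hb1 t).mono (by linarith)
  · have : psik k = psik 1 := by ext t; unfold psik; simp [hk]
    rw [this]; exact (hb2 t).mono (by linarith)

/-- dyadic piece of the Fourier transform of a bump -/
noncomputable def phik (θ : ℝ → ℂ) (k : ℕ) (t : ℝ) : ℂ := 𝓕 θ (-(2 ^ k) * t) * psik k t

theorem contDiff_fourier_bump {M : ℕ} {A : ℝ} {θ : ℝ → ℂ} (h : Bump M A θ) : ContDiff ℝ ∞ (𝓕 θ) := by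
  have h1 : 𝓕 θ = (𝓕 (h.hasCompactSupport.toSchwartzMap h.smooth) : 𝓢(ℝ, ℂ)) := by
    rw [SchwartzMap.fourier_coe]; rfl
  rw [h1]
  exact (𝓕 (h.hasCompactSupport.toSchwartzMap h.smooth) : 𝓢(ℝ, ℂ)).smooth ⊤

theorem phik_props : ∃ C : ℝ, 0 ≤ C ∧ ∀ (A : ℝ) (θ : ℝ → ℂ), Bump 6 A θ → ∀ k : ℕ,
    ContDiff ℝ ∞ (phik θ k) ∧ (∀ t, phik θ k t ≠ 0 → |t| ≤ 2) ∧
    ∀ i ≤ 4, ∀ t, ‖iteratedDeriv i (phik θ k) t‖ ≤ C * A * (1 / 4) ^ k := by
  obtain ⟨C1, hC1, h1⟩ := th_decay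
  obtain ⟨C2, hC2, h2⟩ := psik_DB
  refine ⟨16 * (64 * C1) * C2, by positivity, ?_⟩
  intro A θ h k
  have hA := h.nonneg
  have hF := contDiff_fourier_bump h
  have hF2 : ContDiff ℝ ∞ (fun t : ℝ => 𝓕 θ (-(2 ^ k) * t)) := hF.comp (by fun_prop)
  refine ⟨hF2.mul (contDiff_psik k), fun t ht => psik_supp (right_ne_zero_of_mul ht), ?_⟩
  intro i hi t
  rw [← norm_iteratedFDeriv_eq_norm_iteratedDeriv]
  have hder : ∀ l ≤ 4, ∀ t : ℝ, ‖iteratedDeriv l (fun t : ℝ => 𝓕 θ (-(2 ^ k) * t)) t‖ ≤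
      (2 ^ k) ^ 4 * ‖iteratedDeriv l (𝓕 θ) (-(2 ^ k) * t)‖ := by
    intro l hl t
    rw [iteratedDeriv_comp_const_smul (hF.of_le (by exact_mod_cast le_top)), norm_smul, norm_pow, norm_neg,
      norm_pow, Real.norm_two]
    gcongr
    exact one_le_pow₀ (by norm_num)
  by_cases hk : k = 0
  · have d1 : DB 4 (64 * C1 * A) (fun t : ℝ => 𝓕 θ (-(2 ^ k) * t)) t := by
      intro l hl
      rw [norm_iteratedFDeriv_eq_norm_iteratedDeriv]
      refine (hder l hl t).trans ?_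
      have := h1 A θ h l hl 0 (by norm_num) (-(2 ^ k) * t)
      rw [pow_zero, one_mul] at this
      rw [hk] at this ⊢
      simp only [pow_zero, one_pow, one_mul] at this ⊢
      have : C1 * A ≤ 64 * C1 * A := by nlinarith [mul_nonneg hC1 hA]
      linarith
    have := DB.mul hF2 (contDiff_psik k) d1 (h2 k t) i hi
    refine this.trans (le_of_eq ?_)
    rw [hk]; ring
  · by_cases ht : |t| < 1/2
    · have hz : t ∉ tsupport (phik θ k) := by
        rw [notMem_tsupport_iff_eventuallyEq]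
        have : ∀ᶠ s in 𝓝 t, |s| < 1/2 := (continuous_abs.tendsto t).eventually_lt_const ht
        filter_upwards [this] with s hs
        simp only [phik, psik_zero hk hs.le, mul_zero, Pi.zero_apply]
      exact DB.of_eventually_zero (by positivity) hz i hi
    · push Not at ht
      have d1 : DB 4 (64 * C1 * A * (1 / 4) ^ k) (fun t : ℝ => 𝓕 θ (-(2 ^ k) * t)) t := by
        intro l hl
        rw [norm_iteratedFDeriv_eq_norm_iteratedDeriv]
        refine (hder l hl t).trans ?_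
        have h3 := h1 A θ h l hl 6 le_rfl (-(2 ^ k) * t)
        have h4 : (2:ℝ) ^ k / 2 ≤ |-(2 ^ k) * t| := by
          rw [abs_mul, abs_neg, abs_of_pos (by positivity)]
          have : (2:ℝ) ^ k * (1/2) ≤ 2 ^ k * |t| := by gcongr
          linarith
        have h5 : ((2:ℝ) ^ k / 2) ^ 6 * ‖iteratedDeriv l (𝓕 θ) (-(2 ^ k) * t)‖ ≤ C1 * A := by
          refine le_trans ?_ h3
          gcongr
        set X := ‖iteratedDeriv l (𝓕 θ) (-(2 ^ k) * t)‖ with hX
        have h6 : ((1:ℝ) / 4) ^ k = ((2:ℝ) ^ k) ^ 4 / (2 ^ k) ^ 6 := by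
          rw [div_pow, one_pow]
          have : (4:ℝ) ^ k = (2 ^ k) ^ 2 := by rw [← pow_mul, mul_comm, pow_mul]; norm_num
          rw [this]
          field_simp
        rw [h6]
        have h7 : ((2:ℝ) ^ k) ^ 6 * X ≤ 64 * (C1 * A) := by
          have : ((2:ℝ) ^ k / 2) ^ 6 = (2 ^ k) ^ 6 / 64 := by ring
          rw [this] at h5
          linarith
        have h8 : X ≤ 64 * (C1 * A) / (2 ^ k) ^ 6 := by
          rw [le_div_iff₀ (by positivity)]; linarith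
        calc ((2:ℝ) ^ k) ^ 4 * X ≤ (2 ^ k) ^ 4 * (64 * (C1 * A) / (2 ^ k) ^ 6) := by gcongr
          _ = _ := by ring
      have := DB.mul hF2 (contDiff_psik k) d1 (h2 k t) i hi
      refine this.trans (le_of_eq ?_)
      ring

theorem phik_sum (θ : ℝ → ℂ) (K : ℕ) (v : ℝ) :
    ∑ k ∈ Finset.range (K + 1), phik θ k (v / 2 ^ k) = 𝓕 θ (-v) * eta1 (v / 2 ^ K) := by
  induction K with
  | zero => simp [phik, psik]
  | succ K ih =>
    rw [Finset.sum_range_succ, ih]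
    unfold phik psik
    rw [if_neg (Nat.succ_ne_zero K)]
    have e1 : -(2:ℝ) ^ (K + 1) * (v / 2 ^ (K + 1)) = -v := by field_simp
    have e2 : 2 * (v / 2 ^ (K + 1)) = v / 2 ^ K := by rw [pow_succ]; field_simp
    rw [e1, e2]; ring


theorem int_phase {G : E2 → ℂ} (hG : Integrable G) (z : E2) :
    Integrable (fun v => Real.fourierChar (inner ℝ v z) • G v) := by
  have := (Real.fourierIntegral_convergent_iff (-z)).2 hG
  simpa using this

theorem fourierInv_sum {ι : Type*} (s : Finset ι) {G : ι → E2 → ℂ} (hG : ∀ i, Integrable (G i)) (z : E2) :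
    𝓕⁻ (fun ξ => ∑ i ∈ s, G i ξ) z = ∑ i ∈ s, 𝓕⁻ (G i) z := by
  rw [Real.fourierInv_eq]
  simp_rw [Finset.smul_sum]
  rw [integral_finsetSum]
  · refine Finset.sum_congr rfl fun i _ => ?_
    rw [Real.fourierInv_eq]
  · intro i _
    exact int_phase (hG i) z

theorem integrable_cv_integrand {G f : E2 → ℂ} (hG : Integrable G) (hf : Integrable f) (x : E2) :
    Integrable (fun y => 𝓕⁻ G (x - y) * f y) := by
  refine (hf.norm.const_mul (∫ v, ‖G v‖)).mono' ?_ ?_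
  · exact (((continuous_fourierInv hG).comp (by fun_prop : Continuous fun y => x - y)).aestronglyMeasurable).mul
      hf.aestronglyMeasurable
  · filter_upwards with y
    rw [norm_mul]
    have := norm_fourierInv_le G (x - y)
    gcongr

theorem cv_sum {ι : Type*} (s : Finset ι) {G : ι → E2 → ℂ} (hG : ∀ i, Integrable (G i)) {f : E2 → ℂ}
    (hf : Integrable f) : cv (𝓕⁻ (fun ξ => ∑ i ∈ s, G i ξ)) f = ∑ i ∈ s, cv (𝓕⁻ (G i)) f := by
  ext x
  rw [Finset.sum_apply]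
  unfold cv
  simp_rw [fourierInv_sum s hG, Finset.sum_mul]
  rw [integral_finsetSum]
  intro i _
  exact integrable_cv_integrand (hG i) hf x

theorem continuous_cv_inv {G f : E2 → ℂ} (hG : Integrable G) (hf : Integrable f) :
    Continuous (cv (𝓕⁻ G) f) := continuous_cv (continuous_fourierInv hG) (norm_fourierInv_le G) hf

/-- the truncated multiplier satisfies the L4 bound -/
theorem trunc_L4 : ∃ C : ℝ, 0 ≤ C ∧ ∀ (Λ : ℝ), 1 ≤ Λ → ∀ (A : ℝ) (θ : ℝ → ℂ), Bump 6 A θ →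
    ∀ (K : ℕ) (f : E2 → ℂ), Adm volume f →
    eLpNorm (cv (𝓕⁻ (fun ξ : E2 => 𝓕 θ (-(Λ * (‖ξ‖ ^ 2 - 1))) * eta1 (Λ * (‖ξ‖ ^ 2 - 1) / 2 ^ K))) f) 4 volume
      ≤ ENNReal.ofReal (C * A * (1 + Real.log Λ)) * eLpNorm f 4 volume := by
  obtain ⟨C8, hC8, h8⟩ := T08_circle
  obtain ⟨Cp, hCp, hp⟩ := phik_props
  refine ⟨C8 * Cp * 4, by positivity, ?_⟩
  intro Λ hΛ A θ h K f hf
  have hA := h.nonneg
  have hΛ0 : 0 < Λ := by linarith
  have hlog : 0 ≤ Real.log Λ := Real.log_nonneg hΛ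
  set G : ℕ → E2 → ℂ := fun k ξ => phik θ k ((Λ / 2 ^ k) * (‖ξ‖ ^ 2 - 1)) with hG
  have hGI : ∀ k, Integrable (G k) := by
    intro k
    obtain ⟨p1, p2, p3⟩ := hp A θ h k
    have := integrable_of_ring (Λ := Λ / 2 ^ k) (by positivity) p1 p2 (a := fun _ => 1) contDiff_const
    simpa using this
  have e : (fun ξ : E2 => 𝓕 θ (-(Λ * (‖ξ‖ ^ 2 - 1))) * eta1 (Λ * (‖ξ‖ ^ 2 - 1) / 2 ^ K)) =
      fun ξ => ∑ k ∈ Finset.range (K + 1), G k ξ := by
    ext ξ
    rw [← phik_sum]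
    refine Finset.sum_congr rfl fun k _ => ?_
    simp only [hG]
    congr 1
    ring
  rw [e, cv_sum _ hGI hf.int]
  have hb : ∀ k, eLpNorm (cv (𝓕⁻ (G k)) f) 4 volume ≤
      ENNReal.ofReal (C8 * Cp * 2 * A * (1 + Real.log Λ) * (1 / 4) ^ k) * eLpNorm f 4 volume := by
    intro k
    obtain ⟨p1, p2, p3⟩ := hp A θ h k
    refine (h8 (Λ / 2 ^ k) (by positivity) (phik θ k) p1 p2 _ p3 f hf).trans ?_
    refine mul_le_mul' (ENNReal.ofReal_le_ofReal ?_) le_rfl
    have h2 : Real.log (1 + Λ / 2 ^ k) ≤ 1 + Real.log Λ := by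
      have h3 : Λ / 2 ^ k ≤ Λ := div_le_self hΛ0.le (one_le_pow₀ (by norm_num))
      calc Real.log (1 + Λ / 2 ^ k) ≤ Real.log (2 * Λ) := by
            apply Real.log_le_log (by positivity); linarith
        _ = Real.log 2 + Real.log Λ := Real.log_mul (by norm_num) hΛ0.ne'
        _ ≤ 1 + Real.log Λ := by
            have := Real.log_two_lt_d9
            linarith
    calc C8 * (Cp * A * (1 / 4) ^ k) * (1 + Real.log (1 + Λ / 2 ^ k))
        ≤ C8 * (Cp * A * (1 / 4) ^ k) * (2 * (1 + Real.log Λ)) := by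
          gcongr
          linarith
      _ = _ := by ring
  refine (eLpNorm_sum_le (fun k _ => (continuous_cv_inv (hGI k) hf.int).aestronglyMeasurable) (by norm_num)).trans ?_
  calc ∑ k ∈ Finset.range (K + 1), eLpNorm (cv (𝓕⁻ (G k)) f) 4 volume
      ≤ ∑ k ∈ Finset.range (K + 1), ENNReal.ofReal (C8 * Cp * 2 * A * (1 + Real.log Λ) * (1 / 4) ^ k) * eLpNorm f 4 volume :=
        Finset.sum_le_sum fun k _ => hb k
    _ = ENNReal.ofReal (∑ k ∈ Finset.range (K + 1), C8 * Cp * 2 * A * (1 + Real.log Λ) * (1 / 4) ^ k) * eLpNorm f 4 volume := by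
        rw [← Finset.sum_mul, ENNReal.ofReal_sum_of_nonneg (fun i _ => by positivity)]
    _ ≤ _ := by
        gcongr
        rw [← Finset.mul_sum]
        have hg : ∑ k ∈ Finset.range (K + 1), ((1:ℝ) / 4) ^ k ≤ 2 := by
          rw [geom_sum_eq (by norm_num)]
          have : (0:ℝ) ≤ (1/4) ^ (K + 1) := by positivity
          rw [div_le_iff_of_neg (by norm_num)]
          linarith
        calc C8 * Cp * 2 * A * (1 + Real.log Λ) * ∑ k ∈ Finset.range (K + 1), ((1:ℝ) / 4) ^ k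
            ≤ C8 * Cp * 2 * A * (1 + Real.log Λ) * 2 := by gcongr
          _ = _ := by ring

theorem T09_L4 : ∃ (M : ℕ) (C : ℝ), 0 ≤ C ∧ ∀ (Λ : ℝ), 1 ≤ Λ → ∀ (A : ℝ) (θ : ℝ → ℂ),
    Bump M A θ → ∀ f g : ℝ × ℝ → ℂ, Adm volume f → Adm volume g →
    ‖B2 Λ θ f g‖ ≤ C * A * (1 + Real.log Λ) * nrm 4 f volume * nrm (4/3) g volume := by
  obtain ⟨C, hC, h9⟩ := trunc_L4
  refine ⟨6, C, hC, ?_⟩
  intro Λ hΛ A θ h f g hf hg
  have hA := h.nonneg
  have hΛ0 : 0 < Λ := by linarith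
  have hlog : 0 ≤ Real.log Λ := Real.log_nonneg hΛ
  have h4 : Bump 4 A θ := h.mono (by norm_num) le_rfl
  have hf' := hf.toE2
  have hg' := hg.toE2
  rw [← nrm_pe f, ← nrm_pe g, B2_E2]
  set f' := f ∘ pe with hf'd
  set g' := g ∘ pe with hg'd
  set G : E2 → ℂ := fun ξ => mult Λ θ (‖ξ‖ ^ 2) with hG
  have hGI : Integrable G := integrable_mult (by simp) h4 hΛ0
  have hGc : Continuous G := (continuous_mult h4 hΛ0).comp (by fun_prop)
  have hGe : ∀ ξ : E2, G ξ = 𝓕 θ (-(Λ * (‖ξ‖ ^ 2 - 1))) := by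
    intro ξ
    simp only [hG]
    rw [mult_eq h4 hΛ0, Th_eq_fourier]
  have hk2 : ∀ z : E2, k2 Λ θ (‖z‖ ^ 2) = 𝓕⁻ G z := by
    intro z
    rw [T02_k2_eq Λ hΛ0 A θ h4, Real.fourierInv_eq']
    congr 1
    ext ξ
    rw [smul_eq_mul, mul_comm]
    congr 2
    rw [real_inner_comm]
    push_cast; ring
  simp_rw [hk2]
  change ‖∫ x : E2, cv (𝓕⁻ G) f' x * g' x‖ ≤ _
  set B := C * A * (1 + Real.log Λ) with hB
  have hB0 : 0 ≤ B := by positivity
  set GK : ℕ → E2 → ℂ := fun K ξ => 𝓕 θ (-(Λ * (‖ξ‖ ^ 2 - 1))) * eta1 (Λ * (‖ξ‖ ^ 2 - 1) / 2 ^ K) with hGK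
  have hGKb : ∀ K ξ, ‖GK K ξ‖ ≤ ‖G ξ‖ := by
    intro K ξ
    simp only [hGK]
    rw [norm_mul, ← hGe]
    exact mul_le_of_le_one_right (norm_nonneg _) (norm_eta1_le _)
  have hGKm : ∀ K, Continuous (GK K) := by
    intro K
    have c1 : Continuous (fun ξ : E2 => 𝓕 θ (-(Λ * (‖ξ‖ ^ 2 - 1)))) := by
      have : (fun ξ : E2 => 𝓕 θ (-(Λ * (‖ξ‖ ^ 2 - 1)))) = G := by ext ξ; rw [hGe]
      rw [this]; exact hGc
    have c2 := contDiff_eta1.continuous
    have c3 : Continuous (fun ξ : E2 => eta1 (Λ * (‖ξ‖ ^ 2 - 1) / 2 ^ K)) := c2.comp (by fun_prop)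
    exact c1.mul c3
  have hGKI : ∀ K, Integrable (GK K) := fun K =>
    hGI.norm.mono' (hGKm K).aestronglyMeasurable (by filter_upwards with ξ; exact hGKb K ξ)
  have key : ∀ K, ‖∫ x, cv (𝓕⁻ (GK K)) f' x * g' x‖ ≤ B * nrm 4 f' volume * nrm (4/3) g' volume := by
    intro K
    apply norm_integral_mul_le (continuous_cv_inv (hGKI K) hf'.int).aestronglyMeasurable hg' 4 (4/3)
    · rw [ENNReal.inv_div (by left; norm_num) (by left; norm_num)]
      rw [← ENNReal.toReal_eq_one_iff, ENNReal.toReal_add (by simp) (by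
        apply ne_of_lt
        exact ENNReal.div_lt_top (by norm_num) (by norm_num))]
      simp [ENNReal.toReal_div]
      norm_num
    · rw [ENNReal.le_div_iff_mul_le (by left; norm_num) (by left; norm_num)]
      norm_num
    · exact mul_nonneg hB0 nrm_nonneg
    · rw [ENNReal.ofReal_mul hB0, hf'.ofReal_nrm (by norm_num)]
      exact h9 Λ hΛ A θ h K f' hf'
  -- limit
  set ε : ℕ → ℝ := fun K => ∫ ξ, ‖GK K ξ - G ξ‖ with hε
  have hε0 : Tendsto ε atTop (𝓝 0) := by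
    have : Tendsto ε atTop (𝓝 (∫ _ξ : E2, (0:ℝ))) := by
      apply tendsto_integral_of_dominated_convergence (fun ξ => 2 * ‖G ξ‖)
      · intro K; exact (((hGKm K).sub hGc).norm).aestronglyMeasurable
      · exact hGI.norm.const_mul 2
      · intro K
        filter_upwards with ξ
        rw [norm_norm]
        have := hGKb K ξ
        calc ‖GK K ξ - G ξ‖ ≤ ‖GK K ξ‖ + ‖G ξ‖ := norm_sub_le _ _
          _ ≤ 2 * ‖G ξ‖ := by linarith
      · filter_upwards with ξ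
        have hev : ∀ᶠ K : ℕ in atTop, ‖GK K ξ - G ξ‖ = 0 := by
          obtain ⟨n, hn⟩ := pow_unbounded_of_one_lt |Λ * (‖ξ‖ ^ 2 - 1)| (by norm_num : (1:ℝ) < 2)
          filter_upwards [eventually_ge_atTop n] with K hK
          have : eta1 (Λ * (‖ξ‖ ^ 2 - 1) / 2 ^ K) = 1 := by
            apply eta1_one
            rw [abs_div, abs_of_pos (by positivity : (0:ℝ) < 2 ^ K), div_le_one (by positivity)]
            exact hn.le.trans (pow_le_pow_right₀ (by norm_num) hK)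
          simp only [hGK]
          rw [this, mul_one, ← hGe, sub_self, norm_zero]
        exact tendsto_const_nhds.congr' (by filter_upwards [hev] with K hK; exact hK.symm)
    simpa using this
  have hdiff : ∀ K, ‖∫ x, cv (𝓕⁻ G) f' x * g' x‖ ≤ B * nrm 4 f' volume * nrm (4/3) g' volume +
      ε K * ((∫ y, ‖f' y‖) * ∫ x, ‖g' x‖) := by
    intro K
    have hcvd : ∀ x, ‖cv (𝓕⁻ G) f' x - cv (𝓕⁻ (GK K)) f' x‖ ≤ ε K * ∫ y, ‖f' y‖ := by
      intro x
      unfold cv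
      rw [← integral_sub (integrable_cv_integrand hGI hf'.int x) (integrable_cv_integrand (hGKI K) hf'.int x)]
      calc _ ≤ ∫ y, ε K * ‖f' y‖ := by
            apply norm_integral_le_of_norm_le (hf'.int.norm.const_mul _)
            filter_upwards with y
            rw [← sub_mul, norm_mul]
            have : ‖𝓕⁻ G (x - y) - 𝓕⁻ (GK K) (x - y)‖ ≤ ε K := by
              rw [Real.fourierInv_eq, Real.fourierInv_eq, ← integral_sub]
              · apply norm_integral_le_of_norm_le ((hGKI K).sub hGI).norm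
                filter_upwards with ξ
                rw [← smul_sub, Circle.norm_smul, norm_sub_rev]
                rfl
              · exact int_phase hGI _
              · exact int_phase (hGKI K) _
            gcongr
        _ = ε K * ∫ y, ‖f' y‖ := integral_const_mul _ _
    have hi : ∀ {H : E2 → ℂ}, Integrable H → Integrable (fun x => cv (𝓕⁻ H) f' x * g' x) := by
      intro H hH
      refine (hg'.int.norm.const_mul ((∫ v, ‖H v‖) * ∫ y, ‖f' y‖)).mono' ?_ ?_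
      · exact (continuous_cv_inv hH hf'.int).aestronglyMeasurable.mul hg'.int.aestronglyMeasurable
      · filter_upwards with x
        rw [norm_mul]
        have := norm_cv_le (norm_fourierInv_le H) hf'.int x
        gcongr
    have hd : Integrable (fun x => (cv (𝓕⁻ G) f' x - cv (𝓕⁻ (GK K)) f' x) * g' x) := by
      have := (hi hGI).sub (hi (hGKI K))
      refine this.congr ?_
      filter_upwards with x
      simp only [Pi.sub_apply]
      ring
    have e1 : ∫ x, cv (𝓕⁻ G) f' x * g' x = (∫ x, cv (𝓕⁻ (GK K)) f' x * g' x) +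
        ∫ x, (cv (𝓕⁻ G) f' x - cv (𝓕⁻ (GK K)) f' x) * g' x := by
      have h := integral_add (hi (hGKI K)) hd
      rw [← h]
      congr 1
      ext x
      ring
    rw [e1]
    refine (norm_add_le _ _).trans (add_le_add (key K) ?_)
    calc _ ≤ ∫ x, (ε K * ∫ y, ‖f' y‖) * ‖g' x‖ := by
          apply norm_integral_le_of_norm_le (hg'.int.norm.const_mul _)
          filter_upwards with x
          rw [norm_mul]
          have := hcvd x
          gcongr
      _ = _ := by rw [integral_const_mul]; ring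
  have hlim : Tendsto (fun K => B * nrm 4 f' volume * nrm (4/3) g' volume +
      ε K * ((∫ y, ‖f' y‖) * ∫ x, ‖g' x‖)) atTop (𝓝 (B * nrm 4 f' volume * nrm (4/3) g' volume + 0 * ((∫ y, ‖f' y‖) * ∫ x, ‖g' x‖))) :=
    tendsto_const_nhds.add (hε0.mul_const _)
  have := ge_of_tendsto' hlim hdiff
  simpa using this

end Vale.Agent.P117
end
end

section

section

open MeasureTheory Complex Set Filter
open scoped ENNReal NNReal ContDiff FourierTransform ComplexConjugate Topology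

namespace Vale.Agent.P117

noncomputable def psc (c : ℝ) : ℝ :=
  Real.smoothTransition (4 * (1 + c) - 1) * (1 + c) + (1 - Real.smoothTransition (4 * (1 + c) - 1))

theorem contDiff_psc : ContDiff ℝ ∞ psc := by
  unfold psc
  have h : ContDiff ℝ ∞ (fun c : ℝ => Real.smoothTransition (4 * (1 + c) - 1)) :=
    contDiff_st.comp (by fun_prop)
  fun_prop

theorem psc_pos (c : ℝ) : 0 < psc c := by
  unfold psc
  set σ := Real.smoothTransition (4 * (1 + c) - 1) with hσ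
  have h0 : 0 ≤ σ := Real.smoothTransition.nonneg _
  have h1 : σ ≤ 1 := Real.smoothTransition.le_one _
  rcases le_total (1 + c) (1/4) with h | h
  · have : σ = 0 := Real.smoothTransition.zero_of_nonpos (by linarith)
    rw [this]; norm_num
  · rcases eq_or_lt_of_le h1 with h2 | h2
    · rw [h2]; linarith
    · have : 0 ≤ σ * (1 + c) := mul_nonneg h0 (by linarith)
      linarith

theorem psc_eq {c : ℝ} (h : -(1/2) ≤ c) : psc c = 1 + c := by
  unfold psc
  rw [Real.smoothTransition.one_of_one_le (by linarith)]; ring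

/-- globally smooth version of tan(a/2) -/
noncomputable def kpa (a : ℝ) : ℝ := Real.sin a / psc (Real.cos a)

theorem contDiff_kpa : ContDiff ℝ ∞ kpa := by
  unfold kpa
  exact Real.contDiff_sin.div (contDiff_psc.comp Real.contDiff_cos) (fun a => (psc_pos _).ne')

theorem kpa_mul_sin {a : ℝ} (h : -(1/2) ≤ Real.cos a) : kpa a * Real.sin a = 1 - Real.cos a := by
  unfold kpa
  rw [psc_eq h]
  have h1 : 1 + Real.cos a ≠ 0 := by
    have : 0 < 1 + Real.cos a := by linarith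
    exact this.ne'
  field_simp
  have := Real.sin_sq a
  nlinarith

theorem kpa_periodic (a : ℝ) : kpa (a + 2 * Real.pi) = kpa a := by
  unfold kpa; simp

/-- admissible amplitudes -/
structure Wcl (w : ℝ → ℂ) : Prop where
  smooth : ContDiff ℝ ∞ w
  supp : ∀ a, w a ≠ 0 → -(1/2) ≤ Real.cos a

theorem Wcl.kmul {w : ℝ → ℂ} (h : Wcl w) : ContDiff ℝ ∞ (fun a => (kpa a : ℂ) * w a) :=
  (Complex.ofRealCLM.contDiff.comp contDiff_kpa).mul h.smooth

/-- the operator L -/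
noncomputable def Lop (w : ℝ → ℂ) (a : ℝ) : ℂ := -deriv (fun a => (kpa a : ℂ) * w a) a

theorem Wcl.tsupp {w : ℝ → ℂ} (h : Wcl w) : tsupport w ⊆ {a | -(1/2) ≤ Real.cos a} := by
  apply closure_minimal
  · intro a ha; exact h.supp a ha
  · exact isClosed_le continuous_const Real.continuous_cos

theorem Wcl.Lop {w : ℝ → ℂ} (h : Wcl w) : Wcl (Lop w) := by
  refine ⟨?_, ?_⟩
  · unfold P117.Lop
    have := h.kmul
    exact ((contDiff_infty_iff_deriv.1 this).2).neg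
  · intro a ha
    by_contra hcon
    apply ha
    unfold P117.Lop
    have h1 : a ∉ tsupport w := fun h2 => hcon (h.tsupp h2)
    have h2 : (fun a => (kpa a : ℂ) * w a) =ᶠ[𝓝 a] fun _ => 0 := by
      filter_upwards [notMem_tsupport_iff_eventuallyEq.1 h1] with b hb
      rw [hb]; simp
    rw [h2.deriv_eq]; simp

/-- oscillatory integral -/
noncomputable def bI (w : ℝ → ℂ) (u : ℝ) : ℂ :=
  ∫ a in (-Real.pi)..Real.pi, w a * cexp (-I * u * (1 - Real.cos a))

theorem norm_exp_bI (u a : ℝ) : ‖cexp (-I * u * (1 - Real.cos a))‖ = 1 := by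
  have : (-I * u * (1 - Real.cos a) : ℂ) = ((-(u * (1 - Real.cos a)) : ℝ) : ℂ) * I := by
    push_cast; ring
  rw [this, Complex.norm_exp_ofReal_mul_I]

theorem Wcl.pi_zero {w : ℝ → ℂ} (h : Wcl w) : w Real.pi = 0 ∧ w (-Real.pi) = 0 := by
  constructor
  · by_contra h0
    have := h.supp _ h0
    rw [Real.cos_pi] at this; norm_num at this
  · by_contra h0
    have := h.supp _ h0
    rw [Real.cos_neg, Real.cos_pi] at this; norm_num at this

theorem hasDerivAt_bI {w : ℝ → ℂ} (h : Wcl w) (U τ : ℝ) :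
    HasDerivAt (fun τ : ℝ => bI w (U * Real.exp τ)) (bI (Lop w) (U * Real.exp τ)) τ := by
  have hw := h.smooth.continuous
  -- derivative under the integral
  have hder := intervalIntegral.hasDerivAt_integral_of_dominated_loc_of_deriv_le
    (μ := volume) (a := -Real.pi) (b := Real.pi) (s := Ioo (τ - 1) (τ + 1))
    (F := fun (τ : ℝ) (a : ℝ) => w a * cexp (-I * (U * Real.exp τ : ℝ) * (1 - Real.cos a)))
    (F' := fun (τ : ℝ) (a : ℝ) => w a * (cexp (-I * (U * Real.exp τ : ℝ) * (1 - Real.cos a)) *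
      (-I * (U * Real.exp τ : ℝ) * (1 - Real.cos a))))
    (x₀ := τ) (bound := fun a => ‖w a‖ * (|U| * Real.exp (τ + 1) * 2))
    (Ioo_mem_nhds (by linarith) (by linarith)) ?_ ?_ ?_ ?_ ?_ ?_
  · have h2 := hder.2
    have e : ∫ a in (-Real.pi)..Real.pi, w a * (cexp (-I * (U * Real.exp τ : ℝ) * (1 - Real.cos a)) *
      (-I * (U * Real.exp τ : ℝ) * (1 - Real.cos a))) = bI (Lop w) (U * Real.exp τ) := by
      set u := U * Real.exp τ with hu
      have hv : ∀ a : ℝ, HasDerivAt (fun a : ℝ => cexp (-I * u * (1 - Real.cos a)))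
          (cexp (-I * u * (1 - Real.cos a)) * (-I * u * Real.sin a)) a := by
        intro a
        have h1 : HasDerivAt (fun a : ℝ => (-I * u * (1 - Real.cos a) : ℂ)) (-I * u * Real.sin a) a := by
          have h2 : HasDerivAt (fun a : ℝ => ((1 - Real.cos a : ℝ) : ℂ)) ((Real.sin a : ℝ) : ℂ) a := by
            have := ((Real.hasDerivAt_cos a).const_sub 1)
            rw [neg_neg] at this
            exact this.ofReal_comp
          have := h2.const_mul (-I * u : ℂ)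
          simpa using this
        exact h1.cexp
      have hk : ∀ a : ℝ, HasDerivAt (fun a => (kpa a : ℂ) * w a) (deriv (fun a => (kpa a : ℂ) * w a) a) a :=
        fun a => (h.kmul.differentiable (by simp)).differentiableAt.hasDerivAt
      have hby := intervalIntegral.integral_mul_deriv_eq_deriv_mul (a := -Real.pi) (b := Real.pi)
        (u := fun a => (kpa a : ℂ) * w a) (v := fun a : ℝ => cexp (-I * u * (1 - Real.cos a)))
        (u' := deriv (fun a => (kpa a : ℂ) * w a))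
        (v' := fun a => cexp (-I * u * (1 - Real.cos a)) * (-I * u * Real.sin a))
        (fun a _ => hk a) (fun a _ => hv a)
        ((h.kmul.continuous_deriv (by simp)).intervalIntegrable _ _)
        (Continuous.intervalIntegrable (by fun_prop) _ _)
      rw [h.pi_zero.1, h.pi_zero.2] at hby
      simp only [mul_zero, zero_mul, sub_zero, zero_sub] at hby
      have e1 : ∫ a in (-Real.pi)..Real.pi, w a * (cexp (-I * u * (1 - Real.cos a)) *
          (-I * u * (1 - Real.cos a))) =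
          ∫ a in (-Real.pi)..Real.pi, (kpa a : ℂ) * w a * (cexp (-I * u * (1 - Real.cos a)) * (-I * u * Real.sin a)) := by
        congr 1
        ext a
        by_cases h0 : w a = 0
        · simp [h0]
        · have h3 := kpa_mul_sin (h.supp a h0)
          have h4 : (1 - Real.cos a : ℂ) = (kpa a : ℂ) * Real.sin a := by
            rw [← Complex.ofReal_mul, h3]; push_cast; ring
          conv_lhs => rw [show (-I * u * (1 - Real.cos a) : ℂ) = -I * u * (1 - Real.cos a) from rfl]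
          have h5 : (-I * (u:ℂ) * (1 - Real.cos a)) = -I * u * ((kpa a : ℂ) * Real.sin a) := by rw [h4]
          calc w a * (cexp (-I * u * (1 - Real.cos a)) * (-I * u * (1 - Real.cos a)))
              = w a * (cexp (-I * u * (1 - Real.cos a)) * (-I * u * ((kpa a : ℂ) * Real.sin a))) := by
                congr 2
            _ = _ := by ring
      rw [e1, hby]
      unfold bI P117.Lop
      rw [← intervalIntegral.integral_neg]
      congr 1
      ext a
      ring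
    rw [e] at h2
    exact h2
  · filter_upwards with τ'
    exact (by fun_prop : Continuous fun a : ℝ => w a * cexp (-I * (U * Real.exp τ' : ℝ) * (1 - Real.cos a))).aestronglyMeasurable
  · exact Continuous.intervalIntegrable (by fun_prop) _ _
  · exact (by fun_prop : Continuous fun a : ℝ => w a * (cexp (-I * (U * Real.exp τ : ℝ) * (1 - Real.cos a)) *
      (-I * (U * Real.exp τ : ℝ) * (1 - Real.cos a)))).aestronglyMeasurable
  · filter_upwards with a _ τ' hτ'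
    rw [norm_mul, norm_mul, norm_exp_bI, one_mul, norm_mul, norm_mul, norm_neg, Complex.norm_I, one_mul,
      Complex.norm_real, norm_mul, Real.norm_eq_abs, Real.norm_of_nonneg (Real.exp_nonneg _)]
    have h1 : ‖(1 - Real.cos a : ℂ)‖ ≤ 2 := by
      have : (1 - Real.cos a : ℂ) = ((1 - Real.cos a : ℝ) : ℂ) := by push_cast; ring
      rw [this, Complex.norm_real, Real.norm_of_nonneg (by linarith [Real.cos_le_one a])]
      linarith [Real.neg_one_le_cos a]
    have h2 : Real.exp τ' ≤ Real.exp (τ + 1) := Real.exp_le_exp.2 hτ'.2.le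
    gcongr
  · exact Continuous.intervalIntegrable (by fun_prop) _ _
  · filter_upwards with a _ τ' _
    have h1 : HasDerivAt (fun τ : ℝ => (-I * (U * Real.exp τ : ℝ) * (1 - Real.cos a) : ℂ))
        (-I * (U * Real.exp τ' : ℝ) * (1 - Real.cos a)) τ' := by
      have h2 : HasDerivAt (fun τ : ℝ => ((U * Real.exp τ : ℝ) : ℂ)) ((U * Real.exp τ' : ℝ) : ℂ) τ' :=
        ((Real.hasDerivAt_exp τ').const_mul U).ofReal_comp
      exact (h2.const_mul (-I)).mul_const _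
    exact h1.cexp.const_mul (w a)


theorem sin_lower {a : ℝ} (h0 : 0 ≤ a) (h1 : a ≤ 3 * Real.pi / 4) : a / (2 * Real.pi) ≤ Real.sin a := by
  have hpi := Real.pi_pos
  have e : Real.sin a = 2 * Real.sin (a / 2) * Real.cos (a / 2) := by
    rw [← Real.sin_two_mul]; congr 1; ring
  have hs : 2 / Real.pi * (a / 2) ≤ Real.sin (a / 2) := Real.mul_le_sin (by linarith) (by linarith)
  have hc : 1 / 4 ≤ Real.cos (a / 2) := by
    have h2 : Real.cos (3 * Real.pi / 8) ≤ Real.cos (a / 2) :=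
      Real.cos_le_cos_of_nonneg_of_le_pi (by linarith) (by linarith) (by linarith)
    have h3 : Real.cos (3 * Real.pi / 8) = Real.sin (Real.pi / 8) := by
      rw [← Real.cos_pi_div_two_sub]; congr 1; ring
    have h4 : 2 / Real.pi * (Real.pi / 8) ≤ Real.sin (Real.pi / 8) := Real.mul_le_sin (by linarith) (by linarith)
    have h5 : 2 / Real.pi * (Real.pi / 8) = 1 / 4 := by field_simp; norm_num
    linarith
  rw [e]
  have h6 : a / (2 * Real.pi) = 2 * (2 / Real.pi * (a / 2)) * (1 / 4) := by field_simp; ring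
  rw [h6]
  have h7 : 0 ≤ 2 / Real.pi * (a / 2) := by positivity
  have h8 : 0 ≤ Real.sin (a / 2) := h7.trans hs
  gcongr

theorem cos_upper {a : ℝ} (h0 : 3 * Real.pi / 4 ≤ a) (h1 : a ≤ Real.pi) : Real.cos a < -(1/2) := by
  have hpi := Real.pi_pos
  have h2 : Real.cos a ≤ Real.cos (3 * Real.pi / 4) :=
    Real.cos_le_cos_of_nonneg_of_le_pi (by linarith) h1 h0
  have h3 : Real.cos (3 * Real.pi / 4) = -(Real.sqrt 2 / 2) := by
    rw [← Real.cos_pi_div_four, ← Real.cos_pi_sub]; congr 1; ring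
  have h4 : 1 < Real.sqrt 2 := by
    rw [Real.lt_sqrt (by norm_num)]; norm_num
  rw [h3] at h2
  linarith

theorem half_bound {w : ℝ → ℂ} (hw : ContDiff ℝ ∞ w) (hs : ∀ a, 3 * Real.pi / 4 ≤ a → a ≤ Real.pi → w a = 0)
    {B : ℝ} (hB : ∀ a, ‖w a‖ ≤ B) (hB' : ∀ a, ‖deriv w a‖ ≤ B) {u : ℝ} (hu : 1 ≤ u) :
    ‖∫ a in (0:ℝ)..Real.pi, w a * cexp (-I * u * (1 - Real.cos a))‖ ≤ 100 * B * u ^ (-(1/2:ℝ)) := by
  have hpi := Real.pi_pos
  have hpi3 := Real.pi_gt_three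
  have hpi4 := Real.pi_lt_four
  have hB0 : 0 ≤ B := (norm_nonneg _).trans (hB 0)
  have hu0 : 0 < u := by linarith
  set ρ := u ^ (-(1/2:ℝ)) with hρ
  have hρ0 : 0 < ρ := by positivity
  have hρ1 : ρ ≤ 1 := Real.rpow_le_one_of_one_le_of_nonpos hu (by norm_num)
  have hρu : ρ * ρ * u = 1 := by
    rw [hρ, ← Real.rpow_add hu0, ← Real.rpow_add_one hu0.ne']; norm_num
  set β := 3 * Real.pi / 4 with hβ
  have hβ1 : ρ < β := by rw [hβ]; linarith
  set e : ℝ → ℂ := fun a => cexp (-I * u * (1 - Real.cos a)) with he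
  have hec : Continuous e := by simp only [he]; fun_prop
  have hwc := hw.continuous
  have hsplit : ∫ a in (0:ℝ)..Real.pi, w a * e a = (∫ a in (0:ℝ)..ρ, w a * e a) +
      ((∫ a in ρ..β, w a * e a) + ∫ a in β..Real.pi, w a * e a) := by
    rw [intervalIntegral.integral_add_adjacent_intervals, intervalIntegral.integral_add_adjacent_intervals]
    all_goals exact Continuous.intervalIntegrable (by fun_prop) _ _
  have h3 : ∫ a in β..Real.pi, w a * e a = 0 := by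
    rw [intervalIntegral.integral_congr (g := fun _ => 0)]
    · simp
    · intro a ha
      rw [uIcc_of_le (by rw [hβ]; linarith)] at ha
      simp only
      rw [hs a ha.1 ha.2, zero_mul]
  have h1 : ‖∫ a in (0:ℝ)..ρ, w a * e a‖ ≤ B * ρ := by
    have := intervalIntegral.norm_integral_le_of_norm_le_const (a := 0) (b := ρ) (f := fun a => w a * e a) (C := B) (by
      intro a _
      rw [norm_mul, norm_exp_bI, mul_one]; exact hB a)
    rwa [sub_zero, abs_of_pos hρ0] at this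
  -- integration by parts
  have hsin : ∀ a ∈ uIcc ρ β, 0 < Real.sin a := by
    intro a ha
    rw [uIcc_of_le hβ1.le] at ha
    have : 0 < a := lt_of_lt_of_le hρ0 ha.1
    exact lt_of_lt_of_le (by positivity) (sin_lower this.le ha.2)
  set U : ℝ → ℂ := fun a => w a / Real.sin a with hU
  set V : ℝ → ℂ := fun a => e a / (-I * u) with hV
  have hIu : (-I * (u:ℂ)) ≠ 0 := by
    have : (u:ℂ) ≠ 0 := by exact_mod_cast hu0.ne'
    simp [this]
  have hUd : ∀ a ∈ uIcc ρ β, HasDerivAt U ((deriv w a * Real.sin a - w a * Real.cos a) / (Real.sin a : ℂ) ^ 2) a := by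
    intro a ha
    have hd : HasDerivAt w (deriv w a) a := (hw.differentiable (by simp)).differentiableAt.hasDerivAt
    have hs' : HasDerivAt (fun a : ℝ => ((Real.sin a : ℝ) : ℂ)) ((Real.cos a : ℝ) : ℂ) a := (Real.hasDerivAt_sin a).ofReal_comp
    exact hd.div hs' (by exact_mod_cast (hsin a ha).ne')
  have hVd : ∀ a ∈ uIcc ρ β, HasDerivAt V (e a * Real.sin a) a := by
    intro a _
    have h2 : HasDerivAt (fun a : ℝ => (-I * u * (1 - Real.cos a) : ℂ)) (-I * u * Real.sin a) a := by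
      have h2 : HasDerivAt (fun a : ℝ => ((1 - Real.cos a : ℝ) : ℂ)) ((Real.sin a : ℝ) : ℂ) a := by
        have := ((Real.hasDerivAt_cos a).const_sub 1)
        rw [neg_neg] at this
        exact this.ofReal_comp
      have := h2.const_mul (-I * u : ℂ)
      simpa using this
    have := (h2.cexp).div_const (-I * u)
    refine this.congr_deriv ?_
    simp only [he]
    rw [mul_div_assoc, mul_div_cancel_left₀ _ hIu]
  have hUc : ContinuousOn (fun a : ℝ => (deriv w a * Real.sin a - w a * Real.cos a) / (Real.sin a : ℂ) ^ 2) (uIcc ρ β) := by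
    apply ContinuousOn.div
    · have := hw.continuous_deriv (by simp)
      fun_prop
    · fun_prop
    · intro a ha
      have : (Real.sin a : ℂ) ≠ 0 := by exact_mod_cast (hsin a ha).ne'
      exact pow_ne_zero _ this
  have hby := intervalIntegral.integral_mul_deriv_eq_deriv_mul hUd hVd hUc.intervalIntegrable
    (Continuous.intervalIntegrable (by fun_prop) _ _)
  have e1 : ∫ a in ρ..β, w a * e a = ∫ a in ρ..β, U a * (e a * Real.sin a) := by
    apply intervalIntegral.integral_congr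
    intro a ha
    have : (Real.sin a : ℂ) ≠ 0 := by exact_mod_cast (hsin a ha).ne'
    simp only [hU]
    field_simp
  have hVn : ∀ a, ‖V a‖ = u⁻¹ := by
    intro a
    simp only [hV]
    rw [norm_div, norm_exp_bI, norm_mul, norm_neg, Complex.norm_I, one_mul, Complex.norm_real,
      Real.norm_of_nonneg hu0.le, one_div]
  have hUβ : U β = 0 := by
    simp only [hU]; rw [hs β le_rfl (by rw [hβ]; linarith), zero_div]
  have hinv : ∀ a ∈ uIcc ρ β, (Real.sin a)⁻¹ ≤ 2 * Real.pi / a := by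
    intro a ha
    have h5 := ha
    rw [uIcc_of_le hβ1.le] at h5
    have h0 : 0 < a := lt_of_lt_of_le hρ0 h5.1
    have := sin_lower h0.le h5.2
    rw [inv_le_comm₀ (hsin a ha) (by positivity), inv_div]
    exact this
  have b1 : ‖U ρ * V ρ‖ ≤ 8 * B / (ρ * u) := by
    rw [norm_mul, hVn]
    simp only [hU]
    rw [norm_div, Complex.norm_real, Real.norm_of_nonneg (hsin ρ left_mem_uIcc).le, div_eq_mul_inv]
    have h6 := hinv ρ left_mem_uIcc
    have h7 : 0 ≤ (Real.sin ρ)⁻¹ := inv_nonneg.2 (hsin ρ left_mem_uIcc).le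
    calc ‖w ρ‖ * (Real.sin ρ)⁻¹ * u⁻¹ ≤ B * (2 * Real.pi / ρ) * u⁻¹ := by
          have := hB ρ
          gcongr
      _ ≤ B * (8 / ρ) * u⁻¹ := by gcongr; linarith
      _ = 8 * B / (ρ * u) := by field_simp
  have b2 : ‖∫ a in ρ..β, (deriv w a * Real.sin a - w a * Real.cos a) / (Real.sin a : ℂ) ^ 2 * V a‖ ≤ 90 * B / (ρ * u) := by
    have hle : ∀ a ∈ uIcc ρ β, ‖(deriv w a * Real.sin a - w a * Real.cos a) / (Real.sin a : ℂ) ^ 2 * V a‖ ≤
        90 * B / u * (a ^ 2)⁻¹ := by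
      intro a ha
      have h5 := ha
      rw [uIcc_of_le hβ1.le] at h5
      have h0 : 0 < a := lt_of_lt_of_le hρ0 h5.1
      rw [norm_mul, hVn, norm_div, norm_pow, Complex.norm_real, Real.norm_of_nonneg (hsin a ha).le]
      have hsa := hsin a ha
      have h8 : ‖deriv w a * (Real.sin a : ℂ) - w a * (Real.cos a : ℂ)‖ ≤ B * Real.sin a + B := by
        refine (norm_sub_le _ _).trans ?_
        rw [norm_mul, norm_mul, Complex.norm_real, Complex.norm_real, Real.norm_of_nonneg hsa.le, Real.norm_eq_abs]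
        have h9 := hB' a
        have h10 := hB a
        have h11 := Real.abs_cos_le_one a
        calc ‖deriv w a‖ * Real.sin a + ‖w a‖ * |Real.cos a| ≤ B * Real.sin a + B * 1 := by gcongr
          _ = _ := by ring
      have h12 : (B * Real.sin a + B) / Real.sin a ^ 2 ≤ 90 * B * (a ^ 2)⁻¹ := by
        have h13 := hinv a ha
        have e3 : (B * Real.sin a + B) / Real.sin a ^ 2 = B * ((Real.sin a)⁻¹ + (Real.sin a)⁻¹ ^ 2) := by
          field_simp
        rw [e3]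
        have h14 : 0 ≤ (Real.sin a)⁻¹ := inv_nonneg.2 hsa.le
        have hpi2 : Real.pi < 3.15 := Real.pi_lt_d2
        have h15 : (Real.sin a)⁻¹ ≤ 6.3 / a := h13.trans (by gcongr; linarith)
        have h16 : a ≤ 2.4 := by rw [hβ] at h5; linarith [h5.2]
        calc B * ((Real.sin a)⁻¹ + (Real.sin a)⁻¹ ^ 2) ≤ B * (6.3 / a + (6.3 / a) ^ 2) := by gcongr
          _ = B * (6.3 * a + 39.69) * (a ^ 2)⁻¹ := by field_simp; ring
          _ ≤ B * 90 * (a ^ 2)⁻¹ := by gcongr; linarith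
          _ = _ := by ring
      calc _ ≤ (B * Real.sin a + B) / Real.sin a ^ 2 * u⁻¹ := by gcongr
        _ ≤ 90 * B * (a ^ 2)⁻¹ * u⁻¹ := by gcongr
        _ = _ := by ring
    have hci : IntervalIntegrable (fun a : ℝ => 90 * B / u * (a ^ 2)⁻¹) volume ρ β := by
      apply ContinuousOn.intervalIntegrable
      apply ContinuousOn.mul continuousOn_const
      apply ContinuousOn.inv₀ (by fun_prop)
      intro a ha
      rw [uIcc_of_le hβ1.le] at ha
      have : 0 < a := lt_of_lt_of_le hρ0 ha.1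
      positivity
    have hint : ∫ a in ρ..β, (90 * B / u * (a ^ 2)⁻¹) = 90 * B / u * (ρ⁻¹ - β⁻¹) := by
      have := intervalIntegral.integral_eq_sub_of_hasDerivAt (a := ρ) (b := β)
        (f := fun a : ℝ => -(90 * B / u * a⁻¹)) (f' := fun a : ℝ => 90 * B / u * (a ^ 2)⁻¹) (by
          intro a ha
          rw [uIcc_of_le hβ1.le] at ha
          have : a ≠ 0 := (lt_of_lt_of_le hρ0 ha.1).ne'
          have := ((hasDerivAt_inv this).const_mul (90 * B / u)).neg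
          refine this.congr_deriv ?_
          ring) hci
      rw [this]; ring
    refine (intervalIntegral.norm_integral_le_of_norm_le hβ1.le ?_ hci).trans ?_
    · filter_upwards with a ha
      exact hle a (by rw [uIcc_of_le hβ1.le]; exact ⟨ha.1.le, ha.2⟩)
    · rw [hint]
      have : 0 ≤ β⁻¹ := by positivity
      calc 90 * B / u * (ρ⁻¹ - β⁻¹) ≤ 90 * B / u * ρ⁻¹ := by gcongr; linarith
        _ = _ := by field_simp
  have h2 : ‖∫ a in ρ..β, w a * e a‖ ≤ 98 * B / (ρ * u) := by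
    rw [e1, hby, hUβ, zero_mul, zero_sub]
    refine (norm_sub_le _ _).trans ?_
    rw [norm_neg]
    calc _ ≤ 8 * B / (ρ * u) + 90 * B / (ρ * u) := add_le_add b1 b2
      _ = _ := by ring
  change ‖∫ a in (0:ℝ)..Real.pi, w a * e a‖ ≤ 100 * B * ρ
  rw [hsplit, h3, add_zero]
  have e4 : (ρ * u)⁻¹ = ρ := by
    rw [inv_eq_iff_eq_inv]
    field_simp
    linarith
  calc _ ≤ B * ρ + 98 * B / (ρ * u) := (norm_add_le _ _).trans (add_le_add h1 h2)
    _ = B * ρ + 98 * B * ρ := by rw [div_eq_mul_inv, e4]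
    _ ≤ 100 * B * ρ := by nlinarith [mul_nonneg hB0 hρ0.le]


theorem bI_bound {w : ℝ → ℂ} (h : Wcl w) {B : ℝ} (hB : ∀ a, ‖w a‖ ≤ B) (hB' : ∀ a, ‖deriv w a‖ ≤ B)
    {u : ℝ} (hu : 0 < u) : ‖bI w u‖ ≤ 400 * B * (1 + u) ^ (-(1/2:ℝ)) := by
  have hpi := Real.pi_pos
  have hpi4 := Real.pi_lt_four
  have hB0 : 0 ≤ B := (norm_nonneg _).trans (hB 0)
  rcases le_total 1 u with h1 | h1
  · -- large u
    have hz : ∀ a, 3 * Real.pi / 4 ≤ a → a ≤ Real.pi → w a = 0 := by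
      intro a h0 h2
      by_contra hne
      exact absurd (h.supp a hne) (not_le.2 (cos_upper h0 h2))
    have hz2 : ∀ a, 3 * Real.pi / 4 ≤ a → a ≤ Real.pi → w (-a) = 0 := by
      intro a h0 h2
      by_contra hne
      have := h.supp (-a) hne
      rw [Real.cos_neg] at this
      exact absurd this (not_le.2 (cos_upper h0 h2))
    have k1 := half_bound h.smooth hz hB hB' h1
    have hwn : ContDiff ℝ ∞ (fun a => w (-a)) := h.smooth.comp (by fun_prop)
    have k2 := half_bound (w := fun a => w (-a)) hwn hz2 (fun a => hB _) (by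
      intro a
      rw [deriv_comp_neg, norm_neg]; exact hB' _) h1
    have hwc := h.smooth.continuous
    have e1 : bI w u = (∫ a in (-Real.pi)..0, w a * cexp (-I * u * (1 - Real.cos a))) +
        ∫ a in (0:ℝ)..Real.pi, w a * cexp (-I * u * (1 - Real.cos a)) := by
      unfold bI
      rw [intervalIntegral.integral_add_adjacent_intervals]
      all_goals exact Continuous.intervalIntegrable (by fun_prop) _ _
    have e2 : ∫ a in (-Real.pi)..0, w a * cexp (-I * u * (1 - Real.cos a)) =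
        ∫ a in (0:ℝ)..Real.pi, w (-a) * cexp (-I * u * (1 - Real.cos a)) := by
      have := intervalIntegral.integral_comp_neg (a := 0) (b := Real.pi)
        (fun a => w a * cexp (-I * u * (1 - Real.cos a)))
      rw [neg_zero] at this
      rw [← this]
      congr 1
      ext a
      rw [Real.cos_neg]
    rw [e1, e2]
    have h3 : u ^ (-(1/2:ℝ)) ≤ 2 * (1 + u) ^ (-(1/2:ℝ)) := by
      have h4 : (1 + u) ^ (1/2:ℝ) ≤ 2 * u ^ (1/2:ℝ) := by
        calc (1 + u) ^ (1/2:ℝ) ≤ (4 * u) ^ (1/2:ℝ) := by gcongr; linarith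
          _ = 2 * u ^ (1/2:ℝ) := by
            rw [Real.mul_rpow (by norm_num) hu.le]
            congr 1
            rw [← Real.sqrt_eq_rpow, show (4:ℝ) = 2 ^ 2 by norm_num, Real.sqrt_sq (by norm_num)]
      rw [Real.rpow_neg hu.le, Real.rpow_neg (by linarith), ← div_eq_mul_inv, le_div_iff₀ (by positivity),
        inv_mul_le_iff₀ (by positivity)]
      linarith
    calc _ ≤ 100 * B * u ^ (-(1/2:ℝ)) + 100 * B * u ^ (-(1/2:ℝ)) := (norm_add_le _ _).trans (add_le_add k2 k1)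
      _ = 200 * B * u ^ (-(1/2:ℝ)) := by ring
      _ ≤ 200 * B * (2 * (1 + u) ^ (-(1/2:ℝ))) := by gcongr
      _ = _ := by ring
  · have h2 : ‖bI w u‖ ≤ B * |Real.pi - -Real.pi| := by
      apply intervalIntegral.norm_integral_le_of_norm_le_const
      intro a _
      rw [norm_mul, norm_exp_bI, mul_one]; exact hB a
    have h3 : |Real.pi - -Real.pi| ≤ 8 := by
      rw [abs_of_pos (by linarith)]; linarith
    have h4 : (1/2 : ℝ) ≤ (1 + u) ^ (-(1/2:ℝ)) := by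
      rw [Real.rpow_neg (by linarith), le_inv_comm₀ (by norm_num) (by positivity)]
      calc (1 + u) ^ (1/2:ℝ) ≤ 4 ^ (1/2:ℝ) := by gcongr; linarith
        _ = 2 := by rw [← Real.sqrt_eq_rpow, show (4:ℝ) = 2 ^ 2 by norm_num, Real.sqrt_sq (by norm_num)]
        _ = (1/2)⁻¹ := by norm_num
    calc ‖bI w u‖ ≤ B * 8 := h2.trans (by gcongr)
      _ = 16 * B * (1/2) := by ring
      _ ≤ 400 * B * (1 + u) ^ (-(1/2:ℝ)) := by gcongr; norm_num

/-- iterates of L -/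
theorem Wcl.iter {w : ℝ → ℂ} (h : Wcl w) (n : ℕ) : Wcl (P117.Lop^[n] w) := by
  induction n with
  | zero => exact h
  | succ n ih => rw [Function.iterate_succ_apply']; exact ih.Lop

theorem iteratedDeriv_bI {w : ℝ → ℂ} (h : Wcl w) (U : ℝ) (n : ℕ) :
    iteratedDeriv n (fun τ : ℝ => bI w (U * Real.exp τ)) = fun τ => bI (P117.Lop^[n] w) (U * Real.exp τ) := by
  induction n with
  | zero => ext τ; simp
  | succ n ih =>
    rw [iteratedDeriv_succ, ih]
    ext τ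
    rw [Function.iterate_succ_apply', (hasDerivAt_bI (h.iter n) U τ).deriv]

theorem contDiff_bI {w : ℝ → ℂ} (h : Wcl w) (U : ℝ) : ContDiff ℝ ∞ (fun τ : ℝ => bI w (U * Real.exp τ)) := by
  apply contDiff_infty.2
  intro n
  apply contDiff_of_differentiable_iteratedDeriv
  intro m _
  rw [iteratedDeriv_bI h]
  intro τ
  exact (hasDerivAt_bI (h.iter m) U τ).differentiableAt

end Vale.Agent.P117
end
end

section

section

open MeasureTheory Complex Set Filter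
open scoped ENNReal NNReal ContDiff FourierTransform ComplexConjugate Topology SchwartzMap

namespace Vale.Agent.P117

theorem DB.of_periodic {f : ℝ → ℂ} (hf : ContDiff ℝ ∞ f) (hp : Function.Periodic f (2 * Real.pi)) (n : ℕ) :
    ∃ C : ℝ, 0 ≤ C ∧ ∀ a, DB n C f a := by
  have hb : ∀ i : ℕ, ∃ C : ℝ, ∀ a, ‖iteratedFDeriv ℝ i f a‖ ≤ C := by
    intro i
    have hc : Continuous (iteratedFDeriv ℝ i f) := hf.continuous_iteratedFDeriv
      (by exact_mod_cast le_top)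
    obtain ⟨C, hC⟩ := (isCompact_Icc (a := (0:ℝ)) (b := 2 * Real.pi)).exists_bound_of_continuousOn hc.continuousOn
    refine ⟨C, fun a => ?_⟩
    have hper : Function.Periodic (fun a => iteratedFDeriv ℝ i f a) (2 * Real.pi) := by
      intro a
      simp only
      rw [← iteratedFDeriv_comp_add_right]
      congr 1
      ext z
      exact hp z
    obtain ⟨b, hb, hab⟩ := hper.exists_mem_Ico₀ (by positivity) a
    rw [hab]
    exact hC b ⟨hb.1, hb.2.le⟩
  choose C hC using hb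
  refine ⟨∑ i ∈ Finset.range (n + 1), |C i|, Finset.sum_nonneg fun i _ => abs_nonneg _, ?_⟩
  intro t i hi
  refine ((hC i t).trans (le_abs_self _)).trans ?_
  exact Finset.single_le_sum (f := fun i => |C i|) (fun _ _ => abs_nonneg _) (Finset.mem_range.2 (by omega))

theorem DB.deriv {f : ℝ → ℂ} {n : ℕ} {B : ℝ} {a : ℝ} (h : DB (n + 1) B f a) : DB n B (deriv f) a := by
  intro i hi
  have := h (i + 1) (by omega)
  rw [norm_iteratedFDeriv_eq_norm_iteratedDeriv] at this ⊢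
  rwa [iteratedDeriv_succ'] at this

theorem DB.neg {f : ℝ → ℂ} {n : ℕ} {B : ℝ} {a : ℝ} (h : DB n B f a) : DB n B (fun x => - f x) a := by
  intro i hi
  have := h i hi
  rw [norm_iteratedFDeriv_eq_norm_iteratedDeriv] at this ⊢
  have e : iteratedDeriv i (fun x => - f x) a = - iteratedDeriv i f a := by
    have := iteratedDeriv_neg (𝕜 := ℝ) i f a
    exact this
  rw [e, norm_neg]; exact this

theorem kpa_DB (n : ℕ) : ∃ C : ℝ, 0 ≤ C ∧ ∀ a, DB n C (fun a => (kpa a : ℂ)) a := by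
  apply DB.of_periodic
  · exact Complex.ofRealCLM.contDiff.comp contDiff_kpa
  · intro a
    simp only
    rw [kpa_periodic]

theorem Lop_DB (n : ℕ) : ∃ C : ℝ, 0 ≤ C ∧ ∀ (w : ℝ → ℂ) (B : ℝ), Wcl w → (∀ a, DB (n + 1) B w a) →
    ∀ a, DB n (C * B) (Lop w) a := by
  obtain ⟨C, hC, h⟩ := kpa_DB (n + 1)
  refine ⟨2 ^ (n + 1) * C, by positivity, ?_⟩
  intro w B hw hB a
  have h1 := DB.mul (Complex.ofRealCLM.contDiff.comp contDiff_kpa) hw.smooth (h a) (hB a)
  exact (DB.deriv h1).neg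

theorem Lop_iter_DB (n i : ℕ) : ∃ C : ℝ, 0 ≤ C ∧ ∀ (w : ℝ → ℂ) (B : ℝ), Wcl w → (∀ a, DB (n + i) B w a) →
    ∀ a, DB n (C * B) (Lop^[i] w) a := by
  induction i generalizing n with
  | zero => exact ⟨1, by norm_num, fun w B _ hB a => by simpa using hB a⟩
  | succ i ih =>
    obtain ⟨C1, hC1, h1⟩ := ih (n + 1)
    obtain ⟨C2, hC2, h2⟩ := Lop_DB n
    refine ⟨C2 * C1, by positivity, ?_⟩
    intro w B hw hB a
    rw [Function.iterate_succ_apply']
    have := h2 (Lop^[i] w) (C1 * B) (hw.iter i) (h1 w B hw (fun a => by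
      have := hB a
      rwa [show n + 1 + i = n + (i + 1) by ring])) a
    rwa [← mul_assoc] at this

/-- the cut-off near the stationary point -/
noncomputable def wm (m : ℤ) (a : ℝ) : ℂ :=
  (Real.smoothTransition (Real.cos a + 1/2) : ℂ) * (Real.cos (m * a) : ℂ)

theorem wm_wcl (m : ℤ) : Wcl (wm m) := by
  refine ⟨?_, ?_⟩
  · unfold wm
    apply ContDiff.mul
    · exact Complex.ofRealCLM.contDiff.comp (contDiff_st.comp (Real.contDiff_cos.add contDiff_const))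
    · exact Complex.ofRealCLM.contDiff.comp (Real.contDiff_cos.comp (by fun_prop))
  · intro a ha
    by_contra hcon
    push Not at hcon
    apply ha
    unfold wm
    rw [Real.smoothTransition.zero_of_nonpos (by linarith)]; simp

theorem wm_DB (n : ℕ) : ∃ C : ℝ, 0 ≤ C ∧ ∀ (m : ℤ) (a : ℝ), DB n (C * (1 + |(m:ℝ)|) ^ n) (wm m) a := by
  obtain ⟨C1, hC1, h1⟩ := DB.of_periodic (f := fun a => (Real.smoothTransition (Real.cos a + 1/2) : ℂ))
    (Complex.ofRealCLM.contDiff.comp (contDiff_st.comp (Real.contDiff_cos.add contDiff_const)))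
    (by intro a; simp only; rw [Real.cos_add_two_pi]) n
  have hcos : ContDiff ℝ ∞ (fun a => (Real.cos a : ℂ)) := Complex.ofRealCLM.contDiff.comp Real.contDiff_cos
  obtain ⟨C2, hC2, h2⟩ := DB.of_periodic (f := fun a => (Real.cos a : ℂ)) hcos
    (by intro a; simp only; rw [Real.cos_add_two_pi]) n
  refine ⟨2 ^ n * C1 * C2, by positivity, ?_⟩
  intro m a
  have h3 : DB n (C2 * (1 + |(m:ℝ)|) ^ n) (fun a => (Real.cos (m * a) : ℂ)) a := by
    intro i hi
    rw [norm_iteratedFDeriv_eq_norm_iteratedDeriv]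
    have e : iteratedDeriv i (fun a : ℝ => (Real.cos (m * a) : ℂ)) =
        fun a => (m:ℝ) ^ i • iteratedDeriv i (fun a : ℝ => (Real.cos a : ℂ)) (m * a) :=
      iteratedDeriv_comp_const_smul (hcos.of_le (by exact_mod_cast le_top)) (m:ℝ)
    rw [e]
    simp only
    rw [norm_smul, norm_pow, Real.norm_eq_abs]
    have h4 := h2 (m * a) i hi
    rw [norm_iteratedFDeriv_eq_norm_iteratedDeriv] at h4
    have h5 : |(m:ℝ)| ^ i ≤ (1 + |(m:ℝ)|) ^ n := by
      calc |(m:ℝ)| ^ i ≤ (1 + |(m:ℝ)|) ^ i := by gcongr; linarith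
        _ ≤ (1 + |(m:ℝ)|) ^ n := pow_le_pow_right₀ (by linarith [abs_nonneg (m:ℝ)]) hi
    calc |(m:ℝ)| ^ i * ‖iteratedDeriv i (fun a : ℝ => (Real.cos a : ℂ)) (m * a)‖ ≤ (1 + |(m:ℝ)|) ^ n * C2 := by gcongr
      _ = _ := by ring
  have := DB.mul (Complex.ofRealCLM.contDiff.comp (contDiff_st.comp (Real.contDiff_cos.add contDiff_const)))
    (hcos.comp (by fun_prop : ContDiff ℝ ∞ (fun a : ℝ => (m:ℝ) * a))) (h1 a) h3
  refine this.mono (le_of_eq ?_)
  ring

/-- cut-off in tau -/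
noncomputable def chit (τ : ℝ) : ℂ :=
  ((Real.smoothTransition (10 * (31/10 + τ)) * Real.smoothTransition (10 * (31/10 - τ)) : ℝ) : ℂ)

theorem contDiff_chit : ContDiff ℝ ∞ chit := by
  unfold chit
  have h := contDiff_st
  exact Complex.ofRealCLM.contDiff.comp ((h.comp (by fun_prop)).mul (h.comp (by fun_prop)))

theorem chit_one {τ : ℝ} (h : |τ| ≤ 3) : chit τ = 1 := by
  rw [abs_le] at h
  unfold chit
  rw [Real.smoothTransition.one_of_one_le (by linarith), Real.smoothTransition.one_of_one_le (by linarith)]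
  simp

theorem chit_supp {τ : ℝ} (h : chit τ ≠ 0) : |τ| ≤ 31/10 := by
  by_contra hcon
  push Not at hcon
  apply h
  unfold chit
  rcases lt_abs.1 hcon with h | h
  · rw [Real.smoothTransition.zero_of_nonpos (show 10 * (31/10 - τ) ≤ 0 by linarith)]; simp
  · rw [Real.smoothTransition.zero_of_nonpos (show 10 * (31/10 + τ) ≤ 0 by linarith)]; simp

theorem chit_DB (n : ℕ) : ∃ C : ℝ, 0 ≤ C ∧ ∀ τ, DB n C chit τ := by
  apply DB.exists_of_compact contDiff_chit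
  apply HasCompactSupport.of_support_subset_isCompact (isCompact_Icc (a := (-(31/10):ℝ)) (b := 31/10))
  intro t ht
  exact abs_le.1 (chit_supp ht)

theorem bI_DB (n : ℕ) : ∃ C : ℝ, 0 ≤ C ∧ ∀ (m : ℤ) (U : ℝ), 0 < U → ∀ τ : ℝ, -(31/10) ≤ τ →
    DB n (C * (1 + |(m:ℝ)|) ^ (n + 1) * (1 + U) ^ (-(1/2:ℝ))) (fun τ : ℝ => bI (wm m) (U * Real.exp τ)) τ := by
  have h1 : ∀ i : ℕ, ∃ C : ℝ, 0 ≤ C ∧ ∀ (m : ℤ) (a : ℝ), DB 1 (C * (1 + |(m:ℝ)|) ^ (1 + i)) (Lop^[i] (wm m)) a := by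
    intro i
    obtain ⟨C1, hC1, h1⟩ := Lop_iter_DB 1 i
    obtain ⟨C2, hC2, h2⟩ := wm_DB (1 + i)
    refine ⟨C1 * C2, by positivity, ?_⟩
    intro m a
    have := h1 (wm m) _ (wm_wcl m) (h2 m) a
    rwa [← mul_assoc] at this
  choose C hC0 hC using h1
  refine ⟨4000 * ∑ i ∈ Finset.range (n + 1), C i, mul_nonneg (by norm_num) (Finset.sum_nonneg fun i _ => hC0 i), ?_⟩
  intro m U hU τ hτ i hi
  rw [norm_iteratedFDeriv_eq_norm_iteratedDeriv, iteratedDeriv_bI (wm_wcl m)]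
  simp only
  have hpos : 0 < U * Real.exp τ := by positivity
  have hm1 : 1 ≤ 1 + |(m:ℝ)| := by linarith [abs_nonneg (m:ℝ)]
  have hb := bI_bound ((wm_wcl m).iter i) (B := C i * (1 + |(m:ℝ)|) ^ (1 + i)) (by
    intro a
    have := hC i m a 0 (by norm_num)
    rwa [norm_iteratedFDeriv_zero] at this) (by
    intro a
    have := hC i m a 1 le_rfl
    rwa [norm_iteratedFDeriv_eq_norm_iteratedDeriv, iteratedDeriv_one] at this) hpos
  refine hb.trans ?_
  have hexp : (1:ℝ) / 100 ≤ Real.exp τ := by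
    have h2 : Real.exp (-(31/10)) ≤ Real.exp τ := Real.exp_le_exp.2 hτ
    have h3 : (1:ℝ)/100 ≤ Real.exp (-(31/10)) := by
      rw [Real.exp_neg, one_div]
      apply inv_anti₀ (Real.exp_pos _)
      have h4 : Real.exp (31/10) = Real.exp 1 ^ (31/10 : ℝ) := by rw [← Real.exp_one_rpow]
      have h5 : Real.exp 1 < 2.7182818286 := Real.exp_one_lt_d9
      calc Real.exp (31/10) ≤ Real.exp (4:ℕ) := by apply Real.exp_le_exp.2; norm_num
        _ = Real.exp 1 ^ 4 := by rw [← Real.exp_nat_mul]; simp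
        _ ≤ 2.7182818286 ^ 4 := by gcongr
        _ ≤ 100 := by norm_num
    linarith
  have hU2 : (1 + U * Real.exp τ) ^ (-(1/2:ℝ)) ≤ 10 * (1 + U) ^ (-(1/2:ℝ)) := by
    rw [Real.rpow_neg (by positivity), Real.rpow_neg (by positivity), ← div_eq_mul_inv, le_div_iff₀ (by positivity),
      inv_mul_le_iff₀ (by positivity)]
    calc (1 + U) ^ (1/2:ℝ) ≤ (100 * (1 + U * Real.exp τ)) ^ (1/2:ℝ) := by
          gcongr
          nlinarith
      _ = 10 * (1 + U * Real.exp τ) ^ (1/2:ℝ) := by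
          rw [Real.mul_rpow (by norm_num) (by positivity)]
          congr 1
          rw [← Real.sqrt_eq_rpow, show (100:ℝ) = 10 ^ 2 by norm_num, Real.sqrt_sq (by norm_num)]
      _ = (1 + U * Real.exp τ) ^ (1/2:ℝ) * 10 := by ring
  have hsum : C i ≤ ∑ i ∈ Finset.range (n + 1), C i :=
    Finset.single_le_sum (fun i _ => hC0 i) (Finset.mem_range.2 (by omega))
  have hmp : (1 + |(m:ℝ)|) ^ (1 + i) ≤ (1 + |(m:ℝ)|) ^ (n + 1) := pow_le_pow_right₀ hm1 (by omega)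
  have := hC0 i
  have hS0 : 0 ≤ ∑ i ∈ Finset.range (n + 1), C i := this.trans hsum
  have hS1 : 0 ≤ 400 * ((∑ i ∈ Finset.range (n + 1), C i) * (1 + |(m:ℝ)|) ^ (n + 1)) := by positivity
  calc 400 * (C i * (1 + |(m:ℝ)|) ^ (1 + i)) * (1 + U * Real.exp τ) ^ (-(1/2:ℝ))
      ≤ 400 * ((∑ i ∈ Finset.range (n + 1), C i) * (1 + |(m:ℝ)|) ^ (n + 1)) * (10 * (1 + U) ^ (-(1/2:ℝ))) := by gcongr
    _ = _ := by ring

/-- T10: the amplitude in separated form -/
theorem T10_amp (M : ℕ) : ∃ C : ℝ, 0 ≤ C ∧ ∀ (m : ℤ) (U : ℝ), 0 < U → ∃ c : ℝ → ℂ, Continuous c ∧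
    (∀ η, (1 + |η|) ^ M * ‖c η‖ ≤ C * (1 + |(m:ℝ)|) ^ (M + 1) * (1 + U) ^ (-(1/2:ℝ))) ∧
    ∀ τ : ℝ, |τ| ≤ 3 → bI (wm m) (U * Real.exp τ) = ∫ η : ℝ, cexp (((2 * Real.pi * (η * τ) : ℝ) : ℂ) * I) * c η := by
  obtain ⟨C1, hC1, h1⟩ := bI_DB M
  obtain ⟨C2, hC2, h2⟩ := chit_DB M
  obtain ⟨C3, hC3, h3⟩ := fourier_decay (V := ℝ) M (31/10)
  refine ⟨C3 * (2 ^ M * C1 * C2), by positivity, ?_⟩
  intro m U hU
  set G : ℝ → ℂ := fun τ => bI (wm m) (U * Real.exp τ) * chit τ with hG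
  have hGs : ContDiff ℝ ∞ G := (contDiff_bI (wm_wcl m) U).mul contDiff_chit
  have hGsupp : ∀ τ, G τ ≠ 0 → ‖τ‖ ≤ 31/10 := fun τ h => chit_supp (right_ne_zero_of_mul h)
  have hGcs : HasCompactSupport G := by
    apply HasCompactSupport.of_support_subset_isCompact (isCompact_Icc (a := (-(31/10):ℝ)) (b := 31/10))
    intro t ht
    exact abs_le.1 (hGsupp t ht)
  have hDB : ∀ τ, ‖τ‖ ≤ 31/10 → DB M (2 ^ M * (C1 * (1 + |(m:ℝ)|) ^ (M + 1) * (1 + U) ^ (-(1/2:ℝ))) * C2) G τ := by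
    intro τ hτ
    exact DB.mul (contDiff_bI (wm_wcl m) U) contDiff_chit (h1 m U hU τ (abs_le.1 hτ).1) (h2 τ)
  have hdec := h3 G _ hGs hGsupp hDB (by positivity)
  set GS : 𝓢(ℝ, ℂ) := hGcs.toSchwartzMap hGs with hGS
  have hcoe : (GS : ℝ → ℂ) = G := rfl
  refine ⟨𝓕 G, ?_, ?_, ?_⟩
  · rw [← hcoe, ← SchwartzMap.fourier_coe]
    exact (𝓕 GS : 𝓢(ℝ, ℂ)).continuous
  · intro η
    have := hdec η
    rw [Real.norm_eq_abs] at this
    refine this.trans (le_of_eq ?_)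
    ring
  · intro τ hτ
    have e1 : bI (wm m) (U * Real.exp τ) = G τ := by
      simp only [hG]
      rw [chit_one hτ, mul_one]
    rw [e1]
    have e2 : 𝓕⁻ (𝓕 G) τ = G τ := by
      have hI : Integrable G := hGs.continuous.integrable_of_hasCompactSupport hGcs
      have hI2 : Integrable (𝓕 G) := by
        rw [← hcoe, ← SchwartzMap.fourier_coe]
        exact (𝓕 GS : 𝓢(ℝ, ℂ)).integrable
      rw [hGs.continuous.fourierInv_fourier_eq hI hI2]
    rw [← e2, Real.fourierInv_eq']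
    congr 1
    ext η
    rw [smul_eq_mul]
    congr 4
    simp [mul_comm]

/-- decomposition of the Bessel type integral -/
theorem J_eq (m : ℤ) (u : ℝ) :
    ∫ α in (-Real.pi)..Real.pi, cexp (I * u * Real.cos α) * (Real.cos (m * α) : ℂ) =
      cexp (I * u) * bI (wm m) u + (-1) ^ m * (cexp (-I * u) * conj (bI (wm m) u)) := by
  set ζ : ℝ → ℝ := fun c => Real.smoothTransition (c + 1/2) with hζ
  have hζ1 : ∀ c, ζ c + ζ (-c) = 1 := by
    intro c
    simp only [hζ]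
    have h := Real.smoothTransition.pos_denom (c + 1/2)
    have e1 : Real.smoothTransition (-c + 1/2) = 1 - Real.smoothTransition (c + 1/2) := by
      have e2 : -c + 1/2 = 1 - (c + 1/2) := by ring
      rw [e2]
      unfold Real.smoothTransition
      have h' : 0 < expNegInvGlue (1 - (c + 1/2)) + expNegInvGlue (c + 1/2) := by linarith
      have e3 : 1 - (1 - (c + 1/2)) = c + 1/2 := by ring
      rw [e3, eq_sub_iff_add_eq, add_comm (expNegInvGlue (c + 1/2)) (expNegInvGlue (1 - (c + 1/2))),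
        ← add_div, div_self h'.ne']
    rw [e1]; ring
  have hζc : Continuous ζ := contDiff_st.continuous.comp (by fun_prop)
  have hsplit : ∫ α in (-Real.pi)..Real.pi, cexp (I * u * Real.cos α) * (Real.cos (m * α) : ℂ) =
      (∫ α in (-Real.pi)..Real.pi, (ζ (Real.cos α) : ℂ) * (cexp (I * u * Real.cos α) * (Real.cos (m * α) : ℂ))) +
      ∫ α in (-Real.pi)..Real.pi, (ζ (-Real.cos α) : ℂ) * (cexp (I * u * Real.cos α) * (Real.cos (m * α) : ℂ)) := by
    rw [← intervalIntegral.integral_add]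
    · congr 1
      ext α
      rw [← add_mul, ← Complex.ofReal_add, hζ1]; simp
    · exact Continuous.intervalIntegrable (by fun_prop) _ _
    · exact Continuous.intervalIntegrable (by fun_prop) _ _
  rw [hsplit]
  congr 1
  · unfold bI
    rw [← intervalIntegral.integral_const_mul]
    congr 1
    ext α
    have : cexp (I * u * Real.cos α) = cexp (I * u) * cexp (-I * u * (1 - Real.cos α)) := by
      rw [← Complex.exp_add]; congr 1; ring
    rw [this]
    simp only [wm, hζ]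
    ring
  · set f : ℝ → ℂ := fun α => (ζ (-Real.cos α) : ℂ) * (cexp (I * u * Real.cos α) * (Real.cos (m * α) : ℂ)) with hf
    have hper : Function.Periodic f (2 * Real.pi) := by
      intro α
      simp only [hf]
      rw [Real.cos_add_two_pi]
      congr 3
      have : (m:ℝ) * (α + 2 * Real.pi) = m * α + m * (2 * Real.pi) := by ring
      rw [this, Real.cos_add_int_mul_two_pi]
    have e1 : ∫ α in (-Real.pi)..Real.pi, f α = ∫ α in (-Real.pi)..Real.pi, f (α + Real.pi) := by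
      rw [intervalIntegral.integral_comp_add_right f Real.pi]
      have := hper.intervalIntegral_add_eq (-Real.pi) 0
      have e2 : -Real.pi + 2 * Real.pi = Real.pi := by ring
      have e3 : -Real.pi + Real.pi = 0 := by ring
      have e4 : Real.pi + Real.pi = 2 * Real.pi := by ring
      rw [e2, zero_add] at this
      rw [e3, e4]
      exact this
    rw [e1]
    unfold bI
    have hconj : conj (∫ a in (-Real.pi)..Real.pi, wm m a * cexp (-I * u * (1 - Real.cos a))) =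
        ∫ a in (-Real.pi)..Real.pi, conj (wm m a * cexp (-I * u * (1 - Real.cos a))) := by
      rw [intervalIntegral.integral_of_le (by linarith [Real.pi_pos]),
        intervalIntegral.integral_of_le (by linarith [Real.pi_pos])]
      exact integral_conj.symm
    rw [hconj, ← intervalIntegral.integral_const_mul, ← intervalIntegral.integral_const_mul]
    congr 1
    ext α
    simp only [hf]
    have c1 : Real.cos (α + Real.pi) = -Real.cos α := Real.cos_add_pi α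
    have c2 : (Real.cos (m * (α + Real.pi)) : ℂ) = (-1) ^ m * (Real.cos (m * α) : ℂ) := by
      have : (m:ℝ) * (α + Real.pi) = m * α + m * Real.pi := by ring
      rw [this, Real.cos_add_int_mul_pi]
      push_cast
      rfl
    rw [c1, c2, neg_neg]
    simp only [wm, map_mul, Complex.conj_ofReal]
    rw [← Complex.exp_conj]
    simp only [map_mul, map_neg, map_sub, map_one, Complex.conj_I, Complex.conj_ofReal]
    have : cexp (I * u * ((-Real.cos α : ℝ) : ℂ)) = cexp (-I * u) * cexp (- -I * u * (1 - Real.cos α)) := by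
      rw [← Complex.exp_add]; congr 1; push_cast; ring
    rw [this]
    simp only [hζ]
    ring

end Vale.Agent.P117
end
end

section

section

open MeasureTheory Complex Set Filter
open scoped ENNReal NNReal ContDiff ComplexConjugate Topology

namespace Vale.Agent.P117

/-- powers of the modulus keeping the phase -/
noncomputable def pz (w : ℂ) (y : ℂ) : ℂ := if y = 0 then 0 else (y / ‖y‖) * cexp (Real.log ‖y‖ * w)

theorem norm_pz {w y : ℂ} (hy : y ≠ 0) : ‖pz w y‖ = ‖y‖ ^ w.re := by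
  unfold pz
  have hn : 0 < ‖y‖ := norm_pos_iff.2 hy
  rw [if_neg hy, norm_mul, norm_div, Complex.norm_real, norm_norm, div_self hn.ne', one_mul,
    Complex.norm_exp, Real.rpow_def_of_pos hn]
  congr 1
  simp

theorem pz_zero (w : ℂ) : pz w 0 = 0 := by simp [pz]

theorem pz_one (y : ℂ) : pz 1 y = y := by
  unfold pz
  split_ifs with h
  · exact h.symm
  · have hn : 0 < ‖y‖ := norm_pos_iff.2 h
    rw [mul_one, ← Complex.ofReal_exp, Real.exp_log hn]
    have : ((‖y‖ : ℝ) : ℂ) ≠ 0 := by exact_mod_cast hn.ne'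
    field_simp

section RT
variable {α β : Type*} [MeasurableSpace α] [MeasurableSpace β] {μ : Measure α} {ν' : Measure β}

theorem eLpNorm_pz_le {F : α → ℂ} {p e : ℝ≥0∞} (hp : 1 ≤ p) (hptop : p ≠ ⊤) (he : 1 ≤ e)
    (hF : eLpNorm F p μ ≤ 1) {w : ℂ} (hw : w.re = (1 / e).toReal * p.toReal) :
    eLpNorm (fun x => pz w (F x)) e μ ≤ 1 := by
  have hp0 : p ≠ 0 := fun h => by rw [h] at hp; exact absurd hp (by norm_num)
  have he0 : e ≠ 0 := fun h => by rw [h] at he; exact absurd he (by norm_num)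
  have hpr : 0 < p.toReal := ENNReal.toReal_pos hp0 hptop
  rcases eq_or_ne e ⊤ with rfl | hetop
  · have hw0 : w.re = 0 := by rw [hw]; simp
    rw [eLpNorm_exponent_top]
    have : eLpNormEssSup (fun x => pz w (F x)) μ ≤ ENNReal.ofReal 1 := by
      apply eLpNormEssSup_le_of_ae_bound
      filter_upwards with x
      by_cases h : F x = 0
      · rw [h, pz_zero, norm_zero]; norm_num
      · rw [norm_pz h, hw0, Real.rpow_zero]
    simpa using this
  · have her : 0 < e.toReal := ENNReal.toReal_pos he0 hetop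
    rw [eLpNorm_eq_lintegral_rpow_enorm_toReal he0 hetop]
    rw [eLpNorm_eq_lintegral_rpow_enorm_toReal hp0 hptop] at hF
    have h1 : ∫⁻ x, ‖F x‖ₑ ^ p.toReal ∂μ ≤ 1 := by
      by_contra hcon
      push Not at hcon
      have := ENNReal.one_lt_rpow hcon (by positivity : 0 < 1 / p.toReal)
      exact absurd hF (not_le.2 this)
    have h2 : ∀ x, ‖pz w (F x)‖ₑ ^ e.toReal = ‖F x‖ₑ ^ p.toReal := by
      intro x
      by_cases h : F x = 0
      · rw [h, pz_zero, enorm_zero, ENNReal.zero_rpow_of_pos her, ENNReal.zero_rpow_of_pos hpr]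
      · have hn : 0 < ‖F x‖ := norm_pos_iff.2 h
        rw [← ofReal_norm, norm_pz h, ← ENNReal.ofReal_rpow_of_pos hn, ← ENNReal.rpow_mul, ofReal_norm]
        congr 1
        rw [hw]
        simp only [one_div, ENNReal.toReal_inv]
        field_simp
    simp_rw [h2]
    exact ENNReal.rpow_le_one h1 (by positivity)

/-- bilinearity on admissible functions -/
structure BilAdm (μ : Measure α) (ν' : Measure β) (B : (α → ℂ) → (β → ℂ) → ℂ) : Prop where
  add1 : ∀ F F' G, Adm μ F → Adm μ F' → Adm ν' G → B (F + F') G = B F G + B F' G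
  add2 : ∀ F G G', Adm μ F → Adm ν' G → Adm ν' G' → B F (G + G') = B F G + B F G'
  sm1 : ∀ (c : ℂ) F G, Adm μ F → Adm ν' G → B (c • F) G = c * B F G
  sm2 : ∀ (c : ℂ) F G, Adm μ F → Adm ν' G → B F (c • G) = c * B F G

theorem Adm.zero : Adm μ (0 : α → ℂ) := ⟨measurable_zero, integrable_zero _ _ _, 0, by simp⟩

theorem Adm.finsum {ι : Type*} (s : Finset ι) {f : ι → α → ℂ} (hf : ∀ i ∈ s, Adm μ (f i)) :
    Adm μ (∑ i ∈ s, f i) := by
  classical
  induction s using Finset.induction_on with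
  | empty => simpa using Adm.zero
  | insert a s ha ih =>
    rw [Finset.sum_insert ha]
    exact (hf a (Finset.mem_insert_self _ _)).add (ih fun i hi => hf i (Finset.mem_insert_of_mem hi))

theorem BilAdm.sum1 {B : (α → ℂ) → (β → ℂ) → ℂ} (hB : BilAdm μ ν' B) {ι : Type*} (s : Finset ι)
    (c : ι → ℂ) (f : ι → α → ℂ) (hf : ∀ i ∈ s, Adm μ (f i)) {G : β → ℂ} (hG : Adm ν' G) :
    B (∑ i ∈ s, c i • f i) G = ∑ i ∈ s, c i * B (f i) G := by
  classical
  induction s using Finset.induction_on with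
  | empty =>
    have := hB.sm1 0 0 G Adm.zero hG
    simpa using this
  | insert a s ha ih =>
    have h1 := hf a (Finset.mem_insert_self _ _)
    have h2 := fun i hi => hf i (Finset.mem_insert_of_mem hi)
    rw [Finset.sum_insert ha, Finset.sum_insert ha, hB.add1 _ _ _ (h1.smul _)
      (Adm.finsum s fun i hi => (h2 i hi).smul _) hG, hB.sm1 _ _ _ h1 hG, ih h2]

theorem BilAdm.sum2 {B : (α → ℂ) → (β → ℂ) → ℂ} (hB : BilAdm μ ν' B) {ι : Type*} (s : Finset ι)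
    (c : ι → ℂ) (f : ι → β → ℂ) (hf : ∀ i ∈ s, Adm ν' (f i)) {F : α → ℂ} (hF : Adm μ F) :
    B F (∑ i ∈ s, c i • f i) = ∑ i ∈ s, c i * B F (f i) := by
  classical
  induction s using Finset.induction_on with
  | empty =>
    have := hB.sm2 0 F 0 hF Adm.zero
    simpa using this
  | insert a s ha ih =>
    have h1 := hf a (Finset.mem_insert_self _ _)
    have h2 := fun i hi => hf i (Finset.mem_insert_of_mem hi)
    rw [Finset.sum_insert ha, Finset.sum_insert ha, hB.add2 _ _ _ hF (h1.smul _)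
      (Adm.finsum s fun i hi => (h2 i hi).smul _), hB.sm2 _ _ _ hF h1, ih h2]

open Classical in
/-- nonzero values of a simple function -/
noncomputable def nzr (F : SimpleFunc α ℂ) : Finset ℂ := F.range.filter (fun y => y ≠ 0)

theorem simple_adm {F : SimpleFunc α ℂ} (hF : Integrable F μ) {y : ℂ} (hy : y ∈ nzr F) :
    Adm μ ((F ⁻¹' {y}).indicator (fun _ => (1:ℂ))) := by
  have hy0 : y ≠ 0 := (Finset.mem_filter.1 hy).2
  have hm : MeasurableSet (F ⁻¹' {y}) := F.measurableSet_preimage _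
  have hfin : μ (F ⁻¹' {y}) < ⊤ := SimpleFunc.measure_preimage_lt_top_of_integrable F hF hy0
  refine ⟨measurable_const.indicator hm, ?_, 1, ?_⟩
  · exact (integrable_indicator_iff hm).2 (integrableOn_const hfin.ne)
  · intro x
    by_cases h : x ∈ F ⁻¹' {y}
    · rw [indicator_of_mem h]; simp
    · rw [indicator_of_notMem h]; simp

theorem pz_comp_eq (F : SimpleFunc α ℂ) (w : ℂ) : (fun x => pz w (F x)) =
    ∑ y ∈ nzr F, pz w y • (F ⁻¹' {y}).indicator (fun _ => (1:ℂ)) := by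
  classical
  ext x
  rw [Finset.sum_apply]
  by_cases h : F x = 0
  · rw [h, pz_zero]
    symm
    apply Finset.sum_eq_zero
    intro y hy
    have hy0 : y ≠ 0 := (Finset.mem_filter.1 hy).2
    have : x ∉ F ⁻¹' {y} := by
      intro hx
      have hx' : F x = y := hx
      exact hy0 (by rw [← hx', h])
    rw [Pi.smul_apply, indicator_of_notMem this, smul_zero]
  · have hmem : F x ∈ nzr F := Finset.mem_filter.2 ⟨SimpleFunc.mem_range_self F x, h⟩
    rw [Finset.sum_eq_single_of_mem _ hmem]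
    · have : x ∈ F ⁻¹' {F x} := rfl
      rw [Pi.smul_apply, indicator_of_mem this, smul_eq_mul, mul_one]
    · intro y _ hne
      have : x ∉ F ⁻¹' {y} := by
        intro hx
        have hx' : F x = y := hx
        exact hne hx'.symm
      rw [Pi.smul_apply, indicator_of_notMem this, smul_zero]

theorem pz_comp_adm {F : SimpleFunc α ℂ} (hF : Integrable F μ) (w : ℂ) : Adm μ (fun x => pz w (F x)) := by
  rw [pz_comp_eq]
  exact Adm.finsum _ fun y hy => (simple_adm hF hy).smul _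

theorem toReal_inv_pos {e : ℝ≥0∞} (he : 1 ≤ e) (hetop : e ≠ ⊤) : 0 < (1 / e).toReal := by
  have he0 : e ≠ 0 := fun h => by rw [h] at he; exact absurd he (by norm_num)
  rw [one_div, ENNReal.toReal_inv]
  exact inv_pos.2 (ENNReal.toReal_pos he0 hetop)

theorem pz_bdd {a0 a1 r : ℝ} (hr : 0 ≤ r) (ha0 : 0 ≤ a0) (ha1 : 0 ≤ a1) (y : ℂ) :
    ∃ C : ℝ, 0 ≤ C ∧ ∀ (w : ℂ) (σ : ℝ), 0 ≤ σ → σ ≤ 1 →
      w.re = ((1 - σ) * a0 + σ * a1) * r → ‖pz w y‖ ≤ C := by
  by_cases hy : y = 0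
  · exact ⟨0, le_rfl, fun w σ _ _ _ => by rw [hy, pz_zero, norm_zero]⟩
  · refine ⟨Real.exp (|Real.log ‖y‖| * ((a0 + a1) * r)), (Real.exp_pos _).le, fun w σ hσ0 hσ1 hw => ?_⟩
    have hn : 0 < ‖y‖ := norm_pos_iff.2 hy
    rw [norm_pz hy, Real.rpow_def_of_pos hn]
    apply Real.exp_le_exp.2
    have h1 : 0 ≤ w.re := by
      rw [hw]
      have : 0 ≤ 1 - σ := by linarith
      positivity
    have h2 : w.re ≤ (a0 + a1) * r := by
      rw [hw]
      apply mul_le_mul_of_nonneg_right _ hr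
      nlinarith
    calc Real.log ‖y‖ * w.re ≤ |Real.log ‖y‖| * w.re := by gcongr; exact le_abs_self _
      _ ≤ _ := by gcongr

/-- affine exponent -/
noncomputable def Pex (a0 a1 r : ℝ) (z : ℂ) : ℂ := ((1 - z) * (a0 : ℂ) + z * (a1 : ℂ)) * (r : ℂ)

theorem Pex_re (a0 a1 r : ℝ) (z : ℂ) : (Pex a0 a1 r z).re = ((1 - z.re) * a0 + z.re * a1) * r := by
  simp [Pex]

theorem differentiable_pz (a0 a1 r : ℝ) (y : ℂ) : Differentiable ℂ (fun z => pz (Pex a0 a1 r z) y) := by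
  unfold pz Pex
  by_cases hy : y = 0
  · simp [hy]
  · simp only [hy, if_false]
    fun_prop

/-- three lines for a finite sum -/
theorem three_lines_sum {a0 a1 r c0 c1 r' : ℝ} (hr : 0 ≤ r) (ha0 : 0 ≤ a0) (ha1 : 0 ≤ a1)
    (hr' : 0 ≤ r') (hc0 : 0 ≤ c0) (hc1 : 0 ≤ c1) (s s' : Finset ℂ) (b : ℂ → ℂ → ℂ) (Φ : ℂ → ℂ)
    (hΦ : ∀ z, Φ z = ∑ y ∈ s, ∑ v ∈ s', pz (Pex a0 a1 r z) y * (pz (Pex c0 c1 r' z) v * b y v))
    {M0 M1 : ℝ} (h0 : ∀ z : ℂ, z.re = 0 → ‖Φ z‖ ≤ M0) (h1 : ∀ z : ℂ, z.re = 1 → ‖Φ z‖ ≤ M1)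
    {t : ℝ} (ht0 : 0 < t) (ht1 : t < 1) : ‖Φ t‖ ≤ M0 ^ (1 - t) * M1 ^ t := by
  have hd : Differentiable ℂ Φ := by
    have : Φ = fun z => ∑ y ∈ s, ∑ v ∈ s', pz (Pex a0 a1 r z) y * (pz (Pex c0 c1 r' z) v * b y v) := by
      ext z; exact hΦ z
    rw [this]
    have d1 := differentiable_pz a0 a1 r
    have d2 := differentiable_pz c0 c1 r'
    fun_prop
  have hbound : BddAbove ((norm ∘ Φ) '' Complex.HadamardThreeLines.verticalClosedStrip 0 1) := by
    choose CF hCF0 hCF using pz_bdd hr ha0 ha1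
    choose CG hCG0 hCG using pz_bdd hr' hc0 hc1
    refine ⟨∑ y ∈ s, ∑ v ∈ s', CF y * (CG v * ‖b y v‖), ?_⟩
    rintro _ ⟨z, hz, rfl⟩
    have hz0 : 0 ≤ z.re := hz.1
    have hz1 : z.re ≤ 1 := hz.2
    simp only [Function.comp]
    rw [hΦ]
    refine (norm_sum_le _ _).trans (Finset.sum_le_sum fun y _ => ?_)
    refine (norm_sum_le _ _).trans (Finset.sum_le_sum fun v _ => ?_)
    rw [norm_mul, norm_mul]
    have h1 := hCF y (Pex a0 a1 r z) z.re hz0 hz1 (Pex_re _ _ _ _)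
    have h2 := hCG v (Pex c0 c1 r' z) z.re hz0 hz1 (Pex_re _ _ _ _)
    have h3 := hCF0 y
    gcongr
  have hzt : (t : ℂ) ∈ Complex.HadamardThreeLines.verticalClosedStrip 0 1 := by
    constructor <;> simp <;> linarith
  have hfin := Complex.HadamardThreeLines.norm_le_interp_of_mem_verticalClosedStrip' (l := 0) (u := 1)
    (by norm_num) hzt hd.diffContOnCl hbound (fun z hz => h0 z hz) (fun z hz => h1 z hz)
  simpa using hfin

theorem nrm_le_one {H : α → ℂ} {e : ℝ≥0∞} (h : eLpNorm H e μ ≤ 1) : nrm e H μ ≤ 1 := by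
  unfold nrm
  rw [← ENNReal.toReal_one]
  exact ENNReal.toReal_mono (by simp) h

theorem rt_line {B : (α → ℂ) → (β → ℂ) → ℂ} {e f p q : ℝ≥0∞} (he : 1 ≤ e) (hf : 1 ≤ f)
    (hp1' : 1 ≤ p) (hq1' : 1 ≤ q) (hptop : p ≠ ⊤) (hqtop : q ≠ ⊤) {M : ℝ} (hM : 0 ≤ M)
    (h : ∀ F G, Adm μ F → Adm ν' G → ‖B F G‖ ≤ M * nrm e F μ * nrm f G ν')
    {F : SimpleFunc α ℂ} {G : SimpleFunc β ℂ} (hF : Integrable F μ) (hG : Integrable G ν')
    (hF1 : eLpNorm F p μ ≤ 1) (hG1 : eLpNorm G q ν' ≤ 1) {w w' : ℂ}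
    (hw : w.re = (1 / e).toReal * p.toReal) (hw' : w'.re = (1 / f).toReal * q.toReal) :
    ‖B (fun x => pz w (F x)) (fun x => pz w' (G x))‖ ≤ M := by
  have hb := h _ _ (pz_comp_adm hF w) (pz_comp_adm hG w')
  have n1 := nrm_le_one (eLpNorm_pz_le (μ := μ) hp1' hptop he hF1 hw)
  have n2 := nrm_le_one (eLpNorm_pz_le (μ := ν') hq1' hqtop hf hG1 hw')
  have n3 := nrm_nonneg (F := fun x => pz w (F x)) (p := e) (μ := μ)
  have n4 := nrm_nonneg (F := fun x => pz w' (G x)) (p := f) (μ := ν')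
  refine hb.trans ?_
  calc _ ≤ M * 1 * 1 := by gcongr
    _ = M := by ring

theorem rt_simple {B : (α → ℂ) → (β → ℂ) → ℂ} (hB : BilAdm μ ν' B)
    {p0 p1 q0 q1 p q : ℝ≥0∞} (hp0 : 1 ≤ p0) (hp0' : p0 ≠ (⊤ : ℝ≥0∞)) (hp1 : 1 ≤ p1) (hq0 : 1 ≤ q0)
    (hq0' : q0 ≠ (⊤ : ℝ≥0∞)) (hq1 : 1 ≤ q1) {t : ℝ} (ht0 : 0 < t) (ht1 : t < 1)
    (hp : (1 / p).toReal = (1 - t) * (1 / p0).toReal + t * (1 / p1).toReal)
    (hq : (1 / q).toReal = (1 - t) * (1 / q0).toReal + t * (1 / q1).toReal)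
    (hp1' : 1 ≤ p) (hq1' : 1 ≤ q)
    {M0 M1 : ℝ} (hM0 : 0 ≤ M0) (hM1 : 0 ≤ M1)
    (h0 : ∀ F G, Adm μ F → Adm ν' G → ‖B F G‖ ≤ M0 * nrm p0 F μ * nrm q0 G ν')
    (h1 : ∀ F G, Adm μ F → Adm ν' G → ‖B F G‖ ≤ M1 * nrm p1 F μ * nrm q1 G ν')
    (F : SimpleFunc α ℂ) (G : SimpleFunc β ℂ) (hF : Integrable F μ) (hG : Integrable G ν')
    (hF1 : eLpNorm F p μ ≤ 1) (hG1 : eLpNorm G q ν' ≤ 1) :
    ‖B F G‖ ≤ M0 ^ (1 - t) * M1 ^ t := by
  have h1t : 0 < 1 - t := by linarith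
  have hap : 0 < (1 / p).toReal := by
    rw [hp]
    have := toReal_inv_pos hp0 hp0'
    have h2 : 0 ≤ (1 / p1).toReal := ENNReal.toReal_nonneg
    positivity
  have haq : 0 < (1 / q).toReal := by
    rw [hq]
    have := toReal_inv_pos hq0 hq0'
    have h2 : 0 ≤ (1 / q1).toReal := ENNReal.toReal_nonneg
    positivity
  have hptop : p ≠ ⊤ := by rintro rfl; simp at hap
  have hqtop : q ≠ ⊤ := by rintro rfl; simp at haq
  have hpinv : (1 / p).toReal * p.toReal = 1 := by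
    have hp0 : p ≠ 0 := fun h => by rw [h] at hp1'; exact absurd hp1' (by norm_num)
    rw [one_div, ENNReal.toReal_inv, inv_mul_cancel₀ (ENNReal.toReal_pos hp0 hptop).ne']
  have hqinv : (1 / q).toReal * q.toReal = 1 := by
    have hq0 : q ≠ 0 := fun h => by rw [h] at hq1'; exact absurd hq1' (by norm_num)
    rw [one_div, ENNReal.toReal_inv, inv_mul_cancel₀ (ENNReal.toReal_pos hq0 hqtop).ne']
  have hPt : Pex (1 / p0).toReal (1 / p1).toReal p.toReal t = 1 := by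
    unfold Pex
    rw [hp] at hpinv
    exact_mod_cast hpinv
  have hQt : Pex (1 / q0).toReal (1 / q1).toReal q.toReal t = 1 := by
    unfold Pex
    rw [hq] at hqinv
    exact_mod_cast hqinv
  set Φ : ℂ → ℂ := fun z => B (fun x => pz (Pex (1 / p0).toReal (1 / p1).toReal p.toReal z) (F x))
    (fun x => pz (Pex (1 / q0).toReal (1 / q1).toReal q.toReal z) (G x)) with hΦ
  have eΦ : Φ t = B F G := by
    simp only [hΦ, hPt, hQt, pz_one]
  rw [← eΦ]
  refine three_lines_sum (a0 := (1 / p0).toReal) (a1 := (1 / p1).toReal) (r := p.toReal)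
    (c0 := (1 / q0).toReal) (c1 := (1 / q1).toReal) (r' := q.toReal) ENNReal.toReal_nonneg
    ENNReal.toReal_nonneg ENNReal.toReal_nonneg ENNReal.toReal_nonneg ENNReal.toReal_nonneg
    ENNReal.toReal_nonneg (nzr F) (nzr G) (fun y v =>
      B ((F ⁻¹' {y}).indicator (fun _ => (1:ℂ))) ((G ⁻¹' {v}).indicator (fun _ => (1:ℂ)))) Φ ?_ ?_ ?_ ht0 ht1
  · intro z
    simp only [hΦ]
    rw [pz_comp_eq F, hB.sum1 _ _ _ (fun y hy => simple_adm hF hy) (pz_comp_adm hG _)]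
    refine Finset.sum_congr rfl fun y hy => ?_
    rw [pz_comp_eq G, hB.sum2 _ _ _ (fun y hy => simple_adm hG hy) (simple_adm hF hy), Finset.mul_sum]
  · intro z hz
    exact rt_line hp0 hq0 hp1' hq1' hptop hqtop hM0 h0 hF hG hF1 hG1 (by rw [Pex_re, hz]; ring)
      (by rw [Pex_re, hz]; ring)
  · intro z hz
    exact rt_line hp1 hq1 hp1' hq1' hptop hqtop hM1 h1 hF hG hF1 hG1 (by rw [Pex_re, hz]; ring)
      (by rw [Pex_re, hz]; ring)

theorem simple_toAdm {F : SimpleFunc α ℂ} (hF : Integrable F μ) : Adm μ F := by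
  have := pz_comp_adm hF 1
  simp only [pz_one] at this
  exact this

theorem rt_simple2 {B : (α → ℂ) → (β → ℂ) → ℂ} (hB : BilAdm μ ν' B)
    {p0 p1 q0 q1 p q : ℝ≥0∞} (hp0 : 1 ≤ p0) (hp0' : p0 ≠ (⊤ : ℝ≥0∞)) (hp1 : 1 ≤ p1) (hq0 : 1 ≤ q0)
    (hq0' : q0 ≠ (⊤ : ℝ≥0∞)) (hq1 : 1 ≤ q1) {t : ℝ} (ht0 : 0 < t) (ht1 : t < 1)
    (hp : (1 / p).toReal = (1 - t) * (1 / p0).toReal + t * (1 / p1).toReal)
    (hq : (1 / q).toReal = (1 - t) * (1 / q0).toReal + t * (1 / q1).toReal)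
    (hp1' : 1 ≤ p) (hq1' : 1 ≤ q)
    {M0 M1 : ℝ} (hM0 : 0 ≤ M0) (hM1 : 0 ≤ M1)
    (h0 : ∀ F G, Adm μ F → Adm ν' G → ‖B F G‖ ≤ M0 * nrm p0 F μ * nrm q0 G ν')
    (h1 : ∀ F G, Adm μ F → Adm ν' G → ‖B F G‖ ≤ M1 * nrm p1 F μ * nrm q1 G ν')
    (F : SimpleFunc α ℂ) (G : SimpleFunc β ℂ) (hF : Integrable F μ) (hG : Integrable G ν') :
    ‖B F G‖ ≤ M0 ^ (1 - t) * M1 ^ t * nrm p F μ * nrm q G ν' := by
  have aF := simple_toAdm hF
  have aG := simple_toAdm hG
  have hp00 : p ≠ 0 := fun h => by rw [h] at hp1'; exact absurd hp1' (by norm_num)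
  have hq00 : q ≠ 0 := fun h => by rw [h] at hq1'; exact absurd hq1' (by norm_num)
  by_cases hnF : nrm p F μ = 0
  · have e0 : eLpNorm F p μ = 0 := by rw [← aF.ofReal_nrm hp1', hnF, ENNReal.ofReal_zero]
    have e1 : F =ᵐ[μ] (0 : α → ℂ) := (eLpNorm_eq_zero_iff aF.meas.aestronglyMeasurable hp00).1 e0
    have e2 : nrm p0 F μ = 0 := by
      unfold nrm
      rw [eLpNorm_congr_ae e1]; simp
    have := h0 F G aF aG
    rw [e2] at this
    rw [hnF]
    simpa using this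
  by_cases hnG : nrm q G ν' = 0
  · have e0 : eLpNorm G q ν' = 0 := by rw [← aG.ofReal_nrm hq1', hnG, ENNReal.ofReal_zero]
    have e1 : G =ᵐ[ν'] (0 : β → ℂ) := (eLpNorm_eq_zero_iff aG.meas.aestronglyMeasurable hq00).1 e0
    have e2 : nrm q0 G ν' = 0 := by
      unfold nrm
      rw [eLpNorm_congr_ae e1]; simp
    have := h0 F G aF aG
    rw [e2] at this
    rw [hnG]
    simpa using this
  have pF : 0 < nrm p F μ := lt_of_le_of_ne nrm_nonneg (Ne.symm hnF)
  have pG : 0 < nrm q G ν' := lt_of_le_of_ne nrm_nonneg (Ne.symm hnG)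
  set a := nrm p F μ with ha
  set b := nrm q G ν' with hb
  have key := rt_simple hB hp0 hp0' hp1 hq0 hq0' hq1 ht0 ht1 hp hq hp1' hq1' hM0 hM1 h0 h1
    (((a⁻¹ : ℝ) : ℂ) • F) (((b⁻¹ : ℝ) : ℂ) • G) (by
      rw [SimpleFunc.coe_smul]; exact hF.smul _) (by rw [SimpleFunc.coe_smul]; exact hG.smul _) (by
      rw [SimpleFunc.coe_smul, eLpNorm_const_smul, ← aF.ofReal_nrm hp1', ← ofReal_norm, Complex.norm_real,
        Real.norm_of_nonneg (inv_nonneg.2 pF.le), ← ENNReal.ofReal_mul (inv_nonneg.2 pF.le),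
        inv_mul_cancel₀ pF.ne']
      simp) (by
      rw [SimpleFunc.coe_smul, eLpNorm_const_smul, ← aG.ofReal_nrm hq1', ← ofReal_norm, Complex.norm_real,
        Real.norm_of_nonneg (inv_nonneg.2 pG.le), ← ENNReal.ofReal_mul (inv_nonneg.2 pG.le),
        inv_mul_cancel₀ pG.ne']
      simp)
  rw [SimpleFunc.coe_smul, SimpleFunc.coe_smul, hB.sm1 _ _ _ aF (aG.smul _), hB.sm2 _ _ _ aF aG, norm_mul,
    norm_mul, Complex.norm_real, Complex.norm_real, Real.norm_of_nonneg (inv_nonneg.2 pF.le),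
    Real.norm_of_nonneg (inv_nonneg.2 pG.le)] at key
  have e : ‖B F G‖ = a * b * (a⁻¹ * (b⁻¹ * ‖B F G‖)) := by field_simp
  rw [e]
  calc a * b * (a⁻¹ * (b⁻¹ * ‖B F G‖)) ≤ a * b * (M0 ^ (1 - t) * M1 ^ t) := by gcongr
    _ = _ := by ring

theorem exists_approx {F : α → ℂ} (hF : Adm μ F) : ∃ Fn : ℕ → SimpleFunc α ℂ,
    (∀ n, Integrable (Fn n) μ) ∧ ∀ e : ℝ≥0∞, 1 ≤ e → e ≠ ⊤ →
      Tendsto (fun n => nrm e (F - ⇑(Fn n)) μ) atTop (𝓝 0) := by
  refine ⟨fun n => SimpleFunc.approxOn F hF.meas (range F ∪ {0}) 0 (by simp) n, fun n =>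
    SimpleFunc.integrable_approxOn_range hF.meas hF.int n, ?_⟩
  intro e he hetop
  have h := SimpleFunc.tendsto_approxOn_range_Lp_eLpNorm hetop hF.meas (hF.memLp he).2
  have h2 := (ENNReal.tendsto_toReal ENNReal.zero_ne_top).comp h
  rw [ENNReal.toReal_zero] at h2
  refine h2.congr (fun n => ?_)
  simp only [Function.comp, nrm]
  rw [eLpNorm_sub_comm]

theorem nrm_add_le {F G : α → ℂ} (hF : Adm μ F) (hG : Adm μ G) {p : ℝ≥0∞} (hp : 1 ≤ p) :
    nrm p (F + G) μ ≤ nrm p F μ + nrm p G μ := by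
  unfold nrm
  rw [← ENNReal.toReal_add (hF.eLpNorm_ne_top hp) (hG.eLpNorm_ne_top hp)]
  exact ENNReal.toReal_mono (ENNReal.add_ne_top.2 ⟨hF.eLpNorm_ne_top hp, hG.eLpNorm_ne_top hp⟩)
    (eLpNorm_add_le hF.meas.aestronglyMeasurable hG.meas.aestronglyMeasurable hp)

theorem Adm.neg {F : α → ℂ} (hF : Adm μ F) : Adm μ (-F) := by
  have := hF.smul (-1)
  simpa using this

theorem Adm.sub {F G : α → ℂ} (hF : Adm μ F) (hG : Adm μ G) : Adm μ (F - G) := by
  rw [sub_eq_add_neg]; exact hF.add hG.neg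

theorem nrm_sub_comm (F G : α → ℂ) (p : ℝ≥0∞) : nrm p (F - G) μ = nrm p (G - F) μ := by
  unfold nrm; rw [eLpNorm_sub_comm]

theorem T01 {B : (α → ℂ) → (β → ℂ) → ℂ} (hB : BilAdm μ ν' B)
    {p0 p1 q0 q1 p q : ℝ≥0∞} (hp0 : 1 ≤ p0) (hp0' : p0 ≠ (⊤ : ℝ≥0∞)) (hp1 : 1 ≤ p1) (hq0 : 1 ≤ q0)
    (hq0' : q0 ≠ (⊤ : ℝ≥0∞)) (hq1 : 1 ≤ q1) {t : ℝ} (ht0 : 0 < t) (ht1 : t < 1)
    (hp : (1 / p).toReal = (1 - t) * (1 / p0).toReal + t * (1 / p1).toReal)
    (hq : (1 / q).toReal = (1 - t) * (1 / q0).toReal + t * (1 / q1).toReal)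
    (hp1' : 1 ≤ p) (hq1' : 1 ≤ q)
    {M0 M1 : ℝ} (hM0 : 0 ≤ M0) (hM1 : 0 ≤ M1)
    (h0 : ∀ F G, Adm μ F → Adm ν' G → ‖B F G‖ ≤ M0 * nrm p0 F μ * nrm q0 G ν')
    (h1 : ∀ F G, Adm μ F → Adm ν' G → ‖B F G‖ ≤ M1 * nrm p1 F μ * nrm q1 G ν')
    {F : α → ℂ} {G : β → ℂ} (hF : Adm μ F) (hG : Adm ν' G) :
    ‖B F G‖ ≤ M0 ^ (1 - t) * M1 ^ t * nrm p F μ * nrm q G ν' := by
  have h1t : 0 < 1 - t := by linarith
  have hap : 0 < (1 / p).toReal := by
    rw [hp]
    have := toReal_inv_pos hp0 hp0'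
    have h2 : 0 ≤ (1 / p1).toReal := ENNReal.toReal_nonneg
    positivity
  have haq : 0 < (1 / q).toReal := by
    rw [hq]
    have := toReal_inv_pos hq0 hq0'
    have h2 : 0 ≤ (1 / q1).toReal := ENNReal.toReal_nonneg
    positivity
  have hptop : p ≠ ⊤ := by rintro rfl; simp at hap
  have hqtop : q ≠ ⊤ := by rintro rfl; simp at haq
  obtain ⟨Fn, hFn, hFl⟩ := exists_approx hF
  obtain ⟨Gn, hGn, hGl⟩ := exists_approx hG
  set K := M0 ^ (1 - t) * M1 ^ t with hK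
  have hK0 : 0 ≤ K := by positivity
  have hn : ∀ n, ‖B F G‖ ≤ K * (nrm p F μ + nrm p (F - ⇑(Fn n)) μ) * (nrm q G ν' + nrm q (G - ⇑(Gn n)) ν') +
      (M0 * nrm p0 (F - ⇑(Fn n)) μ * nrm q0 G ν' +
        M0 * (nrm p0 F μ + nrm p0 (F - ⇑(Fn n)) μ) * nrm q0 (G - ⇑(Gn n)) ν') := by
    intro n
    have aF := simple_toAdm (hFn n)
    have aG := simple_toAdm (hGn n)
    have e1 : B F G = B (Fn n) (Gn n) + (B (F - ⇑(Fn n)) G + B (Fn n) (G - ⇑(Gn n))) := by
      have i1 : B F G = B (Fn n) G + B (F - ⇑(Fn n)) G := by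
        have := hB.add1 (Fn n) (F - ⇑(Fn n)) G aF (hF.sub aF) hG
        rw [← this]; congr 1; abel
      have i2 : B (Fn n) G = B (Fn n) (Gn n) + B (Fn n) (G - ⇑(Gn n)) := by
        have := hB.add2 (Fn n) (Gn n) (G - ⇑(Gn n)) aF aG (hG.sub aG)
        rw [← this]; congr 1; abel
      rw [i1, i2]; ring
    have n1 : ∀ {e : ℝ≥0∞}, 1 ≤ e → nrm e (Fn n) μ ≤ nrm e F μ + nrm e (F - ⇑(Fn n)) μ := by
      intro e he
      have := nrm_add_le hF (aF.sub hF) he
      rw [nrm_sub_comm ⇑(Fn n)] at this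
      have e3 : F + (⇑(Fn n) - F) = Fn n := by abel
      rwa [e3] at this
    have n2 : nrm q (Gn n) ν' ≤ nrm q G ν' + nrm q (G - ⇑(Gn n)) ν' := by
      have := nrm_add_le hG (aG.sub hG) hq1'
      rw [nrm_sub_comm ⇑(Gn n)] at this
      have e3 : G + (⇑(Gn n) - G) = Gn n := by abel
      rwa [e3] at this
    rw [e1]
    refine (norm_add_le _ _).trans (add_le_add ?_ ((norm_add_le _ _).trans (add_le_add ?_ ?_)))
    · refine (rt_simple2 hB hp0 hp0' hp1 hq0 hq0' hq1 ht0 ht1 hp hq hp1' hq1' hM0 hM1 h0 h1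
        (Fn n) (Gn n) (hFn n) (hGn n)).trans ?_
      have m1 := n1 hp1'
      have m2 := nrm_nonneg (F := (Fn n : α → ℂ)) (p := p) (μ := μ)
      have m3 := nrm_nonneg (F := (Gn n : β → ℂ)) (p := q) (μ := ν')
      have m4 : 0 ≤ K * (nrm p F μ + nrm p (F - ⇑(Fn n)) μ) :=
        mul_nonneg hK0 (m2.trans m1)
      gcongr
    · exact h0 _ _ (hF.sub aF) hG
    · refine (h0 _ _ aF (hG.sub aG)).trans ?_
      have m1 := n1 hp0
      have m2 := nrm_nonneg (F := (G - ⇑(Gn n) : β → ℂ)) (p := q0) (μ := ν')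
      gcongr
  have lim : Tendsto (fun n => K * (nrm p F μ + nrm p (F - ⇑(Fn n)) μ) * (nrm q G ν' + nrm q (G - ⇑(Gn n)) ν') +
      (M0 * nrm p0 (F - ⇑(Fn n)) μ * nrm q0 G ν' +
        M0 * (nrm p0 F μ + nrm p0 (F - ⇑(Fn n)) μ) * nrm q0 (G - ⇑(Gn n)) ν')) atTop
      (𝓝 (K * (nrm p F μ + 0) * (nrm q G ν' + 0) +
      (M0 * 0 * nrm q0 G ν' + M0 * (nrm p0 F μ + 0) * 0))) := by
    have l1 := hFl p hp1' hptop
    have l2 := hFl p0 hp0 hp0'
    have l3 := hGl q hq1' hqtop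
    have l4 := hGl q0 hq0 hq0'
    exact (((tendsto_const_nhds.add l1).const_mul K).mul (tendsto_const_nhds.add l3)).add
      (((l2.const_mul M0).mul_const _).add (((tendsto_const_nhds.add l2).const_mul M0).mul l4))
  have := ge_of_tendsto' lim hn
  simpa using this

end RT

end Vale.Agent.P117
end
end
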