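import Vale.Agent.P117.MathlibUsed
import Vale.Agent.P117.Bdl.B1
attribute [-instance] ProperSMul.toContinuousSMul IsTopologicalTorsor.toContinuousSMul IdemSemiring.toCanonicallyOrderedAdd IdemSemiring.toMulLeftMono IdemSemiring.toMulRightMono AddQuantale.instAddLeftMono AddQuantale.instAddRightMono Quantale.instMulLeftMono Quantale.instMulRightMono FiniteDimensional.rclike_to_real IsScalarTower.complexToReal FiniteDimensional.complexToReal

set_option linter.all false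

section

section

open MeasureTheory Complex Set
open scoped ENNReal NNReal ContDiff FourierTransform SchwartzMap ComplexConjugate Topology

namespace Vale.Agent.P117

section
variable {M : ℕ} {A : ℝ} {θ : ℝ → ℂ}

/-- time weight of the three dimensional kernel -/
noncomputable def Wt (Λ : ℝ) (θ : ℝ → ℂ) (τ : ℝ) : ℂ :=
  θ τ * (cexp (-2 * Real.pi * I * ((Λ * τ : ℝ) : ℂ)) * (I / (2 * ((Λ * τ : ℝ) : ℂ))) ^ ((3 / 2 : ℝ) : ℂ))

/-- Gaussian phase -/
noncomputable def gp (Λ q τ : ℝ) : ℂ := cexp (-Real.pi * I * (q : ℂ) / (2 * ((Λ * τ : ℝ) : ℂ)))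

theorem norm_gp (Λ q τ : ℝ) : ‖gp Λ q τ‖ = 1 := by
  unfold gp
  rw [Complex.norm_exp]
  have e2 : (-Real.pi * I * (q : ℂ) / (2 * ((Λ * τ : ℝ) : ℂ))).re = 0 := by
    have : (-Real.pi * I * (q : ℂ) / (2 * ((Λ * τ : ℝ) : ℂ))) =
      ((-Real.pi * q / (2 * (Λ * τ)) : ℝ) : ℂ) * I := by push_cast; ring
    rw [this, re_ofReal_mul, I_re, mul_zero]
  rw [e2, Real.exp_zero]

theorem norm_Wt_le (h : Bump M A θ) {Λ : ℝ} (hΛ : 0 < Λ) (τ : ℝ) :
    ‖Wt Λ θ τ‖ ≤ ‖θ τ‖ * (2 / Λ) ^ (3 / 2 : ℝ) := by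
  have := kd_integrand_norm_le h hΛ (d := 3) (by norm_num) 0 τ
  rw [← mul_assoc, norm_mul] at this
  have h2 := norm_gp Λ 0 τ
  unfold gp at h2
  rw [h2, mul_one] at this
  exact this

theorem measurable_Wt (h : Bump M A θ) (Λ : ℝ) : Measurable (Wt Λ θ) := by
  have hθm : Measurable θ := h.continuous.measurable
  unfold Wt
  fun_prop

theorem integrable_Wt (h : Bump M A θ) {Λ : ℝ} (hΛ : 0 < Λ) : Integrable (Wt Λ θ) :=
  (h.integrable.norm.mul_const _).mono' (measurable_Wt h Λ).aestronglyMeasurable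
    (by filter_upwards with τ using norm_Wt_le h hΛ τ)

theorem k3_eq_Wt (h : Bump M A θ) {Λ : ℝ} (hΛ : 0 < Λ) (q : ℝ) :
    k3 Λ θ q = ∫ τ : ℝ, Wt Λ θ τ * gp Λ q τ := by
  rw [kd_three, kd_scaled h hΛ]
  congr 1
  ext τ
  unfold Wt gp
  ring

theorem k2_eq_gp (h : Bump M A θ) {Λ : ℝ} (hΛ : 0 < Λ) (q : ℝ) :
    k2 Λ θ q = ∫ τ : ℝ, θ τ * (cexp (-2 * Real.pi * I * ((Λ * τ : ℝ) : ℂ)) *
      (I / (2 * ((Λ * τ : ℝ) : ℂ)))) * gp Λ q τ := by
  rw [kd_two, kd_scaled h hΛ]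
  congr 1
  ext τ
  have : (((2:ℝ) / 2 : ℝ) : ℂ) = 1 := by norm_num
  rw [this, cpow_one]
  unfold gp
  ring

theorem Wt_eq (h : Bump M A θ) {Λ : ℝ} (hΛ : 0 < Λ) (η τ : ℝ) :
    Wt Λ θ τ * cexp (-(2 * Real.pi * I * η) * Real.log τ) = (I / (2 * Λ)) ^ (1 / 2 : ℂ) *
      (tht θ η τ * (cexp (-2 * Real.pi * I * ((Λ * τ : ℝ) : ℂ)) * (I / (2 * ((Λ * τ : ℝ) : ℂ))))) := by
  by_cases hτ : τ ∈ Icc (1/4 : ℝ) 4
  · have hτ0 : 0 < τ := by linarith [hτ.1]
    have hz : (I / (2 * (Λ:ℂ))) ≠ 0 := by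
      have : (Λ : ℂ) ≠ 0 := by exact_mod_cast hΛ.ne'
      simp [this]
    have e0 : I / (2 * ((Λ * τ : ℝ) : ℂ)) = ((τ⁻¹ : ℝ) : ℂ) * (I / (2 * (Λ:ℂ))) := by
      have h1 : (Λ : ℂ) ≠ 0 := by exact_mod_cast hΛ.ne'
      have h2 : (τ : ℂ) ≠ 0 := by exact_mod_cast hτ0.ne'
      push_cast
      field_simp
    have hz' : I / (2 * ((Λ * τ : ℝ) : ℂ)) ≠ 0 := by
      rw [e0]
      exact mul_ne_zero (by exact_mod_cast (inv_pos.2 hτ0).ne') hz
    have e1 : (I / (2 * ((Λ * τ : ℝ) : ℂ))) ^ ((3 / 2 : ℝ) : ℂ) =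
        (I / (2 * ((Λ * τ : ℝ) : ℂ))) * ((I / (2 * Λ)) ^ (1 / 2 : ℂ) *
          cexp (-(1/2) * Real.log τ)) := by
      have e2 : (((3:ℝ) / 2 : ℝ) : ℂ) = 1 + 1 / 2 := by push_cast; norm_num
      rw [e2, Complex.cpow_add _ _ hz', cpow_one]
      congr 1
      rw [Complex.cpow_def_of_ne_zero hz', Complex.cpow_def_of_ne_zero hz, e0,
        Complex.log_ofReal_mul (inv_pos.2 hτ0) hz, ← Complex.exp_add, Real.log_inv]
      congr 1
      push_cast
      ring
    unfold Wt tht ea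
    rw [e1]
    have e3 : cexp (-(1 / 2 + 2 * Real.pi * I * η) * Real.log τ) =
        cexp (-(1/2) * Real.log τ) * cexp (-(2 * Real.pi * I * η) * Real.log τ) := by
      rw [← Complex.exp_add]; congr 1; ring
    rw [e3]
    ring
  · unfold Wt tht
    rw [h.eq_zero hτ]
    ring

theorem measurable_gp (Λ : ℝ) : Measurable (fun z : ℝ × ℝ => gp Λ z.1 z.2) := by
  unfold gp
  fun_prop

theorem measurable_gp_time (Λ q : ℝ) : Measurable (fun τ => gp Λ q τ) := by
  unfold gp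
  fun_prop

/-- angular average as a time integral -/
theorem angK_time (h : Bump M A θ) {Λ : ℝ} (hΛ : 0 < Λ) (m : ℤ) (r s z w : ℝ) :
    angK (k3 Λ θ) m r s z w = ∫ τ : ℝ, Wt Λ θ τ *
      ∫ α in (-Real.pi)..Real.pi, gp Λ (r ^ 2 + s ^ 2 - 2 * r * s * Real.cos α + (z - w) ^ 2) τ *
        (Real.cos (m * α) : ℂ) := by
  unfold angK
  simp_rw [k3_eq_Wt h hΛ, ← integral_mul_const]
  rw [intervalIntegral_integral_swap]
  · congr 1
    ext τ
    rw [← intervalIntegral.integral_const_mul]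
    congr 1
    ext α
    ring
  · have hW := integrable_Wt h hΛ
    have hm := measurable_Wt h Λ
    have hg := measurable_gp Λ
    have hfin : IsFiniteMeasure (volume.restrict (uIoc (-Real.pi) Real.pi)) := by
      constructor
      rw [Measure.restrict_apply_univ, uIoc_of_le (by linarith [Real.pi_pos])]
      exact measure_Ioc_lt_top
    have h1 := Integrable.mul_prod (f := fun _ : ℝ => (1:ℝ)) (g := fun τ => ‖Wt Λ θ τ‖)
      (μ := volume.restrict (uIoc (-Real.pi) Real.pi)) (ν := volume) (integrable_const _) hW.norm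
    refine h1.mono' ?_ ?_
    · apply Measurable.aestronglyMeasurable
      have : Measurable (fun p : ℝ × ℝ => gp Λ (r ^ 2 + s ^ 2 - 2 * r * s * Real.cos p.1 + (z - w) ^ 2) p.2) := by
        have h3 := hg.comp (by fun_prop : Measurable (fun p : ℝ × ℝ => (r ^ 2 + s ^ 2 - 2 * r * s * Real.cos p.1 + (z - w) ^ 2, p.2)))
        exact h3
      simp only [Function.uncurry_def]
      fun_prop
    · filter_upwards with p
      simp only [Function.uncurry_def]
      rw [norm_mul, norm_mul, norm_gp, mul_one, one_mul, Complex.norm_real, Real.norm_eq_abs]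
      exact mul_le_of_le_one_right (norm_nonneg _) (Real.abs_cos_le_one _)

/-- angular integral for fixed time -/
theorem ang_time (m : ℤ) {Λ τ : ℝ} (hΛτ : Λ * τ ≠ 0) (r s z w : ℝ) :
    ∫ α in (-Real.pi)..Real.pi, gp Λ (r ^ 2 + s ^ 2 - 2 * r * s * Real.cos α + (z - w) ^ 2) τ *
        (Real.cos (m * α) : ℂ) =
      gp Λ ((r - s) ^ 2 + (z - w) ^ 2) τ * bI (wm m) (Real.pi * r * s / (Λ * τ)) +
      (-1) ^ m * (gp Λ ((r + s) ^ 2 + (z - w) ^ 2) τ * conj (bI (wm m) (Real.pi * r * s / (Λ * τ)))) := by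
  set u : ℝ := Real.pi * r * s / (Λ * τ) with hu
  have hΛτ' : ((Λ * τ : ℝ) : ℂ) ≠ 0 := by exact_mod_cast hΛτ
  have e1 : ∀ α : ℝ, gp Λ (r ^ 2 + s ^ 2 - 2 * r * s * Real.cos α + (z - w) ^ 2) τ =
      gp Λ (r ^ 2 + s ^ 2 + (z - w) ^ 2) τ * cexp (I * u * Real.cos α) := by
    intro α
    unfold gp
    rw [← Complex.exp_add]
    congr 1
    rw [hu]
    push_cast at hΛτ' ⊢
    field_simp
    ring
  have e2 : gp Λ ((r - s) ^ 2 + (z - w) ^ 2) τ = gp Λ (r ^ 2 + s ^ 2 + (z - w) ^ 2) τ * cexp (I * u) := by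
    unfold gp
    rw [← Complex.exp_add]
    congr 1
    rw [hu]
    push_cast at hΛτ' ⊢
    field_simp
    ring
  have e3 : gp Λ ((r + s) ^ 2 + (z - w) ^ 2) τ = gp Λ (r ^ 2 + s ^ 2 + (z - w) ^ 2) τ * cexp (-I * u) := by
    unfold gp
    rw [← Complex.exp_add]
    congr 1
    rw [hu]
    push_cast at hΛτ' ⊢
    field_simp
    ring
  simp_rw [e1, mul_assoc]
  rw [intervalIntegral.integral_const_mul]
  have := J_eq m u
  simp_rw [mul_assoc] at this
  rw [this, e2, e3]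
  ring

theorem integrable_V (h : Bump M A θ) {Λ : ℝ} (hΛ : 0 < Λ) {c : ℝ → ℂ} (hc : Continuous c)
    (b q : ℝ) :
    Integrable (fun τ : ℝ => Wt Λ θ τ * (gp Λ q τ *
      ∫ η : ℝ, cexp (((2 * Real.pi * (η * (b - Real.log τ)) : ℝ) : ℂ) * I) * c η)) := by
  have hW := integrable_Wt h hΛ
  have hWm := measurable_Wt h Λ
  have hcm := hc.measurable
  have hgm : Measurable (fun τ => gp Λ q τ) :=
    measurable_gp_time Λ q
  have hI : StronglyMeasurable (fun τ : ℝ =>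
      ∫ η : ℝ, cexp (((2 * Real.pi * (η * (b - Real.log τ)) : ℝ) : ℂ) * I) * c η) := by
    apply StronglyMeasurable.integral_prod_right' (f := fun p : ℝ × ℝ =>
      cexp (((2 * Real.pi * (p.2 * (b - Real.log p.1)) : ℝ) : ℂ) * I) * c p.2)
    apply Measurable.stronglyMeasurable
    fun_prop
  refine (hW.norm.mul_const (∫ η, ‖c η‖)).mono' ?_ ?_
  · exact (hWm.mul (hgm.mul hI.measurable)).aestronglyMeasurable
  · filter_upwards with τ
    rw [norm_mul, norm_mul, norm_gp, one_mul]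
    gcongr
    refine (norm_integral_le_integral_norm _).trans (le_of_eq ?_)
    congr 1
    ext η
    rw [norm_mul, Complex.norm_exp_ofReal_mul_I, one_mul]

/-- exchange of the frequency and time integrals -/
theorem V_eq (h : Bump M A θ) {Λ : ℝ} (hΛ : 0 < Λ) {c : ℝ → ℂ} (hc : Continuous c)
    (hci : Integrable c) (b q : ℝ) :
    ∫ τ : ℝ, Wt Λ θ τ * (gp Λ q τ * ∫ η : ℝ, cexp (((2 * Real.pi * (η * (b - Real.log τ)) : ℝ) : ℂ) * I) * c η) =
      (I / (2 * Λ)) ^ (1 / 2 : ℂ) * ∫ η : ℝ, c η * cexp (2 * Real.pi * I * η * b) * k2 Λ (tht θ η) q := by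
  obtain ⟨C, hC, hCt⟩ := Bump.tht M
  have e1 : ∀ τ η : ℝ, Wt Λ θ τ * (gp Λ q τ * (cexp (((2 * Real.pi * (η * (b - Real.log τ)) : ℝ) : ℂ) * I) * c η)) =
      (I / (2 * Λ)) ^ (1 / 2 : ℂ) * (c η * cexp (2 * Real.pi * I * η * b) * (tht θ η τ *
        (cexp (-2 * Real.pi * I * ((Λ * τ : ℝ) : ℂ)) * (I / (2 * ((Λ * τ : ℝ) : ℂ)))) * gp Λ q τ)) := by
    intro τ η
    have e2 : cexp (((2 * Real.pi * (η * (b - Real.log τ)) : ℝ) : ℂ) * I) =
        cexp (2 * Real.pi * I * η * b) * cexp (-(2 * Real.pi * I * η) * Real.log τ) := by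
      rw [← Complex.exp_add]; congr 1; push_cast; ring
    rw [e2]
    have e3 := Wt_eq h hΛ η τ
    linear_combination (gp Λ q τ * cexp (2 * Real.pi * I * η * b) * c η) * e3
  have hW := integrable_Wt h hΛ
  have hWm := measurable_Wt h Λ
  have hcm := hc.measurable
  have hgm : Measurable (fun τ => gp Λ q τ) :=
    measurable_gp_time Λ q
  have hint : Integrable (Function.uncurry fun τ η : ℝ => Wt Λ θ τ * (gp Λ q τ *
      (cexp (((2 * Real.pi * (η * (b - Real.log τ)) : ℝ) : ℂ) * I) * c η))) (volume.prod volume) := by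
    refine (hW.norm.mul_prod hci.norm).mono' ?_ ?_
    · apply Measurable.aestronglyMeasurable
      simp only [Function.uncurry_def]
      have h1 : Measurable (fun p : ℝ × ℝ => gp Λ q p.1) := hgm.comp measurable_fst
      fun_prop
    · filter_upwards with p
      simp only [Function.uncurry_def]
      rw [norm_mul, norm_mul, norm_mul, norm_gp, one_mul, Complex.norm_exp_ofReal_mul_I, one_mul]
  calc _ = ∫ τ : ℝ, ∫ η : ℝ, Wt Λ θ τ * (gp Λ q τ *
        (cexp (((2 * Real.pi * (η * (b - Real.log τ)) : ℝ) : ℂ) * I) * c η)) := by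
        congr 1
        ext τ
        rw [← integral_const_mul, ← integral_const_mul]
    _ = ∫ η : ℝ, ∫ τ : ℝ, Wt Λ θ τ * (gp Λ q τ *
        (cexp (((2 * Real.pi * (η * (b - Real.log τ)) : ℝ) : ℂ) * I) * c η)) := integral_integral_swap hint
    _ = _ := by
        simp_rw [e1]
        rw [← integral_const_mul]
        congr 1
        ext η
        rw [integral_const_mul, integral_const_mul, k2_eq_gp (hCt A θ h η) hΛ]

/-- coefficient of the reflected term -/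
noncomputable def crefl (m : ℤ) (c : ℝ → ℂ) (η : ℝ) : ℂ := (-1) ^ m * conj (c (-η))

theorem log_range {R S r s τ : ℝ} (hR : 0 < R) (hS : 0 < S) (hr : r ∈ Icc R (2 * R))
    (hs : s ∈ Icc S (2 * S)) (hτ : τ ∈ Icc (1/4 : ℝ) 4) :
    |Real.log (r / R) + Real.log (s / S) - Real.log τ| ≤ 3 := by
  have h2 := Real.log_two_lt_d9
  have h4 : Real.log 4 = 2 * Real.log 2 := by
    rw [show (4:ℝ) = 2 ^ 2 by norm_num, Real.log_pow]; norm_num
  have a1 : 0 ≤ Real.log (r / R) := Real.log_nonneg (by rw [le_div_iff₀ hR]; linarith [hr.1])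
  have a2 : Real.log (r / R) ≤ Real.log 2 := by
    apply Real.log_le_log (div_pos (by linarith [hr.1]) hR)
    rw [div_le_iff₀ hR]; exact hr.2
  have b1 : 0 ≤ Real.log (s / S) := Real.log_nonneg (by rw [le_div_iff₀ hS]; linarith [hs.1])
  have b2 : Real.log (s / S) ≤ Real.log 2 := by
    apply Real.log_le_log (div_pos (by linarith [hs.1]) hS)
    rw [div_le_iff₀ hS]; exact hs.2
  have hτ0 : 0 < τ := by linarith [hτ.1]
  have c1 : Real.log τ ≤ Real.log 4 := Real.log_le_log hτ0 hτ.2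
  have c2 : -Real.log 4 ≤ Real.log τ := by
    rw [← Real.log_inv]
    exact Real.log_le_log (by norm_num) (by norm_num; linarith [hτ.1])
  rw [abs_le]
  constructor <;> linarith

/-- representation of the angular kernel on a block -/
theorem angK_rep (h : Bump M A θ) {Λ : ℝ} (hΛ : 0 < Λ) (m : ℤ) {R S : ℝ} (hR : 0 < R) (hS : 0 < S)
    {c : ℝ → ℂ} (hc : Continuous c) (hci : Integrable c)
    (hcr : ∀ τ : ℝ, |τ| ≤ 3 → bI (wm m) (Real.pi * R * S / Λ * Real.exp τ) =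
      ∫ η : ℝ, cexp (((2 * Real.pi * (η * τ) : ℝ) : ℂ) * I) * c η)
    {r s : ℝ} (hr : r ∈ Icc R (2 * R)) (hs : s ∈ Icc S (2 * S)) (z w : ℝ) :
    angK (k3 Λ θ) m r s z w = (I / (2 * Λ)) ^ (1 / 2 : ℂ) *
      ((∫ η : ℝ, c η * cexp (2 * Real.pi * I * η * ((Real.log (r / R) + Real.log (s / S) : ℝ) : ℂ)) *
        k2 Λ (tht θ η) ((r - s) ^ 2 + (z - w) ^ 2)) +
      ∫ η : ℝ, crefl m c η * cexp (2 * Real.pi * I * η * ((Real.log (r / R) + Real.log (s / S) : ℝ) : ℂ)) *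
        k2 Λ (tht θ η) ((r + s) ^ 2 + (z - w) ^ 2)) := by
  set b : ℝ := Real.log (r / R) + Real.log (s / S) with hb
  have hc' : Continuous (crefl m c) := by
    unfold crefl
    exact continuous_const.mul (Complex.continuous_conj.comp (hc.comp continuous_neg))
  have hci' : Integrable (crefl m c) := by
    unfold crefl
    apply Integrable.const_mul
    exact (Complex.conjCLE : ℂ →L[ℝ] ℂ).integrable_comp hci.comp_neg
  rw [mul_add, ← V_eq h hΛ hc hci b, ← V_eq h hΛ hc' hci' b, angK_time h hΛ, ← integral_add]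
  · congr 1
    ext τ
    by_cases hτ : τ ∈ Icc (1/4 : ℝ) 4
    · have hτ0 : 0 < τ := by linarith [hτ.1]
      have hΛτ : Λ * τ ≠ 0 := (mul_pos hΛ hτ0).ne'
      have hr0 : 0 < r := by linarith [hr.1]
      have hs0 : 0 < s := by linarith [hs.1]
      rw [ang_time m hΛτ]
      have hlog := log_range hR hS hr hs hτ
      have e1 : Real.pi * r * s / (Λ * τ) = Real.pi * R * S / Λ * Real.exp (b - Real.log τ) := by
        rw [hb, Real.exp_sub, Real.exp_add, Real.exp_log (by positivity), Real.exp_log (by positivity),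
          Real.exp_log hτ0]
        field_simp
      rw [e1, hcr _ hlog]
      have e2 : conj (∫ η : ℝ, cexp (((2 * Real.pi * (η * (b - Real.log τ)) : ℝ) : ℂ) * I) * c η) =
          ∫ η : ℝ, cexp (((2 * Real.pi * (η * (b - Real.log τ)) : ℝ) : ℂ) * I) * conj (c (-η)) := by
        rw [← integral_conj, ← integral_neg_eq_self]
        congr 1
        ext η
        rw [map_mul, ← Complex.exp_conj]
        congr 2
        rw [map_mul, Complex.conj_ofReal, Complex.conj_I]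
        push_cast
        ring
      rw [e2]
      have e3 : ∫ η : ℝ, cexp (((2 * Real.pi * (η * (b - Real.log τ)) : ℝ) : ℂ) * I) * crefl m c η =
          (-1) ^ m * ∫ η : ℝ, cexp (((2 * Real.pi * (η * (b - Real.log τ)) : ℝ) : ℂ) * I) * conj (c (-η)) := by
        rw [← integral_const_mul]
        congr 1
        ext η
        unfold crefl
        ring
      rw [e3]
      ring
    · have : Wt Λ θ τ = 0 := by unfold Wt; rw [h.eq_zero hτ]; ring
      rw [this]; ring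
  · exact integrable_V h hΛ hc b _
  · exact integrable_V h hΛ hc' b _

end

end Vale.Agent.P117
end
end

section

section

open MeasureTheory Complex Set
open scoped ENNReal NNReal ContDiff FourierTransform SchwartzMap ComplexConjugate

namespace Vale.Agent.P117

/-- three-space as a product -/
noncomputable def p3 : E3 ≃ᵐ (ℝ × ℝ) × ℝ :=
  ((MeasurableEquiv.toLp 2 (Fin 3 → ℝ)).symm.trans
    (MeasurableEquiv.piFinSuccAbove (fun _ => ℝ) (2 : Fin 3))).trans
    (MeasurableEquiv.prodComm.trans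
      (MeasurableEquiv.prodCongr MeasurableEquiv.finTwoArrow (MeasurableEquiv.refl ℝ)))

theorem mp_p3 : MeasurePreserving p3 volume volume := by
  have h1 : MeasurePreserving (MeasurableEquiv.toLp 2 (Fin 3 → ℝ)).symm volume volume :=
    PiLp.volume_preserving_ofLp (Fin 3)
  have h2 := volume_preserving_piFinSuccAbove (fun _ : Fin 3 => ℝ) (2 : Fin 3)
  have h3 : MeasurePreserving (MeasurableEquiv.prodComm : ℝ × (Fin 2 → ℝ) ≃ᵐ (Fin 2 → ℝ) × ℝ)
    (volume.prod volume) (volume.prod volume) := Measure.measurePreserving_swap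
  have h4 : MeasurePreserving (MeasurableEquiv.prodCongr
      (MeasurableEquiv.finTwoArrow : (Fin 2 → ℝ) ≃ᵐ ℝ × ℝ) (MeasurableEquiv.refl ℝ))
      (volume.prod volume) (volume.prod volume) :=
    (volume_preserving_finTwoArrow ℝ).prod (MeasurePreserving.id volume)
  exact (h4.comp h3).comp (h2.comp h1)

theorem lintegral_E3 (F : (ℝ × ℝ) × ℝ → ℝ≥0∞) : ∫⁻ x : E3, F ((x 0, x 1), x 2) = ∫⁻ z, F z :=
  mp_p3.lintegral_comp_emb p3.measurableEmbedding F

/-- the point with cylindrical coordinates (r, z, angle) -/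
noncomputable def pt (q : (ℝ × ℝ) × ℝ) : E3 :=
  !₂[q.1.1 * Real.cos q.2, q.1.1 * Real.sin q.2, q.1.2]

theorem pt_zero (q : (ℝ × ℝ) × ℝ) : pt q 0 = q.1.1 * Real.cos q.2 := rfl
theorem pt_one (q : (ℝ × ℝ) × ℝ) : pt q 1 = q.1.1 * Real.sin q.2 := rfl
theorem pt_two (q : (ℝ × ℝ) × ℝ) : pt q 2 = q.1.2 := rfl

/-- r dr on the half line -/
noncomputable def nu0 : Measure ℝ := (volume.restrict (Ioi 0)).withDensity (fun r => ENNReal.ofReal r)

/-- r dr dz on the half plane -/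
noncomputable def nu2 : Measure (ℝ × ℝ) := nu0.prod volume

instance : SFinite nu0 := by unfold nu0; infer_instance
instance : SFinite nu2 := by unfold nu2; infer_instance

theorem nu2_eq : nu2 = (volume.restrict {p : ℝ × ℝ | 0 < p.1}).withDensity
    (fun p => ENNReal.ofReal p.1) := by
  unfold nu2 nu0
  rw [prod_withDensity_left (by fun_prop)]
  congr 1
  have h1 : {p : ℝ × ℝ | 0 < p.1} = Ioi 0 ×ˢ univ := by ext p; simp
  rw [h1, Measure.volume_eq_prod, ← Measure.prod_restrict, Measure.restrict_univ]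

theorem nu_eq : nu = ENNReal.ofReal (2 * Real.pi) • nu2 := by
  rw [nu2_eq, ← withDensity_smul _ (by fun_prop)]
  unfold nu
  congr 1
  ext p
  rw [Pi.smul_apply, smul_eq_mul, ← ENNReal.ofReal_mul (by positivity)]

theorem measurable_pt : Measurable pt := by
  have h : Measurable (fun q => WithLp.ofLp (pt q)) := by
    rw [measurable_pi_iff]
    intro i
    fin_cases i
    · change Measurable (fun q : (ℝ × ℝ) × ℝ => q.1.1 * Real.cos q.2)
      fun_prop
    · change Measurable (fun q : (ℝ × ℝ) × ℝ => q.1.1 * Real.sin q.2)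
      fun_prop
    · change Measurable (fun q : (ℝ × ℝ) × ℝ => q.1.2)
      fun_prop
  exact (MeasurableEquiv.toLp 2 (Fin 3 → ℝ)).measurable.comp h

/-- angle measure -/
noncomputable def ang : Measure ℝ := volume.restrict (Ioo (-Real.pi) Real.pi)

instance : IsFiniteMeasure ang := by unfold ang; infer_instance

theorem lintegral_polar {f : ℝ × ℝ → ℝ≥0∞} (hf : Measurable f) :
    ∫⁻ p, f (p.1 * Real.cos p.2, p.1 * Real.sin p.2) ∂(nu0.prod ang) = ∫⁻ z, f z := by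
  rw [← lintegral_comp_polarCoord_symm]
  have h1 : polarCoord.target = Ioi (0:ℝ) ×ˢ Ioo (-Real.pi) Real.pi := rfl
  rw [h1, Measure.volume_eq_prod, ← Measure.prod_restrict]
  unfold nu0 ang
  rw [prod_withDensity_left (by fun_prop), lintegral_withDensity_eq_lintegral_mul _ (by fun_prop) (by fun_prop)]
  rfl

theorem map_pt : Measure.map pt (nu2.prod ang) = volume := by
  refine Measure.ext_of_lintegral _ fun f hf => ?_
  rw [lintegral_map hf measurable_pt]
  have hm : Measurable (fun q => f (pt q)) := hf.comp measurable_pt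
  rw [lintegral_prod _ hm.aemeasurable]
  unfold nu2
  rw [lintegral_prod_symm _ (Measurable.lintegral_prod_right' hm).aemeasurable]
  have e : ∀ x : E3, f x = (fun z : (ℝ × ℝ) × ℝ => f (p3.symm z)) ((x 0, x 1), x 2) := by
    intro x
    change f x = f (p3.symm (p3 x))
    rw [MeasurableEquiv.symm_apply_apply]
  rw [lintegral_congr e, lintegral_E3 (fun z => f (p3.symm z)), Measure.volume_eq_prod, lintegral_prod_symm]
  · congr 1
    ext w
    have hm3 : Measurable (fun x => f (p3.symm x)) := hf.comp p3.symm.measurable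
    have hm4 : Measurable (fun x : ℝ × ℝ => f (p3.symm (x, w))) := hm3.comp measurable_prodMk_right
    have hm5 : Measurable (fun p : ℝ × ℝ => f (p3.symm ((p.1 * Real.cos p.2, p.1 * Real.sin p.2), w))) := by
      have h6 := hm4.comp (by fun_prop : Measurable (fun p : ℝ × ℝ => (p.1 * Real.cos p.2, p.1 * Real.sin p.2)))
      exact h6
    rw [← lintegral_polar hm4, lintegral_prod _ hm5.aemeasurable]
    have h1 : ∀ x y : ℝ, pt ((x, w), y) = p3.symm ((x * Real.cos y, x * Real.sin y), w) := by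
      intro x y
      apply p3.injective
      rw [MeasurableEquiv.apply_symm_apply]
      rfl
    simp only [h1]
  · exact (hf.comp p3.symm.measurable).aemeasurable

theorem measurable_cyl : Measurable cyl := by
  unfold cyl
  fun_prop

theorem ang_univ : ang univ = ENNReal.ofReal (2 * Real.pi) := by
  unfold ang
  rw [Measure.restrict_apply_univ, Real.volume_Ioo]
  congr 1; ring

theorem ae_nu2 : ∀ᵐ p ∂nu2, 0 < p.1 := by
  rw [nu2_eq]
  apply (withDensity_absolutelyContinuous _ _).ae_le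
  exact ae_restrict_mem (measurableSet_lt measurable_const measurable_fst)

theorem cyl_pt {q : (ℝ × ℝ) × ℝ} (h : 0 < q.1.1) : cyl (pt q) = q.1 := by
  unfold cyl
  rw [pt_zero, pt_one, pt_two]
  have : (q.1.1 * Real.cos q.2) ^ 2 + (q.1.1 * Real.sin q.2) ^ 2 = q.1.1 ^ 2 := by
    have := Real.sin_sq_add_cos_sq q.2
    linear_combination q.1.1 ^ 2 * this
  rw [this, Real.sqrt_sq h.le]

theorem ae_cyl_pt : ∀ᵐ q ∂(nu2.prod ang), cyl (pt q) = q.1 := by
  have h : ∀ᵐ q ∂(nu2.prod ang), 0 < q.1.1 :=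
    Measure.quasiMeasurePreserving_fst.ae ae_nu2
  filter_upwards [h] with q hq
  exact cyl_pt hq

theorem T11_map : Measure.map cyl (volume : Measure E3) = nu := by
  rw [← map_pt, Measure.map_map measurable_cyl measurable_pt, nu_eq]
  have : (cyl ∘ pt) =ᵐ[nu2.prod ang] Prod.fst := ae_cyl_pt
  rw [Measure.map_congr this, Measure.map_fst_prod, ang_univ]

theorem mp_cyl : MeasurePreserving cyl volume nu := ⟨measurable_cyl, T11_map⟩

theorem ph_pt {q : (ℝ × ℝ) × ℝ} (h : 0 < q.1.1) : ph (pt q) = cexp (I * q.2) := by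
  unfold ph
  rw [pt_zero, pt_one]
  have : (q.1.1 * Real.cos q.2) ^ 2 + (q.1.1 * Real.sin q.2) ^ 2 = q.1.1 ^ 2 := by
    have := Real.sin_sq_add_cos_sq q.2
    linear_combination q.1.1 ^ 2 * this
  rw [this, Real.sqrt_sq h.le]
  have h' : (q.1.1 : ℂ) ≠ 0 := by exact_mod_cast h.ne'
  rw [mul_comm I (q.2 : ℂ), Complex.exp_mul_I]
  push_cast
  field_simp

theorem dist_pt (q q' : (ℝ × ℝ) × ℝ) : ‖pt q - pt q'‖ ^ 2 =
    q.1.1 ^ 2 + q'.1.1 ^ 2 - 2 * q.1.1 * q'.1.1 * Real.cos (q'.2 - q.2) + (q.1.2 - q'.1.2) ^ 2 := by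
  rw [EuclideanSpace.norm_sq_eq, Fin.sum_univ_three]
  change ‖pt q 0 - pt q' 0‖ ^ 2 + ‖pt q 1 - pt q' 1‖ ^ 2 + ‖pt q 2 - pt q' 2‖ ^ 2 = _
  rw [Real.norm_eq_abs, Real.norm_eq_abs, Real.norm_eq_abs, sq_abs, sq_abs, sq_abs, pt_zero, pt_one,
    pt_two, pt_zero, pt_one, pt_two, Real.cos_sub]
  have h1 := Real.sin_sq_add_cos_sq q.2
  have h2 := Real.sin_sq_add_cos_sq q'.2
  linear_combination q.1.1 ^ 2 * h1 + q'.1.1 ^ 2 * h2

/-- change of variables for integrals -/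
theorem integral_pt {H : E3 → ℂ} (hH : Integrable H) :
    ∫ x : E3, H x = ∫ p, (∫ α in (-Real.pi)..Real.pi, H (pt (p, α))) ∂nu2 := by
  have h1 : ∫ x : E3, H x = ∫ q, H (pt q) ∂(nu2.prod ang) := by
    conv_lhs => rw [← map_pt]
    rw [integral_map measurable_pt.aemeasurable]
    rw [map_pt]
    exact hH.aestronglyMeasurable
  have h2 : Integrable (fun q => H (pt q)) (nu2.prod ang) := by
    have := (integrable_map_measure (μ := nu2.prod ang) (f := pt) (g := H)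
      (by rw [map_pt]; exact hH.aestronglyMeasurable) measurable_pt.aemeasurable)
    rw [map_pt] at this
    exact this.1 hH
  rw [h1, integral_prod _ h2]
  congr 1
  ext p
  rw [intervalIntegral.integral_of_le (by linarith [Real.pi_pos]), integral_Ioc_eq_integral_Ioo]
  rfl

theorem integral_nu2 (f : ℝ × ℝ → ℂ) :
    ∫ p, f p ∂nu2 = ∫ p in {p : ℝ × ℝ | 0 < p.1}, (p.1 : ℂ) * f p := by
  have hs : MeasurableSet {p : ℝ × ℝ | 0 < p.1} := measurableSet_lt measurable_const measurable_fst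
  rw [nu2_eq, integral_withDensity_eq_integral_toReal_smul (by fun_prop)
    (by filter_upwards with p; exact ENNReal.ofReal_lt_top)]
  apply setIntegral_congr_fun hs
  intro p hp
  have : 0 < p.1 := hp
  simp only
  rw [ENNReal.toReal_ofReal this.le, Complex.real_smul]

theorem measurable_ph : Measurable ph := by
  unfold ph
  fun_prop

theorem ph_cases (x : E3) : ph x = 0 ∨ ‖ph x‖ = 1 := by
  by_cases h : Real.sqrt (x 0 ^ 2 + x 1 ^ 2) = 0
  · left
    unfold ph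
    rw [h]; simp
  · right
    unfold ph
    rw [norm_div, Complex.norm_real, Real.norm_eq_abs, abs_of_nonneg (Real.sqrt_nonneg _)]
    have : ‖((x 0 : ℂ) + I * (x 1 : ℂ))‖ = Real.sqrt (x 0 ^ 2 + x 1 ^ 2) := by
      rw [mul_comm I, Complex.norm_add_mul_I]
    rw [this, div_self h]

theorem norm_ph_zpow (x : E3) (m : ℤ) : ‖ph x ^ m‖ ≤ 1 := by
  rcases ph_cases x with h | h
  · rw [h]
    rcases eq_or_ne m 0 with rfl | hm
    · simp
    · rw [zero_zpow m hm]; simp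
  · rw [norm_zpow, h, one_zpow]

theorem measurable_ph_zpow (m : ℤ) : Measurable (fun x => ph x ^ m) := measurable_ph.pow_const m

theorem Adm.cyl_ph {F : ℝ × ℝ → ℂ} (hF : Adm nu F) (m : ℤ) :
    Adm volume (fun x : E3 => F (cyl x) * ph x ^ m) := by
  have h1 : Integrable (fun x : E3 => F (cyl x)) := by
    have := integrable_map_measure (μ := (volume : Measure E3)) (f := cyl) (g := F)
      hF.meas.aestronglyMeasurable measurable_cyl.aemeasurable
    rw [T11_map] at this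
    exact this.1 hF.int
  have hm : Measurable (fun x : E3 => F (cyl x) * ph x ^ m) :=
    (hF.meas.comp measurable_cyl).mul (measurable_ph_zpow m)
  have hb : ∀ x : E3, ‖F (cyl x) * ph x ^ m‖ ≤ ‖F (cyl x)‖ := by
    intro x
    rw [norm_mul]
    exact mul_le_of_le_one_right (norm_nonneg _) (norm_ph_zpow x m)
  refine ⟨hm, h1.norm.mono' hm.aestronglyMeasurable (by filter_upwards with x; exact hb x), ?_⟩
  obtain ⟨C, hC⟩ := hF.bdd
  exact ⟨C, fun x => (hb x).trans (hC _)⟩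

theorem eLpNorm_cyl_ph_le {F : ℝ × ℝ → ℂ} (hF : Measurable F) (m : ℤ) (p : ℝ≥0∞) :
    eLpNorm (fun x : E3 => F (cyl x) * ph x ^ m) p volume ≤ eLpNorm F p nu := by
  have h1 : eLpNorm (F ∘ cyl) p volume = eLpNorm F p nu := by
    rw [← T11_map, eLpNorm_map_measure hF.aestronglyMeasurable measurable_cyl.aemeasurable]
  rw [← h1]
  apply eLpNorm_mono
  intro x
  rw [norm_mul]
  exact mul_le_of_le_one_right (norm_nonneg _) (norm_ph_zpow x m)

theorem nrm_cyl_ph_le {F : ℝ × ℝ → ℂ} (hF : Adm nu F) (m : ℤ) {p : ℝ≥0∞} (hp : 1 ≤ p) :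
    nrm p (fun x : E3 => F (cyl x) * ph x ^ m) volume ≤ nrm p F nu :=
  ENNReal.toReal_mono (hF.eLpNorm_ne_top hp) (eLpNorm_cyl_ph_le hF.meas m p)

/-- angular integral -/
theorem ang_int {g : ℝ → ℂ} (hg : Continuous g) (m : ℤ) (α : ℝ) :
    ∫ β in (-Real.pi)..Real.pi, g (Real.cos (β - α)) * cexp (I * (m * (β - α) : ℝ)) =
    ∫ t in (-Real.pi)..Real.pi, g (Real.cos t) * (Real.cos (m * t) : ℂ) := by
  have hper : Function.Periodic (fun t : ℝ => g (Real.cos t) * cexp (I * (m * t : ℝ))) (2 * Real.pi) := by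
    intro t
    simp only
    rw [Real.cos_add_two_pi]
    congr 1
    have : cexp (I * ((m * (t + 2 * Real.pi) : ℝ) : ℂ)) =
        cexp (I * ((m * t : ℝ) : ℂ)) * cexp (m * (2 * Real.pi * I)) := by
      rw [← Complex.exp_add]; congr 1; push_cast; ring
    rw [this, Complex.exp_int_mul_two_pi_mul_I, mul_one]
  have h1 : ∫ β in (-Real.pi)..Real.pi, g (Real.cos (β - α)) * cexp (I * (m * (β - α) : ℝ)) =
      ∫ t in (-Real.pi)..Real.pi, g (Real.cos t) * cexp (I * (m * t : ℝ)) := by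
    have h2 := intervalIntegral.integral_comp_sub_right
      (fun t : ℝ => g (Real.cos t) * cexp (I * (m * t : ℝ))) α (a := -Real.pi) (b := Real.pi)
    rw [h2]
    have h3 := hper.intervalIntegral_add_eq (-Real.pi - α) (-Real.pi)
    have e1 : -Real.pi - α + 2 * Real.pi = Real.pi - α := by ring
    have e2 : -Real.pi + 2 * Real.pi = Real.pi := by ring
    rw [e1, e2] at h3
    exact h3
  rw [h1]
  have h4 : ∀ t : ℝ, g (Real.cos t) * cexp (I * (m * t : ℝ)) =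
      g (Real.cos t) * (Real.cos (m * t) : ℂ) + g (Real.cos t) * (Real.sin (m * t) * I) := by
    intro t
    rw [← mul_add, mul_comm I, Complex.exp_mul_I]
    push_cast
    ring
  simp_rw [h4]
  rw [intervalIntegral.integral_add]
  · have h5 : ∫ t in (-Real.pi)..Real.pi, g (Real.cos t) * (Real.sin (m * t) * I) = 0 := by
      have h6 := intervalIntegral.integral_comp_neg
        (fun t : ℝ => g (Real.cos t) * ((Real.sin (m * t) : ℂ) * I)) (a := -Real.pi) (b := Real.pi)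
      rw [neg_neg] at h6
      have h7 : ∀ t : ℝ, g (Real.cos (-t)) * ((Real.sin (m * -t) : ℂ) * I) =
          - (g (Real.cos t) * ((Real.sin (m * t) : ℂ) * I)) := by
        intro t
        rw [Real.cos_neg, mul_neg, Real.sin_neg]
        push_cast; ring
      simp_rw [h7] at h6
      rw [intervalIntegral.integral_neg] at h6
      have h8 : (2:ℂ) * ∫ t in (-Real.pi)..Real.pi, g (Real.cos t) * (Real.sin (m * t) * I) = 0 := by
        linear_combination -h6
      exact (mul_eq_zero.1 h8).resolve_left two_ne_zero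
    rw [h5, add_zero]
  · exact (by fun_prop : Continuous _).intervalIntegrable _ _
  · exact (by fun_prop : Continuous _).intervalIntegrable _ _

/-- form on the half plane with the angular averaged kernel -/
noncomputable def FormC (k : ℝ → ℂ) (m : ℤ) (F G : ℝ × ℝ → ℂ) : ℂ :=
  ∫ x, (∫ y, angK k m x.1 y.1 x.2 y.2 * F y ∂nu2) * G x ∂nu2

theorem integrable_inner {K : E3 → ℂ} (hK : Continuous K) {C : ℝ} (hC : ∀ x, ‖K x‖ ≤ C)
    {f : E3 → ℂ} (hf : Adm volume f) (x : E3) : Integrable (fun y => K (x - y) * f y) := by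
  refine hf.int.bdd_mul (c := C) ?_ ?_
  · exact (hK.comp (by fun_prop)).aestronglyMeasurable
  · filter_upwards with y; exact hC _

theorem inner_form {k : ℝ → ℂ} (hk : Continuous k) {C : ℝ} (hb : ∀ q, ‖k q‖ ≤ C) (m : ℤ)
    {F : ℝ × ℝ → ℂ} (hF : Adm nu F) (p : ℝ × ℝ) (α : ℝ) :
    ∫ y : E3, k (‖pt (p, α) - y‖ ^ 2) * (F (cyl y) * ph y ^ m) =
    cexp (I * (m * α : ℝ)) * ∫ y, angK k m p.1 y.1 p.2 y.2 * F y ∂nu2 := by
  have hK : Continuous (fun x : E3 => k (‖x‖ ^ 2)) := hk.comp (by fun_prop)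
  rw [integral_pt (integrable_inner hK (fun x => hb _) (hF.cyl_ph m) _), ← integral_const_mul]
  apply integral_congr_ae
  filter_upwards [ae_nu2] with y hy
  have e1 : ∀ β : ℝ, k (‖pt (p, α) - pt (y, β)‖ ^ 2) * (F (cyl (pt (y, β))) * ph (pt (y, β)) ^ m) =
      (cexp (I * (m * α : ℝ)) * F y) * (k (p.1 ^ 2 + y.1 ^ 2 - 2 * p.1 * y.1 * Real.cos (β - α) +
        (p.2 - y.2) ^ 2) * cexp (I * (m * (β - α) : ℝ))) := by
    intro β
    rw [dist_pt, cyl_pt (q := (y, β)) hy, ph_pt (q := (y, β)) hy, ← Complex.exp_int_mul]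
    have : cexp (m * (I * (β : ℂ))) = cexp (I * (m * α : ℝ)) * cexp (I * (m * (β - α) : ℝ)) := by
      rw [← Complex.exp_add]; congr 1; push_cast; ring
    simp only
    rw [this]; ring
  simp_rw [e1]
  rw [intervalIntegral.integral_const_mul,
    ang_int (g := fun c => k (p.1 ^ 2 + y.1 ^ 2 - 2 * p.1 * y.1 * c + (p.2 - y.2) ^ 2)) (by fun_prop) m α]
  unfold angK
  ring

theorem T11_formC (k : ℝ → ℂ) (hk : Continuous k) (hb : ∃ C : ℝ, ∀ q, ‖k q‖ ≤ C) (m : ℤ)
    (F G : ℝ × ℝ → ℂ) (hF : Adm nu F) (hG : Adm nu G) :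
    Form3 k m F G = (2 * Real.pi : ℂ) * FormC k m F G := by
  obtain ⟨C, hC⟩ := hb
  have hK : Continuous (fun x : E3 => k (‖x‖ ^ 2)) := hk.comp (by fun_prop)
  unfold Form3
  have e1 : ∀ x : E3, ∫ y : E3, k (‖x - y‖ ^ 2) * (F (cyl y) * ph y ^ m) * (G (cyl x) * ph x ^ (-m)) =
      cv (fun x : E3 => k (‖x‖ ^ 2)) (fun y : E3 => F (cyl y) * ph y ^ m) x * (G (cyl x) * ph x ^ (-m)) := by
    intro x
    rw [integral_mul_const]; rfl
  simp_rw [e1]
  have hint : Integrable (fun x : E3 =>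
      cv (fun x : E3 => k (‖x‖ ^ 2)) (fun y : E3 => F (cyl y) * ph y ^ m) x *
        (G (cyl x) * ph x ^ (-m))) := by
    refine (hG.cyl_ph (-m)).int.bdd_mul (c := C * ∫ y, ‖F (cyl y) * ph y ^ m‖)
      (continuous_cv hK (fun x => hC _) (hF.cyl_ph m).int).aestronglyMeasurable ?_
    filter_upwards with x
    exact norm_cv_le (fun x => hC _) (hF.cyl_ph m).int x
  rw [integral_pt hint]
  unfold FormC
  rw [← integral_const_mul]
  apply integral_congr_ae
  filter_upwards [ae_nu2] with x hx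
  have e2 : ∀ α : ℝ, cv (fun x : E3 => k (‖x‖ ^ 2)) (fun y : E3 => F (cyl y) * ph y ^ m) (pt (x, α)) *
        (G (cyl (pt (x, α))) * ph (pt (x, α)) ^ (-m)) =
      (∫ y, angK k m x.1 y.1 x.2 y.2 * F y ∂nu2) * G x := by
    intro α
    unfold cv
    rw [inner_form hk hC m hF, cyl_pt (q := (x, α)) hx, ph_pt (q := (x, α)) hx, ← Complex.exp_int_mul]
    have : cexp (I * (m * α : ℝ)) * cexp (((-m : ℤ) : ℂ) * (I * (α : ℂ))) = 1 := by
      rw [← Complex.exp_add, ← Complex.exp_zero]; congr 1; push_cast; ring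
    linear_combination ((∫ y, angK k m x.1 y.1 x.2 y.2 * F y ∂nu2) * G x) * this
  simp_rw [e2]
  rw [intervalIntegral.integral_const, Complex.real_smul]
  push_cast
  ring

end Vale.Agent.P117
end
end

section

section

open MeasureTheory Complex Set
open scoped ENNReal NNReal ContDiff FourierTransform SchwartzMap ComplexConjugate Topology

namespace Vale.Agent.P117

section swap
variable {α β γ : Type*} [MeasurableSpace α] [MeasurableSpace β] [MeasurableSpace γ]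
  {μ : Measure α} {ν' : Measure β} {ρ : Measure γ} [SFinite μ] [SFinite ν'] [SFinite ρ]

theorem triple_swap {Ψ : α → β → γ → ℂ} (hm : Measurable (fun p : (α × β) × γ => Ψ p.1.1 p.1.2 p.2))
    {f : α → ℝ} {g : β → ℝ} {h : γ → ℝ} (hf : Integrable f μ) (hg : Integrable g ν')
    (hh : Integrable h ρ) (hb : ∀ x y η, ‖Ψ x y η‖ ≤ f x * g y * h η) :
    ∫ x, ∫ y, ∫ η, Ψ x y η ∂ρ ∂ν' ∂μ = ∫ η, ∫ x, ∫ y, Ψ x y η ∂ν' ∂μ ∂ρ := by
  have h1 : ∀ x, ∫ y, ∫ η, Ψ x y η ∂ρ ∂ν' = ∫ η, ∫ y, Ψ x y η ∂ν' ∂ρ := by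
    intro x
    apply integral_integral_swap
    have := (hg.const_mul (f x)).mul_prod hh
    refine this.mono' ?_ ?_
    · apply Measurable.aestronglyMeasurable
      exact hm.comp (by fun_prop : Measurable (fun p : β × γ => ((x, p.1), p.2)))
    · filter_upwards with p
      exact hb x p.1 p.2
  simp_rw [h1]
  apply integral_integral_swap
  have h2 : StronglyMeasurable (fun p : α × γ => ∫ y, Ψ p.1 y p.2 ∂ν') := by
    apply StronglyMeasurable.integral_prod_right' (f := fun q : (α × γ) × β => Ψ q.1.1 q.2 q.1.2)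
    apply Measurable.stronglyMeasurable
    exact hm.comp (by fun_prop : Measurable (fun q : (α × γ) × β => ((q.1.1, q.2), q.1.2)))
  have h3 := (hf.mul_const (∫ y, g y ∂ν')).mul_prod hh
  refine h3.mono' h2.aestronglyMeasurable ?_
  filter_upwards with p
  simp only [Function.uncurry_def]
  calc ‖∫ y, Ψ p.1 y p.2 ∂ν'‖ ≤ ∫ y, f p.1 * g y * h p.2 ∂ν' :=
        norm_integral_le_of_norm_le ((hg.const_mul _).mul_const _) (by filter_upwards with y using hb _ _ _)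
    _ = _ := by rw [integral_mul_const, integral_const_mul]

end swap

section wn

theorem lintegral_nu2 {f : ℝ × ℝ → ℝ≥0∞} (hf : Measurable f) :
    ∫⁻ p, f p ∂nu2 = ∫⁻ p in {p : ℝ × ℝ | 0 < p.1}, ENNReal.ofReal p.1 * f p := by
  rw [nu2_eq, lintegral_withDensity_eq_lintegral_mul _ (by fun_prop) hf]
  rfl

theorem nu2_le : nu2 ≤ nu := by
  rw [nu_eq]
  have h1 : (1 : ℝ≥0∞) ≤ ENNReal.ofReal (2 * Real.pi) := by
    rw [← ENNReal.ofReal_one]
    apply ENNReal.ofReal_le_ofReal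
    linarith [Real.pi_gt_three]
  intro s
  rw [Measure.smul_apply, smul_eq_mul]
  exact le_mul_of_one_le_left (zero_le) h1

theorem integrable_nu2 {F : ℝ × ℝ → ℂ} (hF : Adm nu F) : Integrable F nu2 := hF.int.mono_measure nu2_le

theorem wnorm {S : ℝ} (hS : 0 < S) {F : ℝ × ℝ → ℂ} (hF : Measurable F)
    (hFs : ∀ y, F y ≠ 0 → y.1 ∈ Icc S (2 * S)) {p : ℝ≥0∞} (hp : 1 ≤ p) (hp' : p ≠ ⊤) :
    eLpNorm (fun y => (y.1 : ℂ) * F y) p volume ≤
      ENNReal.ofReal ((2 * S) ^ (1 - 1 / p.toReal)) * eLpNorm F p nu := by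
  have hp0 : p ≠ 0 := fun h => by rw [h] at hp; exact absurd hp (by norm_num)
  have hp1 : 1 ≤ p.toReal := by
    rw [← ENNReal.toReal_one]
    exact ENNReal.toReal_mono hp' hp
  have hpp : 0 < p.toReal := by linarith
  have hs : MeasurableSet {p : ℝ × ℝ | 0 < p.1} := measurableSet_lt measurable_const measurable_fst
  rw [eLpNorm_eq_lintegral_rpow_enorm_toReal hp0 hp', eLpNorm_eq_lintegral_rpow_enorm_toReal hp0 hp']
  have h1 : ∫⁻ y, ‖(y.1 : ℂ) * F y‖ₑ ^ p.toReal ≤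
      ENNReal.ofReal ((2 * S) ^ (p.toReal - 1)) * ∫⁻ y, ‖F y‖ₑ ^ p.toReal ∂nu := by
    calc ∫⁻ y, ‖(y.1 : ℂ) * F y‖ₑ ^ p.toReal ≤
          ∫⁻ y in {p : ℝ × ℝ | 0 < p.1}, ENNReal.ofReal ((2 * S) ^ (p.toReal - 1)) *
            (ENNReal.ofReal y.1 * ‖F y‖ₑ ^ p.toReal) := by
          rw [← lintegral_indicator hs]
          apply lintegral_mono
          intro y
          by_cases hy : F y = 0
          · simp [hy, hpp]
          have hy1 := hFs y hy
          have hy0 : 0 < y.1 := by linarith [hy1.1]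
          simp only
          rw [indicator_of_mem (show y ∈ {p : ℝ × ℝ | 0 < p.1} from hy0), enorm_mul,
            ENNReal.mul_rpow_of_nonneg _ _ hpp.le, ← mul_assoc]
          gcongr
          have e1 : ‖(y.1 : ℂ)‖ₑ = ENNReal.ofReal y.1 := by
            rw [← ofReal_norm, Complex.norm_real, Real.norm_of_nonneg hy0.le]
          rw [e1, ENNReal.ofReal_rpow_of_pos hy0, ← ENNReal.ofReal_mul (by positivity)]
          apply ENNReal.ofReal_le_ofReal
          have e2 : y.1 ^ p.toReal = y.1 ^ (p.toReal - 1) * y.1 := by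
            conv_rhs => rw [← Real.rpow_one y.1, ← Real.rpow_mul hy0.le, one_mul]
            rw [← Real.rpow_add hy0]
            congr 1; ring
          rw [e2]
          gcongr
          exact hy1.2
      _ = ENNReal.ofReal ((2 * S) ^ (p.toReal - 1)) * ∫⁻ y, ‖F y‖ₑ ^ p.toReal ∂nu2 := by
          have hF1 : Measurable fun y => ‖F y‖ₑ ^ p.toReal := hF.enorm.pow_const _
          have hF2 : Measurable fun y : ℝ × ℝ => ENNReal.ofReal y.1 * ‖F y‖ₑ ^ p.toReal :=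
            measurable_fst.ennreal_ofReal.mul hF1
          rw [lintegral_const_mul _ hF2, lintegral_nu2 hF1]
      _ ≤ _ := by
          gcongr
          exact nu2_le
  calc _ ≤ (ENNReal.ofReal ((2 * S) ^ (p.toReal - 1)) * ∫⁻ y, ‖F y‖ₑ ^ p.toReal ∂nu) ^ (1 / p.toReal) := by
        gcongr
    _ = _ := by
        rw [ENNReal.mul_rpow_of_nonneg _ _ (by positivity), ENNReal.ofReal_rpow_of_pos (by positivity),
          ← Real.rpow_mul (by positivity)]
        congr 4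
        field_simp

theorem wadm {S : ℝ} (hS : 0 < S) {F : ℝ × ℝ → ℂ} (hF : Adm nu F)
    (hFs : ∀ y, F y ≠ 0 → y.1 ∈ Icc S (2 * S)) : Adm volume (fun y => (y.1 : ℂ) * F y) := by
  have hm : Measurable (fun y : ℝ × ℝ => (y.1 : ℂ) * F y) := by
    have := hF.meas
    fun_prop
  refine ⟨hm, ⟨hm.aestronglyMeasurable, ?_⟩, ?_⟩
  · have h1 := wnorm hS hF.meas hFs (p := 1) le_rfl (by norm_num)
    rw [eLpNorm_one_eq_lintegral_enorm] at h1
    refine lt_of_le_of_lt h1 ?_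
    exact ENNReal.mul_lt_top ENNReal.ofReal_lt_top (hF.eLpNorm_ne_top le_rfl).lt_top
  · obtain ⟨C, hC⟩ := hF.bdd
    have hC0 : 0 ≤ C := (norm_nonneg _).trans (hC 0)
    refine ⟨2 * S * C, fun y => ?_⟩
    by_cases hy : F y = 0
    · rw [hy]; simp; positivity
    have hy1 := hFs y hy
    have hy0 : 0 < y.1 := by linarith [hy1.1]
    rw [norm_mul, Complex.norm_real, Real.norm_of_nonneg hy0.le]
    have := hC y
    have := hy1.2
    gcongr

theorem wnrm {S : ℝ} (hS : 0 < S) {F : ℝ × ℝ → ℂ} (hF : Adm nu F)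
    (hFs : ∀ y, F y ≠ 0 → y.1 ∈ Icc S (2 * S)) {p : ℝ≥0∞} (hp : 1 ≤ p) (hp' : p ≠ ⊤) :
    nrm p (fun y => (y.1 : ℂ) * F y) volume ≤ (2 * S) ^ (1 - 1 / p.toReal) * nrm p F nu := by
  have h1 := wnorm hS hF.meas hFs hp hp'
  have h2 : (2 * S) ^ (1 - 1 / p.toReal) * nrm p F nu =
      (ENNReal.ofReal ((2 * S) ^ (1 - 1 / p.toReal)) * eLpNorm F p nu).toReal := by
    rw [ENNReal.toReal_mul, ENNReal.toReal_ofReal (by positivity)]
    rfl
  rw [h2]
  exact ENNReal.toReal_mono (ENNReal.mul_ne_top ENNReal.ofReal_ne_top (hF.eLpNorm_ne_top hp)) h1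

end wn

section refl
variable {M : ℕ} {A : ℝ} {θ : ℝ → ℂ}

/-- joint measurability of the modified plane kernel -/
theorem measurable_k2_tht (h : Bump M A θ) {Λ : ℝ} (hΛ : 0 < Λ) :
    Measurable (fun z : ℝ × ℝ => k2 Λ (tht θ z.1) z.2) := by
  obtain ⟨C, hC, hCt⟩ := Bump.tht M
  have h1 : (fun z : ℝ × ℝ => k2 Λ (tht θ z.1) z.2) = fun z : ℝ × ℝ => ∫ τ : ℝ, tht θ z.1 τ *
      (cexp (-2 * Real.pi * I * ((Λ * τ : ℝ) : ℂ)) * (I / (2 * ((Λ * τ : ℝ) : ℂ)))) * gp Λ z.2 τ := by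
    ext z
    exact k2_eq_gp (hCt A θ h z.1) hΛ z.2
  rw [h1]
  have hc := h.continuous
  have hg := measurable_gp Λ
  have hg2 : Measurable (fun p : (ℝ × ℝ) × ℝ => gp Λ p.1.2 p.2) := by
    have h3 := hg.comp (by fun_prop : Measurable (fun p : (ℝ × ℝ) × ℝ => (p.1.2, p.2)))
    exact h3
  have hθm : Measurable θ := hc.measurable
  have ht : Measurable (fun p : (ℝ × ℝ) × ℝ => tht θ p.1.1 p.2) := by
    unfold tht ea
    fun_prop
  apply StronglyMeasurable.measurable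
  apply StronglyMeasurable.integral_prod_right' (f := fun p : (ℝ × ℝ) × ℝ => tht θ p.1.1 p.2 *
      (cexp (-2 * Real.pi * I * ((Λ * p.2 : ℝ) : ℂ)) * (I / (2 * ((Λ * p.2 : ℝ) : ℂ)))) * gp Λ p.1.2 p.2)
  apply Measurable.stronglyMeasurable
  fun_prop

/-- reflection or identity in the first coordinate -/
noncomputable def rfe (σ : Bool) : ℝ × ℝ ≃ᵐ ℝ × ℝ :=
  MeasurableEquiv.prodCongr (if σ then MeasurableEquiv.refl ℝ else MeasurableEquiv.neg ℝ)
    (MeasurableEquiv.refl ℝ)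

/-- sign -/
noncomputable def sg (σ : Bool) : ℝ := if σ then 1 else -1

theorem rfe_apply (σ : Bool) (y : ℝ × ℝ) : rfe σ y = (sg σ * y.1, y.2) := by
  cases σ
  · change (-y.1, y.2) = _
    simp [sg]
  · change (y.1, y.2) = _
    simp [sg]

theorem sg_sq (σ : Bool) : sg σ * sg σ = 1 := by
  cases σ <;> simp [sg]

theorem mp_rfe (σ : Bool) : MeasurePreserving (rfe σ) volume volume := by
  cases σ
  · exact (Measure.measurePreserving_neg (volume : Measure ℝ)).prod (MeasurePreserving.id volume)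
  · exact (MeasurePreserving.id (volume : Measure ℝ)).prod (MeasurePreserving.id volume)

theorem integral_nu2' {f : ℝ × ℝ → ℂ} (hf : ∀ p, f p ≠ 0 → 0 < p.1) :
    ∫ p, f p ∂nu2 = ∫ p, (p.1 : ℂ) * f p := by
  rw [integral_nu2, setIntegral_eq_integral_of_forall_compl_eq_zero]
  intro p hp
  by_cases h : f p = 0
  · rw [h, mul_zero]
  · exact absurd (hf p h) hp

/-- weighted forms are plane forms -/
theorem T_eq_B2 {k : ℝ → ℂ} (σ : Bool) {f g : ℝ × ℝ → ℂ} (hf : ∀ p, f p ≠ 0 → 0 < p.1)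
    (hg : ∀ p, g p ≠ 0 → 0 < p.1) :
    ∫ x, (∫ y, k ((x.1 - sg σ * y.1) ^ 2 + (x.2 - y.2) ^ 2) * f y * g x ∂nu2) ∂nu2 =
    ∫ x : ℝ × ℝ, ∫ y : ℝ × ℝ, k ((x.1 - y.1) ^ 2 + (x.2 - y.2) ^ 2) *
      ((fun y : ℝ × ℝ => (y.1 : ℂ) * f y) ∘ rfe σ) y * ((x.1 : ℂ) * g x) := by
  rw [integral_nu2']
  · congr 1
    ext x
    rw [integral_nu2', ← integral_const_mul,
      ← (mp_rfe σ).integral_comp (rfe σ).measurableEmbedding]
    · congr 1
      ext y
      have e1 : x.1 - sg σ * (rfe σ y).1 = x.1 - y.1 := by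
        rw [rfe_apply, ← mul_assoc, sg_sq, one_mul]
      have e2 : (rfe σ y).2 = y.2 := by rw [rfe_apply]
      rw [e1, e2]
      simp only [Function.comp_apply]
      ring
    · intro p hp
      exact hf p (right_ne_zero_of_mul (left_ne_zero_of_mul hp))
  · intro x hx
    by_contra h
    apply hx
    have : g x = 0 := by
      by_contra h'
      exact h (hg x h')
    simp [this]

/-- block kernel -/
noncomputable def Ker (Λ R S : ℝ) (θ c : ℝ → ℂ) (σ : Bool) (x y : ℝ × ℝ) : ℂ :=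
  ∫ η : ℝ, c η * cexp (2 * Real.pi * I * η * ((Real.log (x.1 / R) + Real.log (y.1 / S) : ℝ) : ℂ)) *
    k2 Λ (tht θ η) ((x.1 - sg σ * y.1) ^ 2 + (x.2 - y.2) ^ 2)

/-- weight -/
noncomputable def jb (η : ℝ) : ℝ := (1 + |η|) ^ (-(2:ℝ))

theorem integrable_jb : Integrable jb := by
  have := integrable_one_add_norm (E := ℝ) (μ := volume) (r := 2) (by simp)
  exact this

theorem jb_nonneg (η : ℝ) : 0 ≤ jb η := by unfold jb; positivity

theorem jb_bound {c : ℝ → ℂ} {K0 : ℝ} (hK : ∀ η, (1 + |η|) ^ (M + 2) * ‖c η‖ ≤ K0) (η : ℝ) :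
    ‖c η‖ * (1 + |η|) ^ M ≤ K0 * jb η := by
  have h0 : 0 < 1 + |η| := by positivity
  unfold jb
  rw [Real.rpow_neg h0.le, ← div_eq_mul_inv, le_div_iff₀ (by positivity)]
  have := hK η
  have e : (1 + |η|) ^ (2:ℝ) = (1 + |η|) ^ 2 := by exact_mod_cast Real.rpow_natCast (1 + |η|) 2
  rw [e]
  calc ‖c η‖ * (1 + |η|) ^ M * (1 + |η|) ^ 2 = (1 + |η|) ^ (M + 2) * ‖c η‖ := by ring
    _ ≤ K0 := this

theorem norm_phase (a : ℝ) (η : ℝ) : ‖cexp (2 * Real.pi * I * η * (a : ℂ))‖ = 1 := by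
  have : (2 * Real.pi * I * η * (a : ℂ)) = ((2 * Real.pi * η * a : ℝ) : ℂ) * I := by push_cast; ring
  rw [this, Complex.norm_exp_ofReal_mul_I]

theorem Ker_meas_aux {K : ℝ × ℝ → ℂ} (hk : Measurable K) {c : ℝ → ℂ} (hc : Continuous c)
    (R S e : ℝ) :
    Measurable (fun p : ((ℝ × ℝ) × (ℝ × ℝ)) × ℝ => c p.2 *
      cexp (2 * Real.pi * I * p.2 * ((Real.log (p.1.1.1 / R) + Real.log (p.1.2.1 / S) : ℝ) : ℂ)) *
      K (p.2, (p.1.1.1 - e * p.1.2.1) ^ 2 + (p.1.1.2 - p.1.2.2) ^ 2)) := by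
  have hcm := hc.measurable
  fun_prop

theorem Ker_integrand_meas (h : Bump M A θ) {Λ : ℝ} (hΛ : 0 < Λ) {c : ℝ → ℂ} (hc : Continuous c)
    (R S : ℝ) (σ : Bool) :
    Measurable (fun p : ((ℝ × ℝ) × (ℝ × ℝ)) × ℝ => c p.2 *
      cexp (2 * Real.pi * I * p.2 * ((Real.log (p.1.1.1 / R) + Real.log (p.1.2.1 / S) : ℝ) : ℂ)) *
      k2 Λ (tht θ p.2) ((p.1.1.1 - sg σ * p.1.2.1) ^ 2 + (p.1.1.2 - p.1.2.2) ^ 2)) :=
  Ker_meas_aux (measurable_k2_tht h hΛ) hc R S (sg σ)

theorem Ker_integrand_norm {C : ℝ} (hCt : ∀ η : ℝ, Bump M (C * A * (1 + |η|) ^ M) (tht θ η))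
    (hC : 0 ≤ C * A) {Λ : ℝ} (hΛ : 0 < Λ) {c : ℝ → ℂ} {K0 : ℝ}
    (hK : ∀ η, (1 + |η|) ^ (M + 2) * ‖c η‖ ≤ K0) (a q η : ℝ) :
    ‖c η * cexp (2 * Real.pi * I * η * (a : ℂ)) * k2 Λ (tht θ η) q‖ ≤
      8 * (C * A) / Λ * K0 * jb η := by
  rw [norm_mul, norm_mul, norm_phase, mul_one]
  have h1 := norm_k2_le (hCt η) hΛ q
  have h2 := jb_bound hK η
  calc ‖c η‖ * ‖k2 Λ (tht θ η) q‖ ≤ ‖c η‖ * (8 * (C * A * (1 + |η|) ^ M) / Λ) := by gcongr
    _ = 8 * (C * A) / Λ * (‖c η‖ * (1 + |η|) ^ M) := by ring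
    _ ≤ 8 * (C * A) / Λ * (K0 * jb η) := by gcongr
    _ = _ := by ring

theorem kform_swap {K : ℝ × ℝ → ℂ} (hk : Measurable K) {c : ℝ → ℂ} (hc : Continuous c)
    (R S e : ℝ) {B : ℝ} (hB : ∀ η q, ‖c η‖ * ‖K (η, q)‖ ≤ B * jb η) {F G : ℝ × ℝ → ℂ}
    (hF : Integrable F nu2) (hFm : Measurable F) (hG : Integrable G nu2) (hGm : Measurable G) :
    ∫ x, (∫ y, (∫ η : ℝ, c η *
      cexp (2 * Real.pi * I * η * ((Real.log (x.1 / R) + Real.log (y.1 / S) : ℝ) : ℂ)) *
      K (η, (x.1 - e * y.1) ^ 2 + (x.2 - y.2) ^ 2)) * F y * G x ∂nu2) ∂nu2 =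
    ∫ η : ℝ, c η * ∫ x, (∫ y, K (η, (x.1 - e * y.1) ^ 2 + (x.2 - y.2) ^ 2) *
      (cexp (2 * Real.pi * I * η * ((Real.log (y.1 / S) : ℝ) : ℂ)) * F y) *
      (cexp (2 * Real.pi * I * η * ((Real.log (x.1 / R) : ℝ) : ℂ)) * G x) ∂nu2) ∂nu2 := by
  have hm := Ker_meas_aux hk hc R S e
  have hm2 : Measurable (fun p : ((ℝ × ℝ) × (ℝ × ℝ)) × ℝ => (c p.2 *
      cexp (2 * Real.pi * I * p.2 * ((Real.log (p.1.1.1 / R) + Real.log (p.1.2.1 / S) : ℝ) : ℂ)) *
      K (p.2, (p.1.1.1 - e * p.1.2.1) ^ 2 + (p.1.1.2 - p.1.2.2) ^ 2)) * F p.1.2 * G p.1.1) :=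
    (hm.mul (hFm.comp (by fun_prop))).mul (hGm.comp (by fun_prop))
  have h1 := triple_swap (μ := nu2) (ν' := nu2) (ρ := volume)
    (Ψ := fun (x y : ℝ × ℝ) (η : ℝ) => (c η *
      cexp (2 * Real.pi * I * η * ((Real.log (x.1 / R) + Real.log (y.1 / S) : ℝ) : ℂ)) *
      K (η, (x.1 - e * y.1) ^ 2 + (x.2 - y.2) ^ 2)) * F y * G x) hm2
    hG.norm hF.norm (integrable_jb.const_mul B) (by
      intro x y η
      rw [norm_mul, norm_mul, norm_mul, norm_mul, norm_phase, mul_one]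
      have := hB η ((x.1 - e * y.1) ^ 2 + (x.2 - y.2) ^ 2)
      calc ‖c η‖ * ‖K (η, (x.1 - e * y.1) ^ 2 + (x.2 - y.2) ^ 2)‖ * ‖F y‖ * ‖G x‖
          ≤ (B * jb η) * ‖F y‖ * ‖G x‖ := by gcongr
        _ = _ := by ring)
  simp_rw [← integral_mul_const]
  rw [h1]
  congr 1
  ext η
  rw [← integral_const_mul]
  congr 1
  ext x
  rw [← integral_const_mul]
  congr 1
  ext y
  have : cexp (2 * Real.pi * I * η * ((Real.log (x.1 / R) + Real.log (y.1 / S) : ℝ) : ℂ)) =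
      cexp (2 * Real.pi * I * η * ((Real.log (y.1 / S) : ℝ) : ℂ)) *
      cexp (2 * Real.pi * I * η * ((Real.log (x.1 / R) : ℝ) : ℂ)) := by
    rw [← Complex.exp_add]; congr 1; push_cast; ring
  rw [this]
  ring

/-- hypothesis: plane forms with inputs in the blocks are bounded by N -/
def PlaneHyp (M : ℕ) (Λ R S N : ℝ) (p q : ℝ≥0∞) : Prop :=
  ∀ (A : ℝ) (θ : ℝ → ℂ), Bump M A θ → ∀ (σ : Bool) (f g : ℝ × ℝ → ℂ),
    Adm volume f → Adm volume g → (∀ y, f y ≠ 0 → sg σ * y.1 ∈ Icc S (2 * S)) →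
    (∀ x, g x ≠ 0 → x.1 ∈ Icc R (2 * R)) →
    ‖B2 Λ θ f g‖ ≤ N * A * nrm p f volume * nrm q g volume

theorem supp_phase {S : ℝ} {F : ℝ × ℝ → ℂ} (hFs : ∀ y, F y ≠ 0 → y.1 ∈ Icc S (2 * S)) (a : ℝ × ℝ → ℂ) :
    ∀ y, a y * F y ≠ 0 → y.1 ∈ Icc S (2 * S) := fun y hy => hFs y (right_ne_zero_of_mul hy)

theorem Adm.phase {F : ℝ × ℝ → ℂ} (hF : Adm nu F) (η S : ℝ) :
    Adm nu (fun y => cexp (2 * Real.pi * I * η * ((Real.log (y.1 / S) : ℝ) : ℂ)) * F y) :=
  hF.mul_bdd (C := 1) (by fun_prop) (fun y => (norm_phase _ _).le)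

theorem nrm_phase {F : ℝ × ℝ → ℂ} (p : ℝ≥0∞) (η S : ℝ) :
    nrm p (fun y => cexp (2 * Real.pi * I * η * ((Real.log (y.1 / S) : ℝ) : ℂ)) * F y) nu = nrm p F nu := by
  unfold nrm
  congr 1
  apply eLpNorm_congr_norm_ae
  filter_upwards with y
  rw [norm_mul, norm_phase, one_mul]

theorem T_bound {Λ R S N : ℝ} (hR : 0 < R) (hS : 0 < S) (hN0 : 0 ≤ N) {p q : ℝ≥0∞} (hp : 1 ≤ p)
    (hp' : p ≠ ⊤) (hq : 1 ≤ q) (hq' : q ≠ ⊤)
    (hN : PlaneHyp M Λ R S N p q) (h : Bump M A θ) (σ : Bool) {F G : ℝ × ℝ → ℂ}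
    (hF : Adm nu F) (hG : Adm nu G) (hFs : ∀ y, F y ≠ 0 → y.1 ∈ Icc S (2 * S))
    (hGs : ∀ x, G x ≠ 0 → x.1 ∈ Icc R (2 * R)) :
    ‖∫ x, (∫ y, k2 Λ θ ((x.1 - sg σ * y.1) ^ 2 + (x.2 - y.2) ^ 2) * F y * G x ∂nu2) ∂nu2‖ ≤
      N * A * ((2 * S) ^ (1 - 1 / p.toReal) * nrm p F nu) * ((2 * R) ^ (1 - 1 / q.toReal) * nrm q G nu) := by
  have hA := h.nonneg
  have h1 := T_eq_B2 (k := k2 Λ θ) σ (f := F) (g := G)
    (fun p hp => by have := (hFs p hp).1; linarith) (fun p hp => by have := (hGs p hp).1; linarith)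
  rw [h1]
  have hf := wadm hS hF hFs
  have hg := wadm hR hG hGs
  have hfn := wnrm hS hF hFs hp hp'
  have hgn := wnrm hR hG hGs hq hq'
  have hf' := hf.comp_mp (mp_rfe σ) (rfe σ).measurableEmbedding
  have hfn' := nrm_comp_mp (F := fun y => (y.1 : ℂ) * F y) (mp_rfe σ) (rfe σ).measurableEmbedding p
  have h2 := hN A θ h σ _ _ hf' hg (by
    intro y hy
    have h3 : F (rfe σ y) ≠ 0 := right_ne_zero_of_mul hy
    have := hFs _ h3
    rw [rfe_apply] at this
    exact this) (by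
    intro x hx
    exact hGs x (right_ne_zero_of_mul hx))
  rw [hfn'] at h2
  refine h2.trans ?_
  have n1 : 0 ≤ nrm p (fun y => (y.1 : ℂ) * F y) volume := nrm_nonneg
  have n2 : 0 ≤ nrm q (fun y => (y.1 : ℂ) * G y) volume := nrm_nonneg
  have n3 : 0 ≤ nrm p F nu := nrm_nonneg
  gcongr

theorem Kform_bound {C : ℝ} (hC : 0 ≤ C) (hCt : ∀ η : ℝ, Bump M (C * A * (1 + |η|) ^ M) (tht θ η))
    (h : Bump M A θ) {Λ R S N : ℝ} (hΛ : 0 < Λ) (hR : 0 < R) (hS : 0 < S) (hN0 : 0 ≤ N)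
    {p q : ℝ≥0∞} (hp : 1 ≤ p) (hp' : p ≠ ⊤) (hq : 1 ≤ q) (hq' : q ≠ ⊤)
    (hN : PlaneHyp M Λ R S N p q) {c : ℝ → ℂ} (hc : Continuous c) {K0 : ℝ}
    (hK : ∀ η, (1 + |η|) ^ (M + 2) * ‖c η‖ ≤ K0) (σ : Bool) {F G : ℝ × ℝ → ℂ}
    (hF : Adm nu F) (hG : Adm nu G) (hFs : ∀ y, F y ≠ 0 → y.1 ∈ Icc S (2 * S))
    (hGs : ∀ x, G x ≠ 0 → x.1 ∈ Icc R (2 * R)) :
    ‖∫ x, (∫ y, Ker Λ R S θ c σ x y * F y * G x ∂nu2) ∂nu2‖ ≤
      (C * A * K0 * ∫ η, jb η) * (N * ((2 * S) ^ (1 - 1 / p.toReal) * nrm p F nu) *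
        ((2 * R) ^ (1 - 1 / q.toReal) * nrm q G nu)) := by
  have hA := h.nonneg
  have hCA : 0 ≤ C * A := by positivity
  have hk := measurable_k2_tht h hΛ
  have h1 := kform_swap hk hc R S (sg σ) (B := 8 * (C * A) / Λ * K0) (by
    intro η q
    have := Ker_integrand_norm hCt hCA hΛ hK 0 q η
    rwa [norm_mul, norm_mul, norm_phase, mul_one] at this)
    (integrable_nu2 hF) hF.meas (integrable_nu2 hG) hG.meas
  unfold Ker
  rw [h1]
  set X := N * ((2 * S) ^ (1 - 1 / p.toReal) * nrm p F nu) *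
        ((2 * R) ^ (1 - 1 / q.toReal) * nrm q G nu) with hX
  have hX0 : 0 ≤ X := by
    have n3 : 0 ≤ nrm p F nu := nrm_nonneg
    have n4 : 0 ≤ nrm q G nu := nrm_nonneg
    positivity
  have e1 : (C * A * K0 * ∫ η, jb η) * X = ∫ η, C * A * K0 * jb η * X := by
    rw [integral_mul_const, integral_const_mul]
  rw [e1]
  apply norm_integral_le_of_norm_le ((integrable_jb.const_mul _).mul_const _)
  filter_upwards with η
  have h2 := T_bound hR hS hN0 hp hp' hq hq' hN (hCt η) σ (hF.phase η S) (hG.phase η R)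
    (supp_phase hFs _) (supp_phase hGs _)
  rw [nrm_phase, nrm_phase] at h2
  rw [norm_mul]
  calc _ ≤ ‖c η‖ * (N * (C * A * (1 + |η|) ^ M) * ((2 * S) ^ (1 - 1 / p.toReal) * nrm p F nu) *
        ((2 * R) ^ (1 - 1 / q.toReal) * nrm q G nu)) := mul_le_mul_of_nonneg_left h2 (norm_nonneg _)
    _ = (C * A) * (‖c η‖ * (1 + |η|) ^ M) * X := by rw [hX]; ring
    _ ≤ (C * A) * (K0 * jb η) * X := by
        have := jb_bound hK η
        gcongr
    _ = _ := by ring

theorem form_split {K1 K2 : ℝ × ℝ → ℝ × ℝ → ℂ} (hm1 : Measurable (Function.uncurry K1))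
    (hm2 : Measurable (Function.uncurry K2)) {B : ℝ} (hB1 : ∀ x y, ‖K1 x y‖ ≤ B)
    (hB2 : ∀ x y, ‖K2 x y‖ ≤ B) {F G : ℝ × ℝ → ℂ} (hF : Integrable F nu2) (hFm : Measurable F)
    (hG : Integrable G nu2) (hGm : Measurable G) (z : ℂ) :
    ∫ x, (∫ y, z * (K1 x y + K2 x y) * F y * G x ∂nu2) ∂nu2 =
    z * ((∫ x, (∫ y, K1 x y * F y * G x ∂nu2) ∂nu2) + ∫ x, (∫ y, K2 x y * F y * G x ∂nu2) ∂nu2) := by
  have hi : ∀ K : ℝ × ℝ → ℝ × ℝ → ℂ, Measurable (Function.uncurry K) → (∀ x y, ‖K x y‖ ≤ B) →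
      ∀ x, Integrable (fun y => K x y * F y * G x) nu2 := by
    intro K hm hB x
    apply Integrable.mul_const
    refine hF.bdd_mul (c := B) ?_ (by filter_upwards with y using hB x y)
    exact (hm.comp (by fun_prop : Measurable (fun y : ℝ × ℝ => (x, y)))).aestronglyMeasurable
  have hj : ∀ K : ℝ × ℝ → ℝ × ℝ → ℂ, Measurable (Function.uncurry K) → (∀ x y, ‖K x y‖ ≤ B) →
      Integrable (fun x => ∫ y, K x y * F y * G x ∂nu2) nu2 := by
    intro K hm hB
    have h1 : StronglyMeasurable (fun x => ∫ y, K x y * F y * G x ∂nu2) := by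
      apply StronglyMeasurable.integral_prod_right' (f := fun p : (ℝ × ℝ) × (ℝ × ℝ) =>
        Function.uncurry K p * F p.2 * G p.1)
      apply Measurable.stronglyMeasurable
      fun_prop
    refine ((hG.norm.const_mul (B * ∫ y, ‖F y‖ ∂nu2))).mono' h1.aestronglyMeasurable ?_
    filter_upwards with x
    calc ‖∫ y, K x y * F y * G x ∂nu2‖ ≤ ∫ y, B * ‖F y‖ * ‖G x‖ ∂nu2 := by
          apply norm_integral_le_of_norm_le ((hF.norm.const_mul _).mul_const _)
          filter_upwards with y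
          rw [norm_mul, norm_mul]
          have := hB x y
          gcongr
      _ = _ := by rw [integral_mul_const, integral_const_mul]
  rw [← integral_add (hj K1 hm1 hB1) (hj K2 hm2 hB2), ← integral_const_mul]
  congr 1
  ext x
  rw [← integral_add (hi K1 hm1 hB1 x) (hi K2 hm2 hB2 x), ← integral_const_mul]
  congr 1
  ext y
  ring

theorem Ker_meas (h : Bump M A θ) {Λ : ℝ} (hΛ : 0 < Λ) {c : ℝ → ℂ} (hc : Continuous c)
    (R S : ℝ) (σ : Bool) : Measurable (Function.uncurry (Ker Λ R S θ c σ)) := by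
  have := Ker_integrand_meas h hΛ hc R S σ
  exact this.stronglyMeasurable.integral_prod_right'.measurable

theorem Ker_norm {C : ℝ} (hCt : ∀ η : ℝ, Bump M (C * A * (1 + |η|) ^ M) (tht θ η))
    (hC : 0 ≤ C * A) {Λ : ℝ} (hΛ : 0 < Λ) {c : ℝ → ℂ} {K0 : ℝ}
    (hK : ∀ η, (1 + |η|) ^ (M + 2) * ‖c η‖ ≤ K0) (R S : ℝ) (σ : Bool) (x y : ℝ × ℝ) :
    ‖Ker Λ R S θ c σ x y‖ ≤ 8 * (C * A) / Λ * K0 * ∫ η, jb η := by
  unfold Ker
  rw [← integral_const_mul]
  apply norm_integral_le_of_norm_le (integrable_jb.const_mul _)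
  filter_upwards with η
  exact Ker_integrand_norm hCt hC hΛ hK _ _ η

theorem integrable_of_decay {c : ℝ → ℂ} (hc : Continuous c) {K0 : ℝ}
    (hK : ∀ η, (1 + |η|) ^ (M + 2) * ‖c η‖ ≤ K0) : Integrable c := by
  refine (integrable_jb.const_mul K0).mono' hc.aestronglyMeasurable ?_
  filter_upwards with η
  refine le_trans ?_ (jb_bound hK η)
  exact le_mul_of_one_le_right (norm_nonneg _) (one_le_pow₀ (by linarith [abs_nonneg η]))

theorem crefl_bound (m : ℤ) {c : ℝ → ℂ} {K0 : ℝ} (hK : ∀ η, (1 + |η|) ^ (M + 2) * ‖c η‖ ≤ K0) :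
    ∀ η, (1 + |η|) ^ (M + 2) * ‖crefl m c η‖ ≤ K0 := by
  intro η
  unfold crefl
  rw [norm_mul, norm_zpow, norm_neg, norm_one, one_zpow, one_mul, RCLike.norm_conj]
  have := hK (-η)
  rwa [abs_neg] at this

theorem crefl_cont (m : ℤ) {c : ℝ → ℂ} (hc : Continuous c) : Continuous (crefl m c) := by
  unfold crefl
  exact continuous_const.mul (Complex.continuous_conj.comp (hc.comp continuous_neg))

theorem FormC_rep {C : ℝ} (hC : 0 ≤ C) (hCt : ∀ η : ℝ, Bump M (C * A * (1 + |η|) ^ M) (tht θ η))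
    (h : Bump M A θ) {Λ R S : ℝ} (hΛ : 0 < Λ) (hR : 0 < R) (hS : 0 < S) (m : ℤ)
    {c : ℝ → ℂ} (hc : Continuous c) {K0 : ℝ}
    (hK : ∀ η, (1 + |η|) ^ (M + 2) * ‖c η‖ ≤ K0)
    (hcr : ∀ τ : ℝ, |τ| ≤ 3 → bI (wm m) (Real.pi * R * S / Λ * Real.exp τ) =
      ∫ η : ℝ, cexp (((2 * Real.pi * (η * τ) : ℝ) : ℂ) * I) * c η) {F G : ℝ × ℝ → ℂ}
    (hF : Adm nu F) (hG : Adm nu G) (hFs : ∀ y, F y ≠ 0 → y.1 ∈ Icc S (2 * S))
    (hGs : ∀ x, G x ≠ 0 → x.1 ∈ Icc R (2 * R)) :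
    FormC (k3 Λ θ) m F G = (I / (2 * Λ)) ^ (1 / 2 : ℂ) *
      ((∫ x, (∫ y, Ker Λ R S θ c true x y * F y * G x ∂nu2) ∂nu2) +
        ∫ x, (∫ y, Ker Λ R S θ (crefl m c) false x y * F y * G x ∂nu2) ∂nu2) := by
  have hA := h.nonneg
  have hCA : 0 ≤ C * A := by positivity
  have hc' := crefl_cont m hc
  have hK' := crefl_bound m hK
  have hci := integrable_of_decay hc hK
  rw [← form_split (Ker_meas h hΛ hc R S true) (Ker_meas h hΛ hc' R S false)
    (Ker_norm hCt hCA hΛ hK R S true) (Ker_norm hCt hCA hΛ hK' R S false) (integrable_nu2 hF) hF.meas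
    (integrable_nu2 hG) hG.meas]
  unfold FormC
  congr 1
  ext x
  rw [← integral_mul_const]
  congr 1
  ext y
  by_cases hF0 : F y = 0
  · rw [hF0]; ring
  by_cases hG0 : G x = 0
  · rw [hG0]; ring
  have e := angK_rep h hΛ m hR hS hc hci hcr (hGs x hG0) (hFs y hF0) x.2 y.2
  rw [e]
  unfold Ker
  congr 3
  congr 1
  · congr 1
    ext η
    congr 3
    simp [sg]
  · congr 1
    ext η
    congr 3
    simp [sg]

end refl

theorem pref_bound {Λ R S : ℝ} (hΛ : 0 < Λ) (hR : 0 < R) (hS : 0 < S) :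
    ‖(I / (2 * Λ)) ^ (1 / 2 : ℂ)‖ * (1 + Real.pi * R * S / Λ) ^ (-(1/2:ℝ)) ≤ (R * S) ^ (-(1/2:ℝ)) := by
  have e1 : (1 / 2 : ℂ) = ((1 / 2 : ℝ) : ℂ) := by push_cast; rfl
  have hpi := Real.pi_gt_three
  have e2 : ‖I / (2 * (Λ : ℂ))‖ = 1 / (2 * Λ) := by
    rw [norm_div, norm_I, norm_mul, Complex.norm_two, Complex.norm_real, Real.norm_of_nonneg hΛ.le]
  have hU : 0 < 1 + Real.pi * R * S / Λ := by positivity
  rw [e1, Complex.norm_cpow_real, e2, Real.rpow_neg hU.le, ← Real.inv_rpow hU.le,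
    ← Real.mul_rpow (by positivity) (by positivity), Real.rpow_neg (by positivity),
    ← Real.inv_rpow (by positivity)]
  apply Real.rpow_le_rpow (by positivity) _ (by norm_num)
  have e3 : 1 / (2 * Λ) * (1 + Real.pi * R * S / Λ)⁻¹ = (2 * Λ + 2 * (Real.pi * (R * S)))⁻¹ := by
    field_simp
  rw [e3]
  apply inv_anti₀ (by positivity)
  have : 0 < R * S := by positivity
  nlinarith

theorem block_bound (M : ℕ) : ∃ C : ℝ, 0 ≤ C ∧ ∀ (Λ R S N : ℝ), 0 < Λ → 0 < R → 0 < S → 0 ≤ N →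
    ∀ (p q : ℝ≥0∞), 1 ≤ p → p ≠ ⊤ → 1 ≤ q → q ≠ ⊤ → PlaneHyp M Λ R S N p q →
    ∀ (A : ℝ) (θ : ℝ → ℂ), Bump M A θ → ∀ (m : ℤ) (F G : ℝ × ℝ → ℂ), Adm nu F → Adm nu G →
    (∀ y, F y ≠ 0 → y.1 ∈ Icc S (2 * S)) → (∀ x, G x ≠ 0 → x.1 ∈ Icc R (2 * R)) →
    ‖FormC (k3 Λ θ) m F G‖ ≤ C * N * A * (1 + |(m:ℝ)|) ^ (M + 3) *
      ((R * S) ^ (-(1/2:ℝ)) * (2 * S) ^ (1 - 1 / p.toReal) * (2 * R) ^ (1 - 1 / q.toReal)) *
      nrm p F nu * nrm q G nu := by
  obtain ⟨C1, hC1, h1⟩ := T10_amp (M + 2)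
  obtain ⟨C2, hC2, h2⟩ := Bump.tht M
  have hJ : 0 ≤ ∫ η, jb η := integral_nonneg jb_nonneg
  refine ⟨2 * C2 * C1 * ∫ η, jb η, by positivity, ?_⟩
  intro Λ R S N hΛ hR hS hN0 p q hp hp' hq hq' hN A θ h m F G hF hG hFs hGs
  have hA := h.nonneg
  have hU : 0 < Real.pi * R * S / Λ := by positivity
  obtain ⟨c, hc, hK, hcr⟩ := h1 m (Real.pi * R * S / Λ) hU
  have hK' := crefl_bound m hK
  have hc' := crefl_cont m hc
  have hCt := h2 A θ h
  rw [FormC_rep hC2 hCt h hΛ hR hS m hc hK hcr hF hG hFs hGs, norm_mul]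
  have b1 := Kform_bound hC2 hCt h hΛ hR hS hN0 hp hp' hq hq' hN hc hK true hF hG hFs hGs
  have b2 := Kform_bound hC2 hCt h hΛ hR hS hN0 hp hp' hq hq' hN hc' hK' false hF hG hFs hGs
  set K1 := C1 * (1 + |(m:ℝ)|) ^ (M + 2 + 1) with hK1
  have hK10 : 0 ≤ K1 := by positivity
  set X := N * ((2 * S) ^ (1 - 1 / p.toReal) * nrm p F nu) *
        ((2 * R) ^ (1 - 1 / q.toReal) * nrm q G nu) with hX
  have hX0 : 0 ≤ X := by
    have n3 : 0 ≤ nrm p F nu := nrm_nonneg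
    have n4 : 0 ≤ nrm q G nu := nrm_nonneg
    positivity
  have b3 := (norm_add_le _ _).trans (add_le_add b1 b2)
  have b4 := pref_bound hΛ hR hS
  calc _ ≤ ‖(I / (2 * Λ)) ^ (1 / 2 : ℂ)‖ * (C2 * A * (K1 * (1 + Real.pi * R * S / Λ) ^ (-(1/2:ℝ))) * (∫ η, jb η) * X +
        C2 * A * (K1 * (1 + Real.pi * R * S / Λ) ^ (-(1/2:ℝ))) * (∫ η, jb η) * X) :=
        mul_le_mul_of_nonneg_left b3 (norm_nonneg _)
    _ = (2 * C2 * A * K1 * (∫ η, jb η) * X) *
        (‖(I / (2 * Λ)) ^ (1 / 2 : ℂ)‖ * (1 + Real.pi * R * S / Λ) ^ (-(1/2:ℝ))) := by ring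
    _ ≤ (2 * C2 * A * K1 * (∫ η, jb η) * X) * (R * S) ^ (-(1/2:ℝ)) := by gcongr
    _ = _ := by rw [hX, hK1]; ring

end Vale.Agent.P117
end
end

section

section

open MeasureTheory Complex Set Filter
open scoped ENNReal NNReal ContDiff FourierTransform SchwartzMap ComplexConjugate Convolution Topology

namespace Vale.Agent.P117

section
variable {V : Type*} [NormedAddCommGroup V] [InnerProductSpace ℝ V] [FiniteDimensional ℝ V]
  [MeasurableSpace V] [BorelSpace V]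

/-- normalized gaussian -/
noncomputable def gau (V : Type*) [NormedAddCommGroup V] [InnerProductSpace ℝ V] (b : ℝ) (x : V) : ℂ :=
  (((Real.pi / b) ^ (Module.finrank ℝ V / 2 : ℝ))⁻¹ : ℝ) * cexp (-b * ‖x‖ ^ 2)

theorem continuous_gau (b : ℝ) : Continuous (gau V b) := by
  unfold gau; fun_prop

theorem norm_gau {b : ℝ} (hb : 0 < b) (x : V) :
    ‖gau V b x‖ = ((Real.pi / b) ^ (Module.finrank ℝ V / 2 : ℝ))⁻¹ * Real.exp (-b * ‖x‖ ^ 2) := by
  unfold gau
  have : (-b * ‖x‖ ^ 2 : ℂ) = ((-b * ‖x‖ ^ 2 : ℝ) : ℂ) := by push_cast; ring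
  rw [norm_mul, this, ← Complex.ofReal_exp, Complex.norm_real, Complex.norm_real,
    Real.norm_of_nonneg (by have := Real.pi_pos; positivity), Real.norm_of_nonneg (Real.exp_nonneg _)]

theorem integrable_gau {b : ℝ} (hb : 0 < b) : Integrable (gau V b) := by
  unfold gau
  apply Integrable.const_mul
  have := GaussianFourier.integrable_cexp_neg_mul_sq_norm_add (V := V) (b := (b : ℂ)) (by simpa using hb) 0 0
  simpa using this

theorem lintegral_gau {b : ℝ} (hb : 0 < b) : ∫⁻ x, ‖gau V b x‖ₑ = 1 := by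
  have h := integral_norm_eq_lintegral_enorm (integrable_gau (V := V) hb).aestronglyMeasurable
  have h2 : ∫ x, ‖gau V b x‖ = 1 := by
    simp_rw [norm_gau hb]
    rw [integral_const_mul, GaussianFourier.integral_rexp_neg_mul_sq_norm hb, inv_mul_cancel₀]
    have := Real.pi_pos
    positivity
  rw [h2] at h
  have h3 := (ENNReal.toReal_eq_one_iff _).1 h.symm
  exact h3

theorem fourier_gau {b : ℝ} (hb : 0 < b) (w : V) :
    𝓕 (gau V b) w = (Real.exp (-(Real.pi ^ 2 * ‖w‖ ^ 2 / b)) : ℂ) := by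
  have h1 : gau V b = (((((Real.pi / b) ^ (Module.finrank ℝ V / 2 : ℝ))⁻¹ : ℝ) : ℂ)) •
      fun x : V => cexp (-b * ‖x‖ ^ 2) := by
    ext x; rfl
  have hsm : 𝓕 (((((Real.pi / b) ^ (Module.finrank ℝ V / 2 : ℝ))⁻¹ : ℝ) : ℂ) •
      fun x : V => cexp (-b * ‖x‖ ^ 2)) w = ((((Real.pi / b) ^ (Module.finrank ℝ V / 2 : ℝ))⁻¹ : ℝ) : ℂ) •
      𝓕 (fun x : V => cexp (-b * ‖x‖ ^ 2)) w := by
    rw [Real.fourier_eq, Real.fourier_eq, ← integral_smul]
    congr 1
    ext v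
    rw [Pi.smul_apply, smul_comm]
  rw [h1, hsm, fourier_gaussian_innerProductSpace (by simpa using hb)]
  have hpos : 0 < Real.pi / b := by have := Real.pi_pos; positivity
  have e1 : ((Real.pi : ℂ) / b) ^ (Module.finrank ℝ V / 2 : ℂ) =
      (((Real.pi / b) ^ (Module.finrank ℝ V / 2 : ℝ) : ℝ) : ℂ) := by
    rw [Complex.ofReal_cpow hpos.le]
    push_cast
    rfl
  rw [e1, smul_eq_mul, ← mul_assoc, ← Complex.ofReal_mul, inv_mul_cancel₀ (by positivity),
    Complex.ofReal_one, one_mul]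
  push_cast
  congr 1
  ring

theorem lintegral_sq_fourier_le {f : V → ℂ} (hf : Integrable f) (hfm : Measurable f) :
    ∫⁻ ξ, ‖𝓕 f ξ‖ₑ ^ 2 ≤ ∫⁻ x, ‖f x‖ₑ ^ 2 := by
  -- the regularized functions
  set u : ℕ → ℝ := fun n => (n:ℝ) + 1 with hu
  have hu0 : ∀ n, 0 < u n := fun n => by simp only [hu]; positivity
  set F : ℕ → V → ℂ := fun n => cv (gau V (u n)) f with hF
  have hFc : ∀ n, Continuous (F n) := by
    intro n
    refine continuous_cv (continuous_gau _) (C := ((Real.pi / u n) ^ (Module.finrank ℝ V / 2 : ℝ))⁻¹) ?_ hf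
    intro x
    rw [norm_gau (hu0 n)]
    have hp := Real.pi_pos
    have hn := hu0 n
    apply mul_le_of_le_one_right (by positivity)
    rw [Real.exp_le_one_iff]
    have : 0 ≤ u n * ‖x‖ ^ 2 := by positivity
    linarith
  have hFI : ∀ n, Integrable (F n) := fun n => integrable_cv (integrable_gau (hu0 n)) hf
  have hFF : ∀ n ξ, 𝓕 (F n) ξ = (Real.exp (-(Real.pi ^ 2 * ‖ξ‖ ^ 2 / u n)) : ℂ) * 𝓕 f ξ := by
    intro n ξ
    simp only [hF]
    rw [fourier_cv (integrable_gau (hu0 n)) hf, fourier_gau (hu0 n)]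
  have hFFI : ∀ n, Integrable (𝓕 (F n)) := by
    intro n
    have hp := Real.pi_pos
    have hn := hu0 n
    have h1 : Integrable (fun ξ : V => Real.exp (-(Real.pi ^ 2 / u n) * ‖ξ‖ ^ 2) * ∫ v, ‖f v‖) := by
      apply Integrable.mul_const
      have := GaussianFourier.integrable_cexp_neg_mul_sq_norm_add (V := V) (b := ((Real.pi ^ 2 / u n : ℝ) : ℂ)) (by
        rw [Complex.ofReal_re]; positivity) 0 0
      refine this.norm.congr ?_
      filter_upwards with ξ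
      rw [zero_mul, add_zero]
      have : (-((Real.pi ^ 2 / u n : ℝ) : ℂ) * ‖ξ‖ ^ 2 : ℂ) = ((-(Real.pi ^ 2 / u n) * ‖ξ‖ ^ 2 : ℝ) : ℂ) := by
        push_cast; ring
      rw [this, ← Complex.ofReal_exp, Complex.norm_real, Real.norm_of_nonneg (Real.exp_nonneg _)]
    refine h1.mono' (continuous_fourier (hFI n)).aestronglyMeasurable ?_
    filter_upwards with ξ
    rw [hFF, norm_mul, Complex.norm_real, Real.norm_of_nonneg (Real.exp_nonneg _)]
    have e : -(Real.pi ^ 2 * ‖ξ‖ ^ 2 / u n) = -(Real.pi ^ 2 / u n) * ‖ξ‖ ^ 2 := by ring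
    rw [e]
    have := norm_fourier_le f ξ
    gcongr
  -- Parseval for the regularized functions
  have hpar : ∀ n, ∫⁻ ξ, ‖𝓕 (F n) ξ‖ₑ ^ 2 = ∫⁻ x, ‖F n x‖ₑ ^ 2 := by
    intro n
    have h1 := parseval_inv (hFI n) (hFI n) (hFc n) (integrable_fourierInv_iff.2 (hFFI n))
    have e1 : ∀ G : V → ℂ, ∀ x, G x * conj (G x) = ((‖G x‖ ^ 2 : ℝ) : ℂ) := by
      intro G x; rw [Complex.mul_conj']; push_cast; rfl
    simp_rw [e1 (𝓕⁻ (F n)), e1 (F n)] at h1
    rw [integral_complex_ofReal, integral_complex_ofReal] at h1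
    have h2 : ∫ x, ‖𝓕⁻ (F n) x‖ ^ 2 = ∫ x, ‖F n x‖ ^ 2 := by exact_mod_cast h1
    have h3 : ∫ x, ‖𝓕 (F n) x‖ ^ 2 = ∫ x, ‖F n x‖ ^ 2 := by
      rw [← h2, ← integral_neg_eq_self]
      congr 1
      ext x
      rw [Real.fourierInv_eq_fourier_neg]
    have hb : ∀ {G : V → ℂ}, Continuous G → Integrable G → (∃ C, ∀ x, ‖G x‖ ≤ C) →
        ∫⁻ x, ‖G x‖ₑ ^ 2 = ENNReal.ofReal (∫ x, ‖G x‖ ^ 2) := by
      intro G hc hi ⟨C, hC⟩
      have hI : Integrable (fun x => ‖G x‖ ^ 2) := by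
        refine (hi.norm.const_mul C).mono' (hc.norm.pow 2).aestronglyMeasurable ?_
        filter_upwards with x
        rw [Real.norm_of_nonneg (by positivity), sq]
        have := hC x
        gcongr
      rw [ofReal_integral_eq_lintegral_ofReal hI (by filter_upwards with x; positivity)]
      congr 1
      ext x
      rw [ENNReal.ofReal_pow (norm_nonneg _), ofReal_norm]
    rw [hb (continuous_fourier (hFI n)) (hFFI n) ⟨_, norm_fourier_le (F n)⟩, hb (hFc n) (hFI n), h3]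
    refine ⟨((Real.pi / u n) ^ (Module.finrank ℝ V / 2 : ℝ))⁻¹ * ∫ y, ‖f y‖, ?_⟩
    apply norm_cv_le _ hf
    intro x
    rw [norm_gau (hu0 n)]
    have hp := Real.pi_pos
    have hn := hu0 n
    apply mul_le_of_le_one_right (by positivity)
    rw [Real.exp_le_one_iff]
    have : 0 ≤ u n * ‖x‖ ^ 2 := by positivity
    linarith
  have hyoung : ∀ n, ∫⁻ x, ‖F n x‖ₑ ^ 2 ≤ ∫⁻ x, ‖f x‖ₑ ^ 2 := by
    intro n
    have h := young_lintegral (V := V) (k := fun y => ‖gau V (u n) y‖ₑ) (g := fun y => ‖f y‖ₑ)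
      (continuous_gau _).measurable.enorm hfm.enorm (p := 2) (by norm_num)
    rw [lintegral_gau (hu0 n), ENNReal.one_rpow, one_mul] at h
    simp only [ENNReal.rpow_ofNat] at h
    refine le_trans (lintegral_mono fun x => ?_) h
    have := enorm_cv_le (gau V (u n)) f x
    gcongr
  -- Fatou
  have hlim : ∀ ξ, Tendsto (fun n => ‖𝓕 (F n) ξ‖ₑ ^ 2) atTop (𝓝 (‖𝓕 f ξ‖ₑ ^ 2)) := by
    intro ξ
    have h1 : Tendsto (fun n => 𝓕 (F n) ξ) atTop (𝓝 (𝓕 f ξ)) := by
      have h2 : Tendsto (fun n : ℕ => (Real.exp (-(Real.pi ^ 2 * ‖ξ‖ ^ 2 / u n)) : ℂ)) atTop (𝓝 ((Real.exp (-0) : ℝ) : ℂ)) := by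
        apply (Complex.continuous_ofReal.tendsto _).comp
        apply (Real.continuous_exp.tendsto _).comp
        apply Tendsto.neg
        have h3 : Tendsto u atTop atTop := tendsto_atTop_add_const_right _ _ tendsto_natCast_atTop_atTop
        exact h3.const_div_atTop _
      have h4 := h2.mul_const (𝓕 f ξ)
      simp only [neg_zero, Real.exp_zero, Complex.ofReal_one, one_mul] at h4
      refine h4.congr (fun n => ?_)
      rw [hFF]
    exact ENNReal.Tendsto.pow ((continuous_enorm.tendsto _).comp h1)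
  calc ∫⁻ ξ, ‖𝓕 f ξ‖ₑ ^ 2 = ∫⁻ ξ, liminf (fun n => ‖𝓕 (F n) ξ‖ₑ ^ 2) atTop := by
        congr 1
        ext ξ
        exact (hlim ξ).liminf_eq.symm
    _ ≤ liminf (fun n => ∫⁻ ξ, ‖𝓕 (F n) ξ‖ₑ ^ 2) atTop := by
        apply lintegral_liminf_le
        intro n
        exact ((continuous_fourier (hFI n)).measurable.enorm.pow_const 2)
    _ ≤ ∫⁻ x, ‖f x‖ₑ ^ 2 := by
        apply liminf_le_of_frequently_le'
        apply Frequently.of_forall
        intro n
        rw [hpar]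
        exact hyoung n

end

end Vale.Agent.P117
end
end

section

section

open MeasureTheory Complex Set Filter
open scoped ENNReal NNReal ContDiff FourierTransform SchwartzMap ComplexConjugate Convolution Topology

namespace Vale.Agent.P117

section
variable {V : Type*} [NormedAddCommGroup V] [InnerProductSpace ℝ V] [FiniteDimensional ℝ V]
  [MeasurableSpace V] [BorelSpace V]

theorem int_phaseV {G : V → ℂ} (hG : Integrable G) (z : V) :
    Integrable (fun v => Real.fourierChar (inner ℝ v z) • G v) := by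
  have := (Real.fourierIntegral_convergent_iff (-z)).2 hG
  simpa using this

theorem cv_inv_eq {G f : V → ℂ} (hG : Integrable G) (hf : Integrable f) :
    cv (𝓕⁻ G) f = 𝓕⁻ (fun ξ => G ξ * 𝓕 f ξ) := by
  ext x
  unfold cv
  rw [Real.fourierInv_eq]
  have h1 : ∀ y, 𝓕⁻ G (x - y) * f y = ∫ ξ, (Real.fourierChar (inner ℝ ξ (x - y)) • G ξ) * f y := by
    intro y
    rw [Real.fourierInv_eq, integral_mul_const]
  simp_rw [h1]
  rw [integral_integral_swap]
  · congr 1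
    ext ξ
    rw [Real.fourier_eq, ← smul_mul_assoc, ← integral_const_mul]
    congr 1
    ext y
    simp only [Circle.smul_def, smul_eq_mul]
    have : Real.fourierChar (inner ℝ ξ (x - y)) = Real.fourierChar (inner ℝ ξ x) * Real.fourierChar (-inner ℝ y ξ) := by
      rw [← AddChar.map_add_eq_mul, inner_sub_right, real_inner_comm ξ y]
      congr 1
    rw [this]
    push_cast
    ring
  · have hI : Integrable (fun z : V × V => f z.1 * G z.2) (volume.prod volume) := hf.mul_prod hG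
    refine hI.mono ?_ ?_
    · have a1 : AEStronglyMeasurable (fun z : V × V => f z.1) (volume.prod volume) :=
        hf.aestronglyMeasurable.comp_fst
      have a2 : AEStronglyMeasurable (fun z : V × V => G z.2) (volume.prod volume) :=
        hG.aestronglyMeasurable.comp_snd
      have a3 : AEStronglyMeasurable (fun z : V × V => ((Real.fourierChar (inner ℝ z.2 (x - z.1)) : Circle) : ℂ)) (volume.prod volume) := by
        apply Continuous.aestronglyMeasurable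
        have := Real.continuous_fourierChar
        fun_prop
      have := (a3.mul a2).mul a1
      refine this.congr ?_
      filter_upwards with z
      simp [Function.uncurry, Circle.smul_def]
    · filter_upwards with z
      simp only [Function.uncurry, norm_mul, Circle.norm_smul]
      rw [mul_comm]

theorem eLpNorm_two (f : V → ℂ) : eLpNorm f 2 volume = (∫⁻ x, ‖f x‖ₑ ^ 2) ^ (1 / 2 : ℝ) := by
  rw [eLpNorm_eq_lintegral_rpow_enorm_toReal (by norm_num) (by norm_num)]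
  have : (2 : ℝ≥0∞).toReal = 2 := by norm_num
  rw [this]
  simp only [ENNReal.rpow_ofNat]

/-- L2 bound for a bilinear form given by a bounded multiplier (ENNReal version) -/
theorem multiplier_L2e {G : V → ℂ} (hG : Integrable G) {B : ℝ} (hB : ∀ ξ, ‖G ξ‖ ≤ B) {f g : V → ℂ}
    (hf : Integrable f) (hfm : Measurable f) (hg : Integrable g) (hgm : Measurable g) :
    ‖∫ x, cv (𝓕⁻ G) f x * g x‖ₑ ≤ ENNReal.ofReal B * ((∫⁻ x, ‖f x‖ₑ ^ 2) ^ (1 / 2 : ℝ) *
      (∫⁻ x, ‖g x‖ₑ ^ 2) ^ (1 / 2 : ℝ)) := by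
  have hGf : Integrable (fun ξ => G ξ * 𝓕 f ξ) := by
    apply hG.mul_bdd (c := ∫ v, ‖f v‖) (continuous_fourier hf).aestronglyMeasurable
    filter_upwards with x
    exact norm_fourier_le f x
  have hgn : ∫⁻ x, ‖𝓕⁻ g x‖ₑ ^ 2 ≤ ∫⁻ x, ‖g x‖ₑ ^ 2 := by
    have h1 := lintegral_sq_fourier_le (hg.comp_neg) (hgm.comp measurable_neg)
    rw [← Real.fourierInv_eq_fourier_comp_neg] at h1
    refine h1.trans (le_of_eq ?_)
    exact lintegral_neg_eq_self (fun x => ‖g x‖ₑ ^ 2)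
  rw [cv_inv_eq hG hf, integral_fourierInv_mul hGf hg]
  calc ‖∫ ξ, (G ξ * 𝓕 f ξ) * 𝓕⁻ g ξ‖ₑ ≤ ∫⁻ ξ, ‖(G ξ * 𝓕 f ξ) * 𝓕⁻ g ξ‖ₑ := enorm_integral_le_lintegral_enorm _
    _ ≤ ∫⁻ ξ, ENNReal.ofReal B * (‖𝓕 f ξ‖ₑ * ‖𝓕⁻ g ξ‖ₑ) := by
        apply lintegral_mono
        intro ξ
        simp only [enorm_mul]
        rw [mul_assoc]
        have : ‖G ξ‖ₑ ≤ ENNReal.ofReal B := by
          rw [← ofReal_norm]; exact ENNReal.ofReal_le_ofReal (hB ξ)
        gcongr
    _ = ENNReal.ofReal B * ∫⁻ ξ, ‖𝓕 f ξ‖ₑ * ‖𝓕⁻ g ξ‖ₑ := lintegral_const_mul' _ _ ENNReal.ofReal_ne_top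
    _ ≤ ENNReal.ofReal B * ((∫⁻ ξ, ‖𝓕 f ξ‖ₑ ^ (2:ℝ)) ^ (1 / 2 : ℝ) * (∫⁻ ξ, ‖𝓕⁻ g ξ‖ₑ ^ (2:ℝ)) ^ (1 / 2 : ℝ)) := by
        gcongr
        exact ENNReal.lintegral_mul_le_Lp_mul_Lq volume Real.HolderConjugate.two_two
          (continuous_fourier hf).measurable.enorm.aemeasurable
          (continuous_fourierInv hg).measurable.enorm.aemeasurable
    _ ≤ _ := by
        simp only [ENNReal.rpow_ofNat]
        have := lintegral_sq_fourier_le hf hfm
        gcongr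

theorem multiplier_L2 {G : V → ℂ} (hG : Integrable G) {B : ℝ} (hB : ∀ ξ, ‖G ξ‖ ≤ B) {f g : V → ℂ}
    (hf : Adm volume f) (hg : Adm volume g) :
    ‖∫ x, cv (𝓕⁻ G) f x * g x‖ ≤ B * nrm 2 f volume * nrm 2 g volume := by
  have hB0 : 0 ≤ B := (norm_nonneg _).trans (hB 0)
  have h := multiplier_L2e hG hB hf.int hf.meas hg.int hg.meas
  rw [← eLpNorm_two, ← eLpNorm_two, ← hf.ofReal_nrm (by norm_num), ← hg.ofReal_nrm (by norm_num),
    ← ENNReal.ofReal_mul nrm_nonneg, ← ENNReal.ofReal_mul hB0, ← ofReal_norm,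
    ENNReal.ofReal_le_ofReal_iff (mul_nonneg hB0 (mul_nonneg nrm_nonneg nrm_nonneg))] at h
  linarith

end

theorem k2_eq_inv {Λ : ℝ} (hΛ : 0 < Λ) {A : ℝ} {θ : ℝ → ℂ} (h : Bump 4 A θ) (z : E2) :
    k2 Λ θ (‖z‖ ^ 2) = 𝓕⁻ (fun ξ : E2 => mult Λ θ (‖ξ‖ ^ 2)) z := by
  rw [T02_k2_eq Λ hΛ A θ h, Real.fourierInv_eq']
  congr 1
  ext ξ
  rw [smul_eq_mul, mul_comm]
  congr 2
  rw [real_inner_comm]
  push_cast; ring

theorem norm_mult_le4 {M : ℕ} {Λ : ℝ} (hΛ : 0 < Λ) {A : ℝ} {θ : ℝ → ℂ} (h : Bump M A θ) (q : ℝ) :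
    ‖mult Λ θ q‖ ≤ 4 * A := by
  rw [mult_eq h hΛ]
  have := norm_Th_le h (Λ * (q - 1)) 0 (Nat.zero_le _)
  simpa using this

theorem T03_L2 : ∃ C : ℝ, 0 ≤ C ∧ ∀ (Λ : ℝ), 1 ≤ Λ → ∀ (A : ℝ) (θ : ℝ → ℂ), Bump 6 A θ →
    ∀ f g : ℝ × ℝ → ℂ, Adm volume f → Adm volume g →
    ‖B2 Λ θ f g‖ ≤ C * A * nrm 2 f volume * nrm 2 g volume := by
  refine ⟨4, by norm_num, ?_⟩
  intro Λ hΛ A θ h f g hf hg
  have hΛ0 : 0 < Λ := by linarith
  have h4 : Bump 4 A θ := h.mono (by norm_num) le_rfl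
  rw [B2_E2, ← nrm_pe f, ← nrm_pe g]
  simp_rw [k2_eq_inv hΛ0 h4]
  exact multiplier_L2 (integrable_mult (by simp) h4 hΛ0) (fun ξ => norm_mult_le4 hΛ0 h _) hf.toE2 hg.toE2

end Vale.Agent.P117
end
end

section

section

open MeasureTheory Complex Set Filter
open scoped ENNReal NNReal ContDiff FourierTransform SchwartzMap ComplexConjugate Convolution Topology

namespace Vale.Agent.P117

/-- L1 norm of the derivative of the transform of a bump -/
theorem lintegral_deriv_th : ∃ C : ℝ, 0 ≤ C ∧ ∀ (A : ℝ) (θ : ℝ → ℂ), Bump 6 A θ →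
    ∫⁻ v : ℝ, ‖deriv (𝓕 θ) v‖ₑ ≤ ENNReal.ofReal (C * A) := by
  obtain ⟨C, hC, h⟩ := th_decay
  refine ⟨2 * C * Real.pi, by have := Real.pi_pos; positivity, ?_⟩
  intro A θ hθ
  have hA := hθ.nonneg
  have hb : ∀ v : ℝ, ‖deriv (𝓕 θ) v‖ ≤ 2 * C * A * (1 + v ^ 2)⁻¹ := by
    intro v
    have h0 := h A θ hθ 1 (by norm_num) 0 (by norm_num) v
    have h2 := h A θ hθ 1 (by norm_num) 2 (by norm_num) v
    rw [iteratedDeriv_one] at h0 h2
    rw [pow_zero, one_mul] at h0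
    rw [sq_abs] at h2
    rw [← div_eq_mul_inv, le_div_iff₀ (by positivity)]
    linarith
  calc ∫⁻ v : ℝ, ‖deriv (𝓕 θ) v‖ₑ ≤ ∫⁻ v : ℝ, ENNReal.ofReal (2 * C * A * (1 + v ^ 2)⁻¹) := by
        apply lintegral_mono
        intro v
        simp only
        rw [← ofReal_norm]
        exact ENNReal.ofReal_le_ofReal (hb v)
    _ = ENNReal.ofReal (∫ v : ℝ, 2 * C * A * (1 + v ^ 2)⁻¹) := by
        rw [ofReal_integral_eq_lintegral_ofReal (integrable_inv_one_add_sq.const_mul _)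
          (by filter_upwards with v; positivity)]
    _ = _ := by
        rw [integral_const_mul, integral_univ_inv_one_add_sq]
        congr 1
        ring

/-- the section of the multiplier -/
noncomputable def hsec (Λ : ℝ) (θ : ℝ → ℂ) (ζ t : ℝ) : ℂ := mult Λ θ (t ^ 2 + ζ ^ 2)

theorem hsec_eq {Λ : ℝ} (hΛ : 0 < Λ) {A : ℝ} {θ : ℝ → ℂ} (h : Bump 6 A θ) (ζ t : ℝ) :
    hsec Λ θ ζ t = 𝓕 θ (-(Λ * (t ^ 2 + ζ ^ 2 - 1))) := by
  unfold hsec
  rw [mult_eq h hΛ, Th_eq_fourier]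

theorem hasDerivAt_hsec {Λ : ℝ} (hΛ : 0 < Λ) {A : ℝ} {θ : ℝ → ℂ} (h : Bump 6 A θ) (ζ t : ℝ) :
    HasDerivAt (hsec Λ θ ζ) ((-(2 * Λ * t) : ℝ) • deriv (𝓕 θ) (-(Λ * (t ^ 2 + ζ ^ 2 - 1)))) t := by
  have e : hsec Λ θ ζ = (𝓕 θ) ∘ (fun t : ℝ => -(Λ * (t ^ 2 + ζ ^ 2 - 1))) := by
    ext t; exact hsec_eq hΛ h ζ t
  rw [e]
  have hd : HasDerivAt (𝓕 θ) (deriv (𝓕 θ) (-(Λ * (t ^ 2 + ζ ^ 2 - 1)))) (-(Λ * (t ^ 2 + ζ ^ 2 - 1))) :=
    ((contDiff_fourier_bump h).differentiable (by simp)).differentiableAt.hasDerivAt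
  have hi : HasDerivAt (fun t : ℝ => -(Λ * (t ^ 2 + ζ ^ 2 - 1))) (-(2 * Λ * t)) t := by
    have := ((((hasDerivAt_id t).pow 2).add_const (ζ ^ 2)).sub_const 1).const_mul Λ
    refine this.neg.congr_deriv ?_
    simp; ring
  exact HasDerivAt.scomp t hd hi

theorem lintegral_deriv_hsec : ∃ C : ℝ, 0 ≤ C ∧ ∀ (Λ : ℝ), 0 < Λ → ∀ (A : ℝ) (θ : ℝ → ℂ), Bump 6 A θ →
    ∀ ζ : ℝ, ∫⁻ t : ℝ, ‖deriv (hsec Λ θ ζ) t‖ₑ ≤ ENNReal.ofReal (C * A) := by
  obtain ⟨C, hC, h⟩ := lintegral_deriv_th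
  refine ⟨2 * C, by positivity, ?_⟩
  intro Λ hΛ A θ hθ ζ
  have hA := hθ.nonneg
  set v : ℝ → ℝ := fun t => -(Λ * (t ^ 2 + ζ ^ 2 - 1)) with hv
  have hder : ∀ t, HasDerivAt v (-(2 * Λ * t)) t := by
    intro t
    have := ((((hasDerivAt_id t).pow 2).add_const (ζ ^ 2)).sub_const 1).const_mul Λ
    refine this.neg.congr_deriv ?_
    simp; ring
  have e : ∀ t, ‖deriv (hsec Λ θ ζ) t‖ₑ = ENNReal.ofReal |-(2 * Λ * t)| * ‖deriv (𝓕 θ) (v t)‖ₑ := by
    intro t
    rw [(hasDerivAt_hsec hΛ hθ ζ t).deriv, enorm_smul, ← ofReal_norm, Real.norm_eq_abs]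
  have half : ∀ s : Set ℝ, MeasurableSet s → InjOn v s → ∫⁻ t in s, ‖deriv (hsec Λ θ ζ) t‖ₑ ≤ ENNReal.ofReal (C * A) := by
    intro s hs hinj
    simp_rw [e]
    rw [← lintegral_image_eq_lintegral_abs_deriv_mul hs (fun t _ => (hder t).hasDerivWithinAt) hinj
      (fun y => ‖deriv (𝓕 θ) y‖ₑ)]
    exact (setLIntegral_le_lintegral _ _).trans (h A θ hθ)
  have hsplit : ∫⁻ t : ℝ, ‖deriv (hsec Λ θ ζ) t‖ₑ = (∫⁻ t in Ioi (0:ℝ), ‖deriv (hsec Λ θ ζ) t‖ₑ) +
      ∫⁻ t in (Ioi (0:ℝ))ᶜ, ‖deriv (hsec Λ θ ζ) t‖ₑ := (lintegral_add_compl _ measurableSet_Ioi).symm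
  rw [hsplit]
  have hinj1 : InjOn v (Ioi 0) := by
    intro a ha b hb hab
    simp only [hv, neg_inj] at hab
    have : a ^ 2 = b ^ 2 := by
      have := mul_left_cancel₀ hΛ.ne' hab
      linarith
    exact (sq_eq_sq₀ (le_of_lt ha) (le_of_lt hb)).1 this
  have hinj2 : InjOn v (Ioi 0)ᶜ := by
    intro a ha b hb hab
    simp only [hv, neg_inj] at hab
    have : a ^ 2 = b ^ 2 := by
      have := mul_left_cancel₀ hΛ.ne' hab
      linarith
    simp only [mem_compl_iff, mem_Ioi, not_lt] at ha hb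
    have h2 : (-a) ^ 2 = (-b) ^ 2 := by rw [neg_sq, neg_sq]; exact this
    have := (sq_eq_sq₀ (by linarith) (by linarith)).1 h2
    linarith
  calc _ ≤ ENNReal.ofReal (C * A) + ENNReal.ofReal (C * A) :=
        add_le_add (half _ measurableSet_Ioi hinj1) (half _ measurableSet_Ioi.compl hinj2)
    _ = _ := by
        rw [← ENNReal.ofReal_add (by positivity) (by positivity)]
        congr 1; ring

theorem continuous_deriv_hsec {Λ : ℝ} (hΛ : 0 < Λ) {A : ℝ} {θ : ℝ → ℂ} (h : Bump 6 A θ) (ζ : ℝ) :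
    Continuous (deriv (hsec Λ θ ζ)) := by
  have : deriv (hsec Λ θ ζ) = fun t => (-(2 * Λ * t) : ℝ) • deriv (𝓕 θ) (-(Λ * (t ^ 2 + ζ ^ 2 - 1))) := by
    ext t; exact (hasDerivAt_hsec hΛ h ζ t).deriv
  rw [this]
  have hc : Continuous (deriv (𝓕 θ)) := (contDiff_fourier_bump h).continuous_deriv (by simp)
  have hc2 : Continuous (fun t : ℝ => deriv (𝓕 θ) (-(Λ * (t ^ 2 + ζ ^ 2 - 1)))) := hc.comp (by fun_prop)
  exact (by fun_prop : Continuous (fun t : ℝ => -(2 * Λ * t))).smul hc2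

theorem continuous_hsec2 {Λ : ℝ} (hΛ : 0 < Λ) {A : ℝ} {θ : ℝ → ℂ} (h : Bump 6 A θ) :
    Continuous (fun z : ℝ × ℝ => hsec Λ θ z.2 z.1) := by
  unfold hsec
  exact (continuous_mult h hΛ).comp (by fun_prop)

theorem integrable_hsec2 {Λ : ℝ} (hΛ : 0 < Λ) {A : ℝ} {θ : ℝ → ℂ} (h : Bump 6 A θ) :
    Integrable (fun z : ℝ × ℝ => hsec Λ θ z.2 z.1) (volume.prod volume) := by
  have h1 : Integrable (fun ξ : E2 => mult Λ θ (‖ξ‖ ^ 2)) :=
    integrable_mult (by simp) (h.mono (by norm_num) le_rfl) hΛ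
  have h2 : (fun ξ : E2 => mult Λ θ (‖ξ‖ ^ 2)) = (fun z : ℝ × ℝ => hsec Λ θ z.2 z.1) ∘ pe := by
    ext ξ
    simp only [Function.comp, pe_apply, hsec, E2_norm_sq]
  rw [h2] at h1
  exact (mp_pe.integrable_comp_emb pe.measurableEmbedding).1 h1

theorem integrable_hsec {Λ : ℝ} (hΛ : 0 < Λ) {A : ℝ} {θ : ℝ → ℂ} (h : Bump 6 A θ) (ζ : ℝ) :
    Integrable (hsec Λ θ ζ) := by
  have h1 : Integrable (fun t : ℝ => 128 * A * (min 1 Λ / 3) ^ (-(4:ℝ)) * ((1 + ‖t‖) ^ (-(2:ℝ)))) := by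
    apply Integrable.const_mul
    apply integrable_one_add_norm
    simp
  have hA := h.nonneg
  have hc : Continuous (hsec Λ θ ζ) := by
    unfold hsec
    exact (continuous_mult h hΛ).comp (by fun_prop)
  have hmin : 0 < min 1 Λ := lt_min one_pos hΛ
  refine (h1.const_mul (2 ^ 4)).mono' hc.aestronglyMeasurable ?_
  filter_upwards with t
  have h2 := norm_mult_le (h.mono (by norm_num) le_rfl : Bump 4 A θ) hΛ (s := t ^ 2 + ζ ^ 2) (by positivity)
  unfold hsec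
  refine h2.trans ?_
  have h3 : (1 + (t ^ 2 + ζ ^ 2)) ^ (-(4:ℝ)) ≤ 2 ^ 4 * (1 + ‖t‖) ^ (-(2:ℝ)) := by
    rw [Real.rpow_neg (by positivity), Real.rpow_neg (by positivity), inv_le_iff_one_le_mul₀ (by positivity)]
    have e4 : (1 + (t ^ 2 + ζ ^ 2)) ^ (4:ℝ) = (1 + (t ^ 2 + ζ ^ 2)) ^ 4 := by norm_cast
    have e2 : (1 + ‖t‖) ^ (2:ℝ) = (1 + ‖t‖) ^ 2 := by norm_cast
    rw [e4, e2, ← div_eq_mul_inv, div_mul_eq_mul_div, le_div_iff₀ (by positivity), one_mul, Real.norm_eq_abs]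
    have h5 : (1 + |t|) ^ 2 ≤ 2 * (1 + (t ^ 2 + ζ ^ 2)) := by
      nlinarith [sq_abs t, sq_nonneg (|t| - 1), sq_nonneg ζ]
    have h6 : 1 ≤ 1 + (t ^ 2 + ζ ^ 2) := by
      have := sq_nonneg t
      have := sq_nonneg ζ
      linarith
    have h7 : 1 + (t ^ 2 + ζ ^ 2) ≤ (1 + (t ^ 2 + ζ ^ 2)) ^ 4 := le_self_pow₀ h6 (by norm_num)
    linarith
  calc _ ≤ 128 * A * (min 1 Λ / 3) ^ (-(4:ℝ)) * (2 ^ 4 * (1 + ‖t‖) ^ (-(2:ℝ))) := by gcongr
    _ = _ := by ring

/-- partial inverse transform -/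
noncomputable def kap (Λ : ℝ) (θ : ℝ → ℂ) (s ζ : ℝ) : ℂ := 𝓕⁻ (hsec Λ θ ζ) s

theorem kap_bound : ∃ C : ℝ, 0 ≤ C ∧ ∀ (Λ : ℝ), 0 < Λ → ∀ (A : ℝ) (θ : ℝ → ℂ), Bump 6 A θ →
    ∀ s ζ : ℝ, |s| * ‖kap Λ θ s ζ‖ ≤ C * A := by
  obtain ⟨C, hC, h⟩ := lintegral_deriv_hsec
  refine ⟨C, hC, ?_⟩
  intro Λ hΛ A θ hθ s ζ
  have hA := hθ.nonneg
  have hI := integrable_hsec hΛ hθ ζ
  have hd : Differentiable ℝ (hsec Λ θ ζ) := fun t => (hasDerivAt_hsec hΛ hθ ζ t).differentiableAt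
  have hI' : Integrable (deriv (hsec Λ θ ζ)) := by
    refine ⟨(continuous_deriv_hsec hΛ hθ ζ).aestronglyMeasurable, ?_⟩
    exact (h Λ hΛ A θ hθ ζ).trans_lt ENNReal.ofReal_lt_top
  have h1 := congrFun (Real.fourier_deriv hI hd hI') (-s)
  have h2 : ‖𝓕 (deriv (hsec Λ θ ζ)) (-s)‖ ≤ C * A := by
    refine (norm_fourier_le _ _).trans ?_
    have := integral_norm_eq_lintegral_enorm hI'.aestronglyMeasurable
    rw [this]
    exact ENNReal.toReal_le_of_le_ofReal (by positivity) (h Λ hΛ A θ hθ ζ)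
  rw [h1] at h2
  unfold kap
  rw [Real.fourierInv_eq_fourier_neg]
  rw [norm_smul, norm_mul, norm_mul, norm_mul, Complex.norm_I, Complex.norm_real, Complex.norm_real,
    Real.norm_of_nonneg Real.pi_pos.le, Real.norm_eq_abs, abs_neg] at h2
  have h3 : ‖(2:ℂ)‖ = 2 := by norm_num
  rw [h3, mul_one] at h2
  have h4 : 1 ≤ 2 * Real.pi := by linarith [Real.pi_gt_three]
  calc |s| * ‖𝓕 (hsec Λ θ ζ) (-s)‖ ≤ 2 * Real.pi * |s| * ‖𝓕 (hsec Λ θ ζ) (-s)‖ := by
        have : 1 * (|s| * ‖𝓕 (hsec Λ θ ζ) (-s)‖) ≤ 2 * Real.pi * (|s| * ‖𝓕 (hsec Λ θ ζ) (-s)‖) := by gcongr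
        linarith
    _ ≤ C * A := h2

theorem integrable_phase_hsec {Λ : ℝ} (hΛ : 0 < Λ) {A : ℝ} {θ : ℝ → ℂ} (h : Bump 6 A θ) (s u : ℝ) :
    Integrable (fun z : ℝ × ℝ => cexp (((2 * Real.pi * (z.1 * s + z.2 * u) : ℝ) : ℂ) * I) * hsec Λ θ z.2 z.1)
      (volume.prod volume) := by
  have hc := continuous_hsec2 hΛ h
  refine (integrable_hsec2 hΛ h).mono (Continuous.mul (by fun_prop) hc).aestronglyMeasurable ?_
  filter_upwards with z
  rw [norm_mul, Complex.norm_exp_ofReal_mul_I, one_mul]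

theorem integrable_kap {Λ : ℝ} (hΛ : 0 < Λ) {A : ℝ} {θ : ℝ → ℂ} (h : Bump 6 A θ) (s : ℝ) :
    Integrable (kap Λ θ s) := by
  have h1 := (integrable_phase_hsec hΛ h s 0).integral_prod_right
  refine h1.congr ?_
  filter_upwards with ζ
  unfold kap
  rw [Real.fourierInv_eq']
  congr 1
  ext t
  simp only [mul_zero, add_zero, smul_eq_mul]
  congr 3
  simp [mul_comm]

theorem k2_eq_kap {Λ : ℝ} (hΛ : 0 < Λ) {A : ℝ} {θ : ℝ → ℂ} (h : Bump 6 A θ) (s u : ℝ) :
    k2 Λ θ (s ^ 2 + u ^ 2) = 𝓕⁻ (kap Λ θ s) u := by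
  have h4 : Bump 4 A θ := h.mono (by norm_num) le_rfl
  have h1 := k2_eq_inv hΛ h4 (!₂[s, u])
  have e : ‖(!₂[s, u] : E2)‖ ^ 2 = s ^ 2 + u ^ 2 := by rw [E2_norm_sq]; simp
  rw [e] at h1
  rw [h1, Real.fourierInv_eq', Real.fourierInv_eq']
  have h2 : ∀ ξ : E2, cexp (((2 * Real.pi * inner ℝ ξ (!₂[s, u] : E2) : ℝ) : ℂ) * I) • mult Λ θ (‖ξ‖ ^ 2) =
      (fun z : ℝ × ℝ => cexp (((2 * Real.pi * (z.1 * s + z.2 * u) : ℝ) : ℂ) * I) * hsec Λ θ z.2 z.1) (ξ 0, ξ 1) := by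
    intro ξ
    simp only [hsec]
    rw [E2_norm_sq, E2_inner, smul_eq_mul]
    simp
  simp_rw [h2]
  rw [integral_E2 (fun z : ℝ × ℝ => cexp (((2 * Real.pi * (z.1 * s + z.2 * u) : ℝ) : ℂ) * I) * hsec Λ θ z.2 z.1)]
  rw [Measure.volume_eq_prod, integral_prod_symm _ (integrable_phase_hsec hΛ h s u)]
  congr 1
  ext ζ
  unfold kap
  rw [Real.fourierInv_eq', smul_eq_mul, ← integral_const_mul]
  congr 1
  ext t
  rw [smul_eq_mul, ← mul_assoc, ← Complex.exp_add]
  congr 2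
  simp
  ring


/-- the form on a pair of lines -/
noncomputable def Qf (Λ : ℝ) (θ : ℝ → ℂ) (f g : ℝ × ℝ → ℂ) (x1 y1 : ℝ) : ℂ :=
  ∫ x2 : ℝ, ∫ y2 : ℝ, k2 Λ θ ((x1 - y1) ^ 2 + (x2 - y2) ^ 2) * f (y1, y2) * g (x1, x2)

theorem Qf_bound : ∃ C : ℝ, 0 ≤ C ∧ ∀ (Λ : ℝ), 0 < Λ → ∀ (A : ℝ) (θ : ℝ → ℂ), Bump 6 A θ →
    ∀ f g : ℝ × ℝ → ℂ, Measurable f → Measurable g → ∀ (x1 y1 d : ℝ), 0 < d → d ≤ |x1 - y1| →
    Integrable (fun y2 => f (y1, y2)) → Integrable (fun x2 => g (x1, x2)) →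
    ‖Qf Λ θ f g x1 y1‖ₑ ≤ ENNReal.ofReal (C * A / d) * ((∫⁻ y2, ‖f (y1, y2)‖ₑ ^ 2) ^ (1 / 2 : ℝ) *
      (∫⁻ x2, ‖g (x1, x2)‖ₑ ^ 2) ^ (1 / 2 : ℝ)) := by
  obtain ⟨C, hC, h⟩ := kap_bound
  refine ⟨C, hC, ?_⟩
  intro Λ hΛ A θ hθ f g hf hg x1 y1 d hd hxy hfI hgI
  have hA := hθ.nonneg
  have hb : ∀ ζ, ‖kap Λ θ (x1 - y1) ζ‖ ≤ C * A / d := by
    intro ζ
    have h1 := h Λ hΛ A θ hθ (x1 - y1) ζ
    rw [le_div_iff₀ hd]
    calc ‖kap Λ θ (x1 - y1) ζ‖ * d ≤ ‖kap Λ θ (x1 - y1) ζ‖ * |x1 - y1| := by gcongr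
      _ = |x1 - y1| * ‖kap Λ θ (x1 - y1) ζ‖ := mul_comm _ _
      _ ≤ C * A := h1
  have key := multiplier_L2e (V := ℝ) (integrable_kap hΛ hθ (x1 - y1)) hb hfI (by fun_prop) hgI (by fun_prop)
  have e : Qf Λ θ f g x1 y1 = ∫ x2, cv (𝓕⁻ (kap Λ θ (x1 - y1))) (fun y2 => f (y1, y2)) x2 * g (x1, x2) := by
    unfold Qf cv
    congr 1
    ext x2
    rw [← integral_mul_const]
    congr 1
    ext y2
    rw [k2_eq_kap hΛ hθ]
  rw [e]
  exact key

theorem norm_k2_le' {Λ : ℝ} (hΛ : 0 < Λ) {A : ℝ} {θ : ℝ → ℂ} (h : Bump 6 A θ) :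
    ∃ C : ℝ, 0 ≤ C ∧ ∀ z : ℝ × ℝ, ‖k2 Λ θ (z.1 ^ 2 + z.2 ^ 2)‖ ≤ C := by
  refine ⟨∫ ζ, ‖mult Λ θ (‖(ζ : E2)‖ ^ 2)‖, integral_nonneg fun _ => norm_nonneg _, ?_⟩
  intro z
  have h4 : Bump 4 A θ := h.mono (by norm_num) le_rfl
  have h1 := k2_eq_inv hΛ h4 (!₂[z.1, z.2])
  have e : ‖(!₂[z.1, z.2] : E2)‖ ^ 2 = z.1 ^ 2 + z.2 ^ 2 := by rw [E2_norm_sq]; simp
  rw [e] at h1
  rw [h1]
  exact norm_fourierInv_le _ _

theorem continuous_k2' {Λ : ℝ} (hΛ : 0 < Λ) {A : ℝ} {θ : ℝ → ℂ} (h : Bump 6 A θ) :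
    Continuous (fun z : ℝ × ℝ => k2 Λ θ (z.1 ^ 2 + z.2 ^ 2)) := by
  have h4 : Bump 4 A θ := h.mono (by norm_num) le_rfl
  have hI : Integrable (fun ξ : E2 => mult Λ θ (‖ξ‖ ^ 2)) := integrable_mult (by simp) h4 hΛ
  have e : (fun z : ℝ × ℝ => k2 Λ θ (z.1 ^ 2 + z.2 ^ 2)) =
      (𝓕⁻ (fun ξ : E2 => mult Λ θ (‖ξ‖ ^ 2))) ∘ (fun z : ℝ × ℝ => (!₂[z.1, z.2] : E2)) := by
    ext z
    simp only [Function.comp]
    rw [← k2_eq_inv hΛ h4]
    congr 1
    rw [E2_norm_sq]; simp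
  rw [e]
  refine (continuous_fourierInv hI).comp ?_
  apply (PiLp.continuous_toLp 2 _).comp
  apply continuous_pi
  intro i
  fin_cases i
  · exact continuous_fst
  · exact continuous_snd

/-- a bounded translation invariant form is controlled by the pairs of lines -/
theorem form_le_lines {k : ℝ × ℝ → ℂ} (hkm : Measurable k) {C : ℝ} (hk : ∀ z, ‖k z‖ ≤ C)
    {f g : ℝ × ℝ → ℂ} (hf : Adm volume f) (hg : Adm volume g) :
    ‖∫ x : ℝ × ℝ, ∫ y : ℝ × ℝ, k (x.1 - y.1, x.2 - y.2) * f y * g x‖ₑ ≤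
      ∫⁻ x1 : ℝ, ∫⁻ y1 : ℝ, ‖∫ x2 : ℝ, ∫ y2 : ℝ, k (x1 - y1, x2 - y2) * f (y1, y2) * g (x1, x2)‖ₑ := by
  have hfm := hf.meas
  have hgm := hg.meas
  have hfI : Integrable f (volume.prod volume) := by
    have := hf.int; rwa [Measure.volume_eq_prod] at this
  have hgI : Integrable g (volume.prod volume) := by
    have := hg.int; rwa [Measure.volume_eq_prod] at this
  set Φ : ℝ × ℝ → ℝ × ℝ → ℂ := fun x y => k (x.1 - y.1, x.2 - y.2) * f y * g x with hΦ
  have hΦm : Measurable (fun z : (ℝ × ℝ) × (ℝ × ℝ) => Φ z.1 z.2) := by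
    have h1 : Measurable (fun z : (ℝ × ℝ) × (ℝ × ℝ) => k (z.1.1 - z.2.1, z.1.2 - z.2.2)) :=
      hkm.comp (f := fun z : (ℝ × ℝ) × (ℝ × ℝ) => (z.1.1 - z.2.1, z.1.2 - z.2.2)) (by fun_prop)
    exact (h1.mul (hfm.comp measurable_snd)).mul (hgm.comp measurable_fst)
  have hΦb : ∀ x y, ‖Φ x y‖ ≤ C * ‖f y‖ * ‖g x‖ := by
    intro x y
    simp only [hΦ, norm_mul]
    have := hk (x.1 - y.1, x.2 - y.2)
    gcongr
  -- inner integral in y as iterated
  have hΦy : ∀ x, Integrable (fun y => Φ x y) (volume.prod volume) := by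
    intro x
    refine ((hfI.norm.const_mul C).mul_const ‖g x‖).mono' ?_ ?_
    · exact (hΦm.comp (by fun_prop : Measurable (fun y : ℝ × ℝ => (x, y)))).aestronglyMeasurable
    · filter_upwards with y
      exact hΦb x y
  set Ψ : ℝ × ℝ → ℂ := fun x => ∫ y, Φ x y with hΨ
  have hΨm : StronglyMeasurable Ψ := hΦm.stronglyMeasurable.integral_prod_right
  have hΨI : Integrable Ψ (volume.prod volume) := by
    refine (hgI.norm.const_mul (C * ∫ y, ‖f y‖)).mono' hΨm.aestronglyMeasurable ?_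
    filter_upwards with x
    calc ‖∫ y, Φ x y‖ ≤ ∫ y, C * ‖f y‖ * ‖g x‖ := by
          apply norm_integral_le_of_norm_le ((hf.int.norm.const_mul C).mul_const ‖g x‖)
          filter_upwards with y
          exact hΦb x y
      _ = _ := by rw [integral_mul_const, integral_const_mul]
  have hB : ∫ x : ℝ × ℝ, ∫ y : ℝ × ℝ, k (x.1 - y.1, x.2 - y.2) * f y * g x = ∫ x1 : ℝ, ∫ x2 : ℝ, Ψ (x1, x2) := by
    rw [← integral_prod _ hΨI, ← Measure.volume_eq_prod]
  rw [hB]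
  have hsec : ∀ᵐ x1 : ℝ, ∫ x2 : ℝ, Ψ (x1, x2) = ∫ y1 : ℝ, ∫ x2 : ℝ, ∫ y2 : ℝ, Φ (x1, x2) (y1, y2) := by
    filter_upwards [hgI.prod_right_ae] with x1 hx1
    have e1 : ∀ x2, Ψ (x1, x2) = ∫ y1 : ℝ, ∫ y2 : ℝ, Φ (x1, x2) (y1, y2) := by
      intro x2
      simp only [hΨ]
      rw [Measure.volume_eq_prod, integral_prod _ (hΦy (x1, x2))]
    simp_rw [e1]
    rw [integral_integral_swap]
    have hfi : Integrable (fun y1 : ℝ => ∫ y2 : ℝ, ‖f (y1, y2)‖) := hfI.norm.integral_prod_left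
    have hI : Integrable (fun z : ℝ × ℝ => (C * ∫ y2 : ℝ, ‖f (z.2, y2)‖) * ‖g (x1, z.1)‖) (volume.prod volume) := by
      have := hx1.norm.mul_prod (hfi.const_mul C)
      refine this.congr ?_
      filter_upwards with z
      ring
    refine hI.mono' ?_ ?_
    · have hm3 : Measurable (fun w : (ℝ × ℝ) × ℝ => Φ (x1, w.1.1) (w.1.2, w.2)) := by
        have h3 := hΦm.comp (by fun_prop : Measurable (fun w : (ℝ × ℝ) × ℝ => (((x1, w.1.1) : ℝ × ℝ), ((w.1.2, w.2) : ℝ × ℝ))))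
        exact h3
      exact hm3.stronglyMeasurable.integral_prod_right.aestronglyMeasurable
    · have hae : ∀ᵐ z : ℝ × ℝ ∂(volume.prod volume), Integrable (fun y2 => f (z.2, y2)) := by
        have := hfI.prod_right_ae
        exact Measure.quasiMeasurePreserving_snd.ae this
      filter_upwards [hae] with z hz
      simp only [Function.uncurry]
      calc ‖∫ y2 : ℝ, Φ (x1, z.1) (z.2, y2)‖ ≤ ∫ y2 : ℝ, C * ‖f (z.2, y2)‖ * ‖g (x1, z.1)‖ := by
            apply norm_integral_le_of_norm_le ((hz.norm.const_mul C).mul_const _)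
            filter_upwards with y2
            exact hΦb _ _
        _ = _ := by rw [integral_mul_const, integral_const_mul]
  calc ‖∫ x1 : ℝ, ∫ x2 : ℝ, Ψ (x1, x2)‖ₑ ≤ ∫⁻ x1 : ℝ, ‖∫ x2 : ℝ, Ψ (x1, x2)‖ₑ := enorm_integral_le_lintegral_enorm _
    _ = ∫⁻ x1 : ℝ, ‖∫ y1 : ℝ, ∫ x2 : ℝ, ∫ y2 : ℝ, Φ (x1, x2) (y1, y2)‖ₑ := by
        apply lintegral_congr_ae
        filter_upwards [hsec] with x1 hx1
        rw [hx1]
    _ ≤ _ := lintegral_mono fun x1 => enorm_integral_le_lintegral_enorm _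

/-- the form is controlled by the lines -/
theorem B2_le_lines {Λ : ℝ} (hΛ : 0 < Λ) {A : ℝ} {θ : ℝ → ℂ} (h : Bump 6 A θ) {f g : ℝ × ℝ → ℂ}
    (hf : Adm volume f) (hg : Adm volume g) :
    ‖B2 Λ θ f g‖ₑ ≤ ∫⁻ x1 : ℝ, ∫⁻ y1 : ℝ, ‖Qf Λ θ f g x1 y1‖ₑ := by
  obtain ⟨C, hC, hk⟩ := norm_k2_le' hΛ h
  have hkc := continuous_k2' hΛ h
  exact form_le_lines hkc.measurable hk hf hg

/-- Cauchy-Schwarz on an interval -/
theorem slab_cs {F : ℝ → ℝ≥0∞} (hF : Measurable F) (a ℓ : ℝ) (hs : ∀ t, F t ≠ 0 → t ∈ Icc a (a + ℓ)) :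
    ∫⁻ t, F t ^ (1 / 2 : ℝ) ≤ ENNReal.ofReal ℓ ^ (1 / 2 : ℝ) * (∫⁻ t, F t) ^ (1 / 2 : ℝ) := by
  have h := ENNReal.lintegral_mul_le_Lp_mul_Lq volume Real.HolderConjugate.two_two
    (f := (Icc a (a + ℓ)).indicator 1) (g := fun t => F t ^ (1 / 2 : ℝ))
    ((measurable_one.indicator measurableSet_Icc).aemeasurable) (hF.pow_const _).aemeasurable
  have e1 : ∀ t, ((Icc a (a + ℓ)).indicator (1 : ℝ → ℝ≥0∞) * fun t => F t ^ (1 / 2 : ℝ)) t = F t ^ (1 / 2 : ℝ) := by
    intro t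
    simp only [Pi.mul_apply]
    by_cases ht : t ∈ Icc a (a + ℓ)
    · rw [indicator_of_mem ht]; simp
    · have : F t = 0 := by by_contra h0; exact ht (hs t h0)
      rw [this]; simp
  have e2 : ∀ t, (Icc a (a + ℓ)).indicator (1 : ℝ → ℝ≥0∞) t ^ (2:ℝ) = (Icc a (a + ℓ)).indicator (1 : ℝ → ℝ≥0∞) t := by
    intro t
    by_cases ht : t ∈ Icc a (a + ℓ)
    · rw [indicator_of_mem ht]; simp
    · rw [indicator_of_notMem ht]; simp
  have e3 : ∀ t, (F t ^ (1 / 2 : ℝ)) ^ (2:ℝ) = F t := by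
    intro t
    rw [← ENNReal.rpow_mul]; norm_num
  simp_rw [e1, e2, e3] at h
  rw [lintegral_indicator_one measurableSet_Icc, Real.volume_Icc] at h
  have e4 : a + ℓ - a = ℓ := by ring
  rw [e4] at h
  exact h

theorem T03_L2off : ∃ C : ℝ, 0 ≤ C ∧ ∀ (Λ : ℝ), 1 ≤ Λ → ∀ (A : ℝ) (θ : ℝ → ℂ), Bump 6 A θ →
    ∀ f g : ℝ × ℝ → ℂ, Adm volume f → Adm volume g →
    ∀ (a b ℓ ℓ' d : ℝ), 0 < ℓ → 0 < ℓ' → 0 < d →
    (∀ y, f y ≠ 0 → y.1 ∈ Icc a (a + ℓ)) → (∀ x, g x ≠ 0 → x.1 ∈ Icc b (b + ℓ')) →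
    (∀ x y, f y ≠ 0 → g x ≠ 0 → d ≤ |x.1 - y.1|) →
    ‖B2 Λ θ f g‖ ≤ C * A * (Real.sqrt (ℓ * ℓ') / d) * nrm 2 f volume * nrm 2 g volume := by
  obtain ⟨C, hC, h⟩ := Qf_bound
  refine ⟨C, hC, ?_⟩
  intro Λ hΛ A θ hθ f g hf hg a b ℓ ℓ' d hℓ hℓ' hd hfs hgs hfg
  have hΛ0 : 0 < Λ := by linarith
  have hA := hθ.nonneg
  have hfI : Integrable f (volume.prod volume) := by
    have := hf.int; rwa [Measure.volume_eq_prod] at this
  have hgI : Integrable g (volume.prod volume) := by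
    have := hg.int; rwa [Measure.volume_eq_prod] at this
  have hfm := hf.meas
  have hgm := hg.meas
  set F : ℝ → ℝ≥0∞ := fun y1 => ∫⁻ y2, ‖f (y1, y2)‖ₑ ^ 2 with hF
  set G : ℝ → ℝ≥0∞ := fun x1 => ∫⁻ x2, ‖g (x1, x2)‖ₑ ^ 2 with hG
  have hFm : Measurable F := by
    have : Measurable (fun z : ℝ × ℝ => ‖f z‖ₑ ^ 2) := hfm.enorm.pow_const 2
    exact this.lintegral_prod_right'
  have hGm : Measurable G := by
    have : Measurable (fun z : ℝ × ℝ => ‖g z‖ₑ ^ 2) := hgm.enorm.pow_const 2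
    exact this.lintegral_prod_right'
  have hFs : ∀ t, F t ≠ 0 → t ∈ Icc a (a + ℓ) := by
    intro t ht
    by_contra hcon
    apply ht
    have : ∀ y2, f (t, y2) = 0 := by
      intro y2
      by_contra h0
      exact hcon (hfs _ h0)
    simp [hF, this]
  have hGs : ∀ t, G t ≠ 0 → t ∈ Icc b (b + ℓ') := by
    intro t ht
    by_contra hcon
    apply ht
    have : ∀ y2, g (t, y2) = 0 := by
      intro y2
      by_contra h0
      exact hcon (hgs _ h0)
    simp [hG, this]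
  have hQ : ∀ᵐ x1 : ℝ, ∀ᵐ y1 : ℝ, ‖Qf Λ θ f g x1 y1‖ₑ ≤ ENNReal.ofReal (C * A / d) *
      (F y1 ^ (1 / 2 : ℝ) * G x1 ^ (1 / 2 : ℝ)) := by
    filter_upwards [hgI.prod_right_ae] with x1 hx1
    filter_upwards [hfI.prod_right_ae] with y1 hy1
    by_cases h1 : ∃ y2, f (y1, y2) ≠ 0
    · by_cases h2 : ∃ x2, g (x1, x2) ≠ 0
      · obtain ⟨y2, hy2⟩ := h1
        obtain ⟨x2, hx2⟩ := h2
        have := hfg (x1, x2) (y1, y2) hy2 hx2
        exact h Λ hΛ0 A θ hθ f g hfm hgm x1 y1 d hd this hy1 hx1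
      · push Not at h2
        have : Qf Λ θ f g x1 y1 = 0 := by unfold Qf; simp [h2]
        rw [this]; simp
    · push Not at h1
      have : Qf Λ θ f g x1 y1 = 0 := by unfold Qf; simp [h1]
      rw [this]; simp
  have hfn : ∫⁻ y1, F y1 = ∫⁻ z : ℝ × ℝ, ‖f z‖ₑ ^ 2 := by
    rw [Measure.volume_eq_prod, lintegral_prod _ (hfm.enorm.pow_const 2).aemeasurable]
  have hgn : ∫⁻ y1, G y1 = ∫⁻ z : ℝ × ℝ, ‖g z‖ₑ ^ 2 := by
    rw [Measure.volume_eq_prod, lintegral_prod _ (hgm.enorm.pow_const 2).aemeasurable]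
  have e2 : ∀ u : ℝ × ℝ → ℂ, eLpNorm u 2 volume = (∫⁻ x, ‖u x‖ₑ ^ 2) ^ (1 / 2 : ℝ) := by
    intro u
    rw [eLpNorm_eq_lintegral_rpow_enorm_toReal (by norm_num) (by norm_num)]
    have : (2 : ℝ≥0∞).toReal = 2 := by norm_num
    rw [this]
    simp only [ENNReal.rpow_ofNat]
  have hmain : ‖B2 Λ θ f g‖ₑ ≤ ENNReal.ofReal (C * A * (Real.sqrt (ℓ * ℓ') / d) * nrm 2 f volume * nrm 2 g volume) := by
    calc ‖B2 Λ θ f g‖ₑ ≤ ∫⁻ x1 : ℝ, ∫⁻ y1 : ℝ, ‖Qf Λ θ f g x1 y1‖ₑ := B2_le_lines hΛ0 hθ hf hg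
      _ ≤ ∫⁻ x1 : ℝ, ∫⁻ y1 : ℝ, ENNReal.ofReal (C * A / d) * (F y1 ^ (1 / 2 : ℝ) * G x1 ^ (1 / 2 : ℝ)) := by
          apply lintegral_mono_ae
          filter_upwards [hQ] with x1 hx1
          exact lintegral_mono_ae hx1
      _ = ENNReal.ofReal (C * A / d) * ((∫⁻ y1 : ℝ, F y1 ^ (1 / 2 : ℝ)) * ∫⁻ x1 : ℝ, G x1 ^ (1 / 2 : ℝ)) := by
          have : ∀ x1, ∫⁻ y1 : ℝ, ENNReal.ofReal (C * A / d) * (F y1 ^ (1 / 2 : ℝ) * G x1 ^ (1 / 2 : ℝ)) =
              ENNReal.ofReal (C * A / d) * ((∫⁻ y1 : ℝ, F y1 ^ (1 / 2 : ℝ)) * G x1 ^ (1 / 2 : ℝ)) := by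
            intro x1
            rw [lintegral_const_mul _ (by fun_prop), lintegral_mul_const _ (by fun_prop)]
          simp_rw [this]
          rw [lintegral_const_mul _ (by fun_prop), lintegral_const_mul _ (by fun_prop)]
      _ ≤ ENNReal.ofReal (C * A / d) * ((ENNReal.ofReal ℓ ^ (1 / 2 : ℝ) * (∫⁻ t, F t) ^ (1 / 2 : ℝ)) *
            (ENNReal.ofReal ℓ' ^ (1 / 2 : ℝ) * (∫⁻ t, G t) ^ (1 / 2 : ℝ))) := by
          gcongr
          · exact slab_cs hFm a ℓ hFs
          · exact slab_cs hGm b ℓ' hGs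
      _ = _ := by
          rw [hfn, hgn, ← e2, ← e2, ← hf.ofReal_nrm (by norm_num), ← hg.ofReal_nrm (by norm_num),
            ENNReal.ofReal_rpow_of_pos hℓ, ENNReal.ofReal_rpow_of_pos hℓ',
            ← ENNReal.ofReal_mul (by positivity), ← ENNReal.ofReal_mul (by positivity),
            ← ENNReal.ofReal_mul (mul_nonneg (by positivity) nrm_nonneg), ← ENNReal.ofReal_mul (by positivity)]
          congr 1
          rw [Real.sqrt_eq_rpow, Real.mul_rpow hℓ.le hℓ'.le]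
          ring
  rw [← ofReal_norm] at hmain
  refine (ENNReal.ofReal_le_ofReal_iff ?_).1 hmain
  exact mul_nonneg (mul_nonneg (by positivity) nrm_nonneg) nrm_nonneg

end Vale.Agent.P117
end
end

section

section

open MeasureTheory Complex Set
open scoped ENNReal NNReal ContDiff FourierTransform SchwartzMap ComplexConjugate Topology

namespace Vale.Agent.P117

/-- ratio gain -/
noncomputable def gain (R S : ℝ) : ℝ := min (S / R) (R / S)

theorem gain_pos {R S : ℝ} (hR : 0 < R) (hS : 0 < S) : 0 < gain R S :=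
  lt_min (div_pos hS hR) (div_pos hR hS)

theorem PlaneHyp.mono {M M' : ℕ} {Λ R S N N' : ℝ} {p q : ℝ≥0∞} (h : PlaneHyp M Λ R S N p q)
    (hM : M ≤ M') (hN : N ≤ N') : PlaneHyp M' Λ R S N' p q := by
  intro A θ hθ σ f g hf hg hfs hgs
  have h1 := h A θ (hθ.mono hM le_rfl) σ f g hf hg hfs hgs
  refine h1.trans ?_
  have hA := hθ.nonneg
  have n1 : 0 ≤ nrm p f volume := nrm_nonneg
  have n2 : 0 ≤ nrm q g volume := nrm_nonneg
  gcongr

theorem plane_L2 : ∃ C : ℝ, 0 ≤ C ∧ ∀ (Λ R S : ℝ), 1 ≤ Λ → 0 < R → 0 < S →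
    PlaneHyp 6 Λ R S (C * gain R S ^ (1/2 : ℝ)) 2 2 := by
  obtain ⟨C1, hC1, h1⟩ := T03_L2
  obtain ⟨C2, hC2, h2⟩ := T03_L2off
  refine ⟨2 * C1 + 2 * C2, by positivity, ?_⟩
  intro Λ R S hΛ hR hS A θ hθ σ f g hf hg hfs hgs
  have hA := hθ.nonneg
  have n1 : 0 ≤ nrm 2 f volume := nrm_nonneg
  have n2 : 0 ≤ nrm 2 g volume := nrm_nonneg
  have hg0 := (gain_pos hR hS).le
  -- support of f in an interval
  have hsf : ∀ y, f y ≠ 0 → y.1 ∈ Icc (if σ then S else -(2 * S)) ((if σ then S else -(2 * S)) + S) := by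
    intro y hy
    have := hfs y hy
    cases σ
    · simp only [sg, Bool.false_eq_true, if_false] at this ⊢
      constructor <;> linarith [this.1, this.2]
    · simp only [sg, if_true] at this ⊢
      constructor <;> linarith [this.1, this.2]
  have hsg : ∀ x, g x ≠ 0 → x.1 ∈ Icc R (R + R) := by
    intro x hx
    have := hgs x hx
    constructor <;> linarith [this.1, this.2]
  rcases le_or_gt (4 * R) S with hc | hc
  · -- S large
    have hd : ∀ x y, f y ≠ 0 → g x ≠ 0 → S / 2 ≤ |x.1 - y.1| := by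
      intro x y hy hx
      have ha := hfs y hy
      have hb := hgs x hx
      cases σ
      · simp only [sg, Bool.false_eq_true, if_false] at ha
        rw [abs_of_nonneg (by linarith [ha.1, hb.1])]
        linarith [ha.1, hb.1]
      · simp only [sg, if_true] at ha
        rw [abs_sub_comm, abs_of_nonneg (by linarith [ha.1, hb.2])]
        linarith [ha.1, hb.2]
    have h3 := h2 Λ hΛ A θ hθ f g hf hg _ R S R (S / 2) hS hR (by positivity) hsf hsg hd
    refine h3.trans ?_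
    have e1 : Real.sqrt (S * R) / (S / 2) ≤ 2 * gain R S ^ (1/2 : ℝ) := by
      have e2 : gain R S = R / S := by
        unfold gain
        apply min_eq_right
        rw [div_le_div_iff₀ hS hR]
        nlinarith
      rw [e2, ← Real.sqrt_eq_rpow, Real.sqrt_div hR.le, Real.sqrt_mul hS.le]
      have hs : 0 < Real.sqrt S := Real.sqrt_pos.2 hS
      have hss := Real.mul_self_sqrt hS.le
      rw [div_le_iff₀ (by positivity)]
      apply le_of_eq
      field_simp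
      nlinarith
    calc C2 * A * (Real.sqrt (S * R) / (S / 2)) * nrm 2 f volume * nrm 2 g volume
        ≤ C2 * A * (2 * gain R S ^ (1/2 : ℝ)) * nrm 2 f volume * nrm 2 g volume := by gcongr
      _ = (2 * C2) * gain R S ^ (1/2 : ℝ) * A * nrm 2 f volume * nrm 2 g volume := by ring
      _ ≤ _ := by gcongr; linarith
  rcases le_or_gt (4 * S) R with hc' | hc'
  · have hd : ∀ x y, f y ≠ 0 → g x ≠ 0 → R / 2 ≤ |x.1 - y.1| := by
      intro x y hy hx
      have ha := hfs y hy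
      have hb := hgs x hx
      cases σ
      · simp only [sg, Bool.false_eq_true, if_false] at ha
        rw [abs_of_nonneg (by linarith [ha.1, hb.1])]
        linarith [ha.1, hb.1]
      · simp only [sg, if_true] at ha
        rw [abs_of_nonneg (by linarith [ha.2, hb.1])]
        linarith [ha.2, hb.1]
    have h3 := h2 Λ hΛ A θ hθ f g hf hg _ R S R (R / 2) hS hR (by positivity) hsf hsg hd
    refine h3.trans ?_
    have e1 : Real.sqrt (S * R) / (R / 2) ≤ 2 * gain R S ^ (1/2 : ℝ) := by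
      have e2 : gain R S = S / R := by
        unfold gain
        apply min_eq_left
        rw [div_le_div_iff₀ hR hS]
        nlinarith
      rw [e2, ← Real.sqrt_eq_rpow, Real.sqrt_div hS.le, Real.sqrt_mul hS.le]
      have hs : 0 < Real.sqrt R := Real.sqrt_pos.2 hR
      have hss := Real.mul_self_sqrt hR.le
      rw [div_le_iff₀ (by positivity)]
      apply le_of_eq
      field_simp
      nlinarith
    calc C2 * A * (Real.sqrt (S * R) / (R / 2)) * nrm 2 f volume * nrm 2 g volume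
        ≤ C2 * A * (2 * gain R S ^ (1/2 : ℝ)) * nrm 2 f volume * nrm 2 g volume := by gcongr
      _ = (2 * C2) * gain R S ^ (1/2 : ℝ) * A * nrm 2 f volume * nrm 2 g volume := by ring
      _ ≤ _ := by gcongr; linarith
  · have h3 := h1 Λ hΛ A θ hθ f g hf hg
    refine h3.trans ?_
    have e1 : (1/2 : ℝ) ≤ gain R S ^ (1/2 : ℝ) := by
      have e2 : (1/4 : ℝ) ≤ gain R S := by
        unfold gain
        apply le_min
        · rw [le_div_iff₀ hR]; linarith
        · rw [le_div_iff₀ hS]; linarith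
      calc (1/2 : ℝ) = (1/4 : ℝ) ^ (1/2 : ℝ) := by
            rw [← Real.sqrt_eq_rpow, show (1/4 : ℝ) = (1/2) * (1/2) by norm_num,
              Real.sqrt_mul_self (by norm_num)]
        _ ≤ _ := Real.rpow_le_rpow (by norm_num) e2 (by norm_num)
    calc C1 * A * nrm 2 f volume * nrm 2 g volume = (2 * C1) * (1/2) * A * nrm 2 f volume * nrm 2 g volume := by
          ring
      _ ≤ (2 * C1) * gain R S ^ (1/2 : ℝ) * A * nrm 2 f volume * nrm 2 g volume := by gcongr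
      _ ≤ _ := by gcongr; linarith

theorem plane_L4 : ∃ (M : ℕ) (C : ℝ), 0 ≤ C ∧ ∀ (Λ R S : ℝ), 1 ≤ Λ → 0 < R → 0 < S →
    PlaneHyp M Λ R S (C * (1 + Real.log Λ)) 4 (4/3) := by
  obtain ⟨M, C, hC, h⟩ := T09_L4
  refine ⟨M, C, hC, ?_⟩
  intro Λ R S hΛ hR hS A θ hθ σ f g hf hg hfs hgs
  have h1 := h Λ hΛ A θ hθ f g hf hg
  refine h1.trans (le_of_eq ?_)
  ring

end Vale.Agent.P117
end
end

section

section

open MeasureTheory Complex Set
open scoped ENNReal NNReal ContDiff FourierTransform SchwartzMap ComplexConjugate Topology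

namespace Vale.Agent.P117

section
variable {α β α' β' : Type*} [MeasurableSpace α] [MeasurableSpace β] [MeasurableSpace α']
  [MeasurableSpace β'] {μ : Measure α} {ν' : Measure β} {μ1 : Measure α'} {ν1 : Measure β'}

theorem BilAdm.comp {B : (α → ℂ) → (β → ℂ) → ℂ} (hB : BilAdm μ ν' B)
    {T : (α' → ℂ) → (α → ℂ)} {T' : (β' → ℂ) → (β → ℂ)}
    (hT : ∀ F, Adm μ1 F → Adm μ (T F)) (hT' : ∀ G, Adm ν1 G → Adm ν' (T' G))
    (ha : ∀ F F', T (F + F') = T F + T F') (ha' : ∀ F F', T' (F + F') = T' F + T' F')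
    (hs : ∀ (c : ℂ) F, T (c • F) = c • T F) (hs' : ∀ (c : ℂ) F, T' (c • F) = c • T' F) :
    BilAdm μ1 ν1 (fun F G => B (T F) (T' G)) := by
  refine ⟨?_, ?_, ?_, ?_⟩
  · intro F F' G hF hF' hG
    rw [ha, hB.add1 _ _ _ (hT F hF) (hT F' hF') (hT' G hG)]
  · intro F G G' hF hG hG'
    rw [ha', hB.add2 _ _ _ (hT F hF) (hT' G hG) (hT' G' hG')]
  · intro c F G hF hG
    rw [hs, hB.sm1 _ _ _ (hT F hF) (hT' G hG)]
  · intro c F G hF hG
    rw [hs', hB.sm2 _ _ _ (hT F hF) (hT' G hG)]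

theorem nrm_indicator_le {F : α → ℂ} (hF : Adm μ F) (s : Set α) {p : ℝ≥0∞} (hp : 1 ≤ p) :
    nrm p (s.indicator F) μ ≤ nrm p F μ :=
  ENNReal.toReal_mono (hF.eLpNorm_ne_top hp) (eLpNorm_indicator_le F)

end

/-- bilinear form of a convolution kernel -/
noncomputable def BK {V : Type*} [NormedAddCommGroup V] [InnerProductSpace ℝ V]
    [MeasurableSpace V] [BorelSpace V] [FiniteDimensional ℝ V] (K f g : V → ℂ) : ℂ :=
  ∫ x, cv K f x * g x

section
variable {V : Type*} [NormedAddCommGroup V] [InnerProductSpace ℝ V]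
    [MeasurableSpace V] [BorelSpace V] [FiniteDimensional ℝ V]

theorem integrable_BK {K : V → ℂ} (hK : Continuous K) {C : ℝ} (hC : ∀ x, ‖K x‖ ≤ C) {f g : V → ℂ}
    (hf : Adm volume f) (hg : Adm volume g) : Integrable (fun x => cv K f x * g x) := by
  refine hg.int.bdd_mul (c := C * ∫ y, ‖f y‖) (continuous_cv hK hC hf.int).aestronglyMeasurable ?_
  filter_upwards with x using norm_cv_le hC hf.int x

theorem integrable_cv_arg {K : V → ℂ} (hK : Continuous K) {C : ℝ} (hC : ∀ x, ‖K x‖ ≤ C) {f : V → ℂ}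
    (hf : Adm volume f) (x : V) : Integrable (fun y => K (x - y) * f y) := by
  refine hf.int.bdd_mul (c := C) (hK.comp (by fun_prop)).aestronglyMeasurable ?_
  filter_upwards with y using hC _

theorem bilAdm_BK {K : V → ℂ} (hK : Continuous K) {C : ℝ} (hC : ∀ x, ‖K x‖ ≤ C) :
    BilAdm volume volume (BK K) := by
  refine ⟨?_, ?_, ?_, ?_⟩
  · intro F F' G hF hF' hG
    unfold BK
    rw [← integral_add (integrable_BK hK hC hF hG) (integrable_BK hK hC hF' hG)]
    congr 1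
    ext x
    have : cv K (F + F') x = cv K F x + cv K F' x := by
      unfold cv
      rw [← integral_add (integrable_cv_arg hK hC hF x) (integrable_cv_arg hK hC hF' x)]
      congr 1
      ext y
      rw [Pi.add_apply]; ring
    rw [this]; ring
  · intro F G G' hF hG hG'
    unfold BK
    rw [← integral_add (integrable_BK hK hC hF hG) (integrable_BK hK hC hF hG')]
    congr 1
    ext x
    rw [Pi.add_apply]; ring
  · intro c F G hF hG
    unfold BK
    rw [← integral_const_mul]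
    congr 1
    ext x
    have : cv K (c • F) x = c * cv K F x := by
      unfold cv
      rw [← integral_const_mul]
      congr 1
      ext y
      rw [Pi.smul_apply, smul_eq_mul]; ring
    rw [this]; ring
  · intro c F G hF hG
    unfold BK
    rw [← integral_const_mul]
    congr 1
    ext x
    rw [Pi.smul_apply, smul_eq_mul]; ring

theorem norm_BK_le {K : V → ℂ} {C : ℝ} (hC : ∀ x, ‖K x‖ ≤ C) {f g : V → ℂ}
    (hf : Adm volume f) (hg : Adm volume g) : ‖BK K f g‖ ≤ C * (∫ y, ‖f y‖) * ∫ y, ‖g y‖ := by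
  unfold BK
  rw [← integral_const_mul]
  apply norm_integral_le_of_norm_le (hg.int.norm.const_mul _)
  filter_upwards with x
  rw [norm_mul]
  have := norm_cv_le hC hf.int x
  gcongr

end

/-- lift of a function with angular momentum -/
noncomputable def lft (m : ℤ) (F : ℝ × ℝ → ℂ) (x : E3) : ℂ := F (cyl x) * ph x ^ m

theorem Form3_eq_BK (k : ℝ → ℂ) (m : ℤ) (F G : ℝ × ℝ → ℂ) :
    Form3 k m F G = BK (fun x : E3 => k (‖x‖ ^ 2)) (lft m F) (lft (-m) G) := by
  unfold Form3 BK cv lft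
  congr 1
  ext x
  rw [← integral_mul_const]

theorem lft_add (m : ℤ) (F F' : ℝ × ℝ → ℂ) : lft m (F + F') = lft m F + lft m F' := by
  ext x
  simp only [lft, Pi.add_apply]; ring

theorem lft_smul (m : ℤ) (c : ℂ) (F : ℝ × ℝ → ℂ) : lft m (c • F) = c • lft m F := by
  ext x
  simp only [lft, Pi.smul_apply, smul_eq_mul]; ring

theorem bilAdm_Form3 {k : ℝ → ℂ} (hk : Continuous k) {C : ℝ} (hb : ∀ q, ‖k q‖ ≤ C) (m : ℤ) :
    BilAdm nu nu (Form3 k m) := by
  have hK : Continuous (fun x : E3 => k (‖x‖ ^ 2)) := hk.comp (by fun_prop)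
  have h1 : Form3 k m = fun F G => BK (fun x : E3 => k (‖x‖ ^ 2)) (lft m F) (lft (-m) G) := by
    ext F G
    exact Form3_eq_BK k m F G
  rw [h1]
  exact (bilAdm_BK hK (fun x => hb _)).comp (fun F hF => hF.cyl_ph m) (fun F hF => hF.cyl_ph (-m))
    (lft_add m) (lft_add (-m)) (lft_smul m) (lft_smul (-m))

theorem indicator_add' {α : Type*} (s : Set α) (F F' : α → ℂ) :
    s.indicator (F + F') = s.indicator F + s.indicator F' := Set.indicator_add s F F'

theorem indicator_smul' {α : Type*} (s : Set α) (c : ℂ) (F : α → ℂ) :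
    s.indicator (c • F) = c • s.indicator F := Set.indicator_const_smul s c F

/-- slab -/
def slab (S : ℝ) : Set (ℝ × ℝ) := {y | y.1 ∈ Icc S (2 * S)}

theorem measurableSet_slab (S : ℝ) : MeasurableSet (slab S) := measurable_fst measurableSet_Icc

theorem bilAdm_block {k : ℝ → ℂ} (hk : Continuous k) {C : ℝ} (hb : ∀ q, ‖k q‖ ≤ C) (m : ℤ)
    (R S : ℝ) : BilAdm nu nu (fun F G => Form3 k m ((slab S).indicator F) ((slab R).indicator G)) :=
  (bilAdm_Form3 hk hb m).comp (fun _ hF => hF.indicator (measurableSet_slab S))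
    (fun _ hF => hF.indicator (measurableSet_slab R)) (indicator_add' _) (indicator_add' _)
    (indicator_smul' _) (indicator_smul' _)

theorem slab_supp (S : ℝ) (F : ℝ × ℝ → ℂ) :
    ∀ y, (slab S).indicator F y ≠ 0 → y.1 ∈ Icc S (2 * S) := by
  intro y hy
  by_contra h
  have h' : y ∉ slab S := h
  exact hy (indicator_of_notMem h' F)

theorem toReal_43 : (4/3 : ℝ≥0∞).toReal = 4/3 := by
  rw [ENNReal.toReal_div]; simp

theorem one_le_43 : (1 : ℝ≥0∞) ≤ 4/3 := by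
  rw [ENNReal.le_div_iff_mul_le (by norm_num) (by norm_num)]
  norm_num

theorem ne_top_43 : (4/3 : ℝ≥0∞) ≠ ⊤ := by
  intro h
  have := toReal_43
  rw [h] at this
  norm_num at this

/-- bounds at the two end exponents on a block -/
theorem block_ends : ∃ (M : ℕ) (C : ℝ), 0 ≤ C ∧ ∀ (Λ R S : ℝ), 1 ≤ Λ → 0 < R → 0 < S →
    ∀ (A : ℝ) (θ : ℝ → ℂ), Bump M A θ → ∀ (m : ℤ) (F G : ℝ × ℝ → ℂ), Adm nu F → Adm nu G →
    (∀ y, F y ≠ 0 → y.1 ∈ Icc S (2 * S)) → (∀ x, G x ≠ 0 → x.1 ∈ Icc R (2 * R)) →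
    ‖Form3 (k3 Λ θ) m F G‖ ≤ C * A * (1 + |(m:ℝ)|) ^ (M + 3) * gain R S ^ (1/2 : ℝ) *
      nrm 2 F nu * nrm 2 G nu ∧
    ‖Form3 (k3 Λ θ) m F G‖ ≤ C * A * (1 + |(m:ℝ)|) ^ (M + 3) * ((1 + Real.log Λ) *
      gain R S ^ (-(1/4) : ℝ)) * nrm 4 F nu * nrm (4/3) G nu := by
  obtain ⟨C2, hC2, h2⟩ := plane_L2
  obtain ⟨M4, C4, hC4, h4⟩ := plane_L4
  set M := max 6 M4 with hM
  obtain ⟨Cb, hCb, hb⟩ := block_bound M
  refine ⟨M, 4 * Real.pi * Cb * (C2 + C4), by positivity, ?_⟩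
  intro Λ R S hΛ hR hS A θ hθ m F G hF hG hFs hGs
  have hΛ0 : 0 < Λ := by linarith
  have hA := hθ.nonneg
  have hlog : 0 ≤ Real.log Λ := Real.log_nonneg hΛ
  have hpi := Real.pi_pos
  have hg := gain_pos hR hS
  have hform : ‖Form3 (k3 Λ θ) m F G‖ = 2 * Real.pi * ‖FormC (k3 Λ θ) m F G‖ := by
    rw [T11_formC (k3 Λ θ) (continuous_k3 hθ hΛ0) ⟨_, norm_k3_le hθ hΛ0⟩ m F G hF hG, norm_mul, norm_mul,
      Complex.norm_two, Complex.norm_real, Real.norm_of_nonneg hpi.le]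
  constructor
  · have h := hb Λ R S _ hΛ0 hR hS (by positivity) 2 2 (by norm_num) (by norm_num) (by norm_num)
      (by norm_num) ((h2 Λ R S hΛ hR hS).mono (le_max_left 6 M4) le_rfl) A θ hθ m F G hF hG hFs hGs
    have n1 : 0 ≤ nrm 2 F nu := nrm_nonneg
    have n2 : 0 ≤ nrm 2 G nu := nrm_nonneg
    have e1 : (R * S) ^ (-(1/2:ℝ)) * (2 * S) ^ (1 - 1 / (2:ℝ≥0∞).toReal) * (2 * R) ^ (1 - 1 / (2:ℝ≥0∞).toReal) = 2 := by
      rw [ENNReal.toReal_ofNat, show (1:ℝ) - 1 / 2 = 1/2 by norm_num, Real.mul_rpow hR.le hS.le,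
        Real.mul_rpow (by norm_num) hS.le, Real.mul_rpow (by norm_num) hR.le]
      have a1 : (2:ℝ) ^ (1/2:ℝ) * 2 ^ (1/2:ℝ) = 2 := by
        rw [← Real.rpow_add (by norm_num)]; norm_num
      have a2 : S ^ (-(1/2):ℝ) * S ^ (1/2:ℝ) = 1 := by
        rw [← Real.rpow_add hS]; norm_num
      have a3 : R ^ (-(1/2):ℝ) * R ^ (1/2:ℝ) = 1 := by
        rw [← Real.rpow_add hR]; norm_num
      calc _ = ((2:ℝ) ^ (1/2:ℝ) * 2 ^ (1/2:ℝ)) * (S ^ (-(1/2):ℝ) * S ^ (1/2:ℝ)) *
              (R ^ (-(1/2):ℝ) * R ^ (1/2:ℝ)) := by ring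
        _ = _ := by rw [a1, a2, a3]; ring
    rw [e1] at h
    rw [hform]
    calc 2 * Real.pi * ‖FormC (k3 Λ θ) m F G‖ ≤ 2 * Real.pi * (Cb * (C2 * gain R S ^ (1/2 : ℝ)) * A *
          (1 + |(m:ℝ)|) ^ (M + 3) * 2 * nrm 2 F nu * nrm 2 G nu) := by gcongr
      _ = 4 * Real.pi * Cb * C2 * A * (1 + |(m:ℝ)|) ^ (M + 3) * gain R S ^ (1/2 : ℝ) *
          nrm 2 F nu * nrm 2 G nu := by ring
      _ ≤ _ := by gcongr; linarith
  · have h := hb Λ R S _ hΛ0 hR hS (by positivity) 4 (4/3) (by norm_num) (by norm_num) one_le_43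
      ne_top_43 ((h4 Λ R S hΛ hR hS).mono (le_max_right 6 M4) le_rfl) A θ hθ m F G hF hG hFs hGs
    have n1 : 0 ≤ nrm 4 F nu := nrm_nonneg
    have n2 : 0 ≤ nrm (4/3) G nu := nrm_nonneg
    have e1 : (R * S) ^ (-(1/2:ℝ)) * (2 * S) ^ (1 - 1 / (4:ℝ≥0∞).toReal) * (2 * R) ^ (1 - 1 / (4/3:ℝ≥0∞).toReal) ≤
        2 * gain R S ^ (-(1/4) : ℝ) := by
      rw [toReal_43, ENNReal.toReal_ofNat, show (1:ℝ) - 1 / 4 = 3/4 by norm_num,
        show (1:ℝ) - 1 / (4/3) = 1/4 by norm_num]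
      have e2 : (R * S) ^ (-(1/2:ℝ)) * (2 * S) ^ (3/4:ℝ) * (2 * R) ^ (1/4:ℝ) = 2 * (S / R) ^ (1/4:ℝ) := by
        rw [Real.mul_rpow hR.le hS.le, Real.mul_rpow (by norm_num) hS.le, Real.mul_rpow (by norm_num) hR.le,
          Real.div_rpow hS.le hR.le]
        have a1 : (2:ℝ) ^ (3/4:ℝ) * 2 ^ (1/4:ℝ) = 2 := by
          rw [← Real.rpow_add (by norm_num)]; norm_num
        have a2 : S ^ (-(1/2):ℝ) * S ^ (3/4:ℝ) = S ^ (1/4:ℝ) := by
          rw [← Real.rpow_add hS]; norm_num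
        have a3 : R ^ (-(1/2):ℝ) * R ^ (1/4:ℝ) = (R ^ (1/4:ℝ))⁻¹ := by
          rw [← Real.rpow_add hR, ← Real.rpow_neg hR.le]; norm_num
        calc _ = ((2:ℝ) ^ (3/4:ℝ) * 2 ^ (1/4:ℝ)) * (S ^ (-(1/2):ℝ) * S ^ (3/4:ℝ)) *
              (R ^ (-(1/2):ℝ) * R ^ (1/4:ℝ)) := by ring
          _ = _ := by rw [a1, a2, a3]; ring
      rw [e2]
      have e3 : S / R ≤ (gain R S)⁻¹ := by
        rw [le_inv_comm₀ (by positivity) hg, inv_div]
        exact min_le_right _ _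
      rw [Real.rpow_neg hg.le, ← Real.inv_rpow hg.le]
      gcongr
    rw [hform]
    calc 2 * Real.pi * ‖FormC (k3 Λ θ) m F G‖ ≤ 2 * Real.pi * (Cb * (C4 * (1 + Real.log Λ)) * A *
          (1 + |(m:ℝ)|) ^ (M + 3) * (2 * gain R S ^ (-(1/4) : ℝ)) * nrm 4 F nu * nrm (4/3) G nu) := by
          refine mul_le_mul_of_nonneg_left (h.trans ?_) (by positivity)
          gcongr
      _ = 4 * Real.pi * Cb * C4 * A * (1 + |(m:ℝ)|) ^ (M + 3) * ((1 + Real.log Λ) *
          gain R S ^ (-(1/4) : ℝ)) * nrm 4 F nu * nrm (4/3) G nu := by ring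
      _ ≤ _ := by gcongr; linarith

theorem toReal_inv_ofReal {p : ℝ} (hp : 0 < p) : (1 / ENNReal.ofReal p).toReal = 1 / p := by
  rw [one_div, ENNReal.toReal_inv, ENNReal.toReal_ofReal hp.le, one_div]

theorem interp_const {X g L t : ℝ} (hX : 0 ≤ X) (hg : 0 < g) (hL : 1 ≤ L) (ht1 : t ≤ 1) :
    (X * g ^ (1/2:ℝ)) ^ (1 - t) * (X * (L * g ^ (-(1/4):ℝ))) ^ t ≤ X * (L * g ^ (1/2 - 3/4 * t)) := by
  have hL0 : 0 ≤ L := by linarith
  rw [Real.mul_rpow hX (by positivity), Real.mul_rpow hX (by positivity), Real.mul_rpow hL0 (by positivity),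
    ← Real.rpow_mul hg.le, ← Real.rpow_mul hg.le]
  have e1 : X ^ (1 - t) * X ^ t = X := by
    rw [← Real.rpow_add' hX (by norm_num)]
    norm_num
  have e2 : g ^ (1/2 * (1 - t)) * g ^ (-(1/4) * t) = g ^ (1/2 - 3/4 * t) := by
    rw [← Real.rpow_add hg]
    congr 1; ring
  calc X ^ (1 - t) * g ^ (1/2 * (1 - t)) * (X ^ t * (L ^ t * g ^ (-(1/4) * t)))
      = (X ^ (1 - t) * X ^ t) * (L ^ t * (g ^ (1/2 * (1 - t)) * g ^ (-(1/4) * t))) := by ring
    _ = X * (L ^ t * g ^ (1/2 - 3/4 * t)) := by rw [e1, e2]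
    _ ≤ X * (L * g ^ (1/2 - 3/4 * t)) := by
        have : L ^ t ≤ L := by
          calc L ^ t ≤ L ^ (1:ℝ) := Real.rpow_le_rpow_of_exponent_le hL ht1
            _ = L := Real.rpow_one L
        gcongr

theorem block_interp {p : ℝ} (hp2 : 2 ≤ p) (hp3 : p < 3) : ∃ (M : ℕ) (C : ℝ), 0 ≤ C ∧
    ∀ (Λ R S : ℝ), 1 ≤ Λ → 0 < R → 0 < S →
    ∀ (A : ℝ) (θ : ℝ → ℂ), Bump M A θ → ∀ (m : ℤ) (F G : ℝ × ℝ → ℂ), Adm nu F → Adm nu G →
    (∀ y, F y ≠ 0 → y.1 ∈ Icc S (2 * S)) → (∀ x, G x ≠ 0 → x.1 ∈ Icc R (2 * R)) →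
    ‖Form3 (k3 Λ θ) m F G‖ ≤ C * A * (1 + |(m:ℝ)|) ^ (M + 3) * ((1 + Real.log Λ) *
      gain R S ^ (3 / p - 1)) * nrm (ENNReal.ofReal p) F nu *
      nrm (ENNReal.ofReal (p / (p - 1))) G nu := by
  obtain ⟨M, C, hC, h⟩ := block_ends
  refine ⟨M, C, hC, ?_⟩
  intro Λ R S hΛ hR hS A θ hθ m F G hF hG hFs hGs
  have hA := hθ.nonneg
  have hΛ0 : 0 < Λ := by linarith
  have hlog : 0 ≤ Real.log Λ := Real.log_nonneg hΛ
  have hg := gain_pos hR hS
  rcases eq_or_lt_of_le hp2 with h2 | h2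
  · -- p = 2
    rw [← h2]
    have e1 : ENNReal.ofReal 2 = 2 := by norm_num
    have e2 : ENNReal.ofReal (2 / (2 - 1)) = 2 := by norm_num
    have e3 : (3:ℝ) / 2 - 1 = 1/2 := by norm_num
    rw [e1, e2, e3]
    have h3 := (h Λ R S hΛ hR hS A θ hθ m F G hF hG hFs hGs).1
    refine h3.trans ?_
    have n1 : 0 ≤ nrm 2 F nu := nrm_nonneg
    have n2 : 0 ≤ nrm 2 G nu := nrm_nonneg
    have e4 : gain R S ^ (1/2:ℝ) ≤ (1 + Real.log Λ) * gain R S ^ (1/2:ℝ) :=
      le_mul_of_one_le_left (by positivity) (by linarith)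
    gcongr
  · set t : ℝ := 2 - 4 / p with ht
    have hp0 : 0 < p := by linarith
    have ht0 : 0 < t := by
      rw [ht, sub_pos, div_lt_iff₀ hp0]; linarith
    have ht1 : t < 2/3 := by
      rw [ht, sub_lt_comm, lt_div_iff₀ hp0]; linarith
    have hpinv : 1 / p = (1 - t) * (1/2) + t * (1/4) := by
      rw [ht]; field_simp; ring
    set X := C * A * (1 + |(m:ℝ)|) ^ (M + 3) with hX
    have hX0 : 0 ≤ X := by positivity
    have hB := bilAdm_block (continuous_k3 hθ hΛ0) (norm_k3_le hθ hΛ0) m R S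
    have hq0 : 0 < p / (p - 1) := div_pos hp0 (by linarith)
    have hT := T01 hB (p0 := 2) (p1 := 4) (q0 := 2) (q1 := 4/3) (p := ENNReal.ofReal p)
      (q := ENNReal.ofReal (p / (p - 1))) (by norm_num) (by norm_num) (by norm_num) (by norm_num)
      (by norm_num) one_le_43 (t := t) ht0 (by linarith)
      (by rw [toReal_inv_ofReal hp0, hpinv]; norm_num)
      (by
        rw [toReal_inv_ofReal hq0]
        have e4 : (1 / (4/3 : ℝ≥0∞)).toReal = 3/4 := by
          rw [one_div, ENNReal.toReal_inv, toReal_43]; norm_num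
        have e5 : (1 / (2 : ℝ≥0∞)).toReal = 1/2 := by
          rw [one_div, ENNReal.toReal_inv, ENNReal.toReal_ofNat]; norm_num
        rw [e4, e5, one_div_div, sub_div, div_self hp0.ne', hpinv]
        ring)
      (by rw [← ENNReal.ofReal_one]; exact ENNReal.ofReal_le_ofReal (by linarith))
      (by
        rw [← ENNReal.ofReal_one]
        apply ENNReal.ofReal_le_ofReal
        rw [le_div_iff₀ (by linarith)]; linarith)
      (M0 := X * gain R S ^ (1/2:ℝ)) (M1 := X * ((1 + Real.log Λ) * gain R S ^ (-(1/4):ℝ)))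
      (by positivity) (by positivity)
      (fun F G hF hG => by
        have h3 := (h Λ R S hΛ hR hS A θ hθ m _ _ (hF.indicator (measurableSet_slab S))
          (hG.indicator (measurableSet_slab R)) (slab_supp S F) (slab_supp R G)).1
        refine h3.trans ?_
        have n1 := nrm_indicator_le hF (slab S) (p := 2) (by norm_num)
        have n2 := nrm_indicator_le hG (slab R) (p := 2) (by norm_num)
        have n3 : 0 ≤ nrm 2 ((slab R).indicator G) nu := nrm_nonneg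
        have n4 : 0 ≤ nrm 2 F nu := nrm_nonneg
        gcongr)
      (fun F G hF hG => by
        have h3 := (h Λ R S hΛ hR hS A θ hθ m _ _ (hF.indicator (measurableSet_slab S))
          (hG.indicator (measurableSet_slab R)) (slab_supp S F) (slab_supp R G)).2
        refine h3.trans ?_
        have n1 := nrm_indicator_le hF (slab S) (p := 4) (by norm_num)
        have n2 := nrm_indicator_le hG (slab R) (p := 4/3) one_le_43
        have n3 : 0 ≤ nrm (4/3) ((slab R).indicator G) nu := nrm_nonneg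
        have n4 : 0 ≤ nrm 4 F nu := nrm_nonneg
        gcongr)
      hF hG
    have e6 : (slab S).indicator F = F := Set.indicator_eq_self.2 (fun y hy => hFs y hy)
    have e7 : (slab R).indicator G = G := Set.indicator_eq_self.2 (fun y hy => hGs y hy)
    rw [e6, e7] at hT
    refine hT.trans ?_
    have hc := interp_const (X := X) (g := gain R S) (L := 1 + Real.log Λ) (t := t) hX0 hg
      (by linarith) (by linarith)
    have e8 : 1/2 - 3/4 * t = 3 / p - 1 := by rw [ht]; field_simp; ring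
    rw [e8] at hc
    have n5 : 0 ≤ nrm (ENNReal.ofReal p) F nu := nrm_nonneg
    have n6 : 0 ≤ nrm (ENNReal.ofReal (p / (p - 1))) G nu := nrm_nonneg
    gcongr

end Vale.Agent.P117
end
end

section

section

open MeasureTheory Complex Set Filter
open scoped ENNReal NNReal ContDiff FourierTransform SchwartzMap ComplexConjugate Topology

namespace Vale.Agent.P117

/-- geometric weight on the integers -/
noncomputable def kz (r : ℝ) (k : ℤ) : ℝ := r ^ k.natAbs

theorem kz_nonneg {r : ℝ} (hr : 0 ≤ r) (k : ℤ) : 0 ≤ kz r k := by unfold kz; positivity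

theorem summable_kz {r : ℝ} (hr : 0 ≤ r) (hr1 : r < 1) : Summable (kz r) := by
  apply Summable.of_nat_of_neg
  · simpa [kz] using summable_geometric_of_lt_one hr hr1
  · simpa [kz] using summable_geometric_of_lt_one hr hr1

theorem sum_kz_le {r : ℝ} (hr : 0 ≤ r) (hr1 : r < 1) (J : Finset ℤ) (a : ℤ) :
    ∑ b ∈ J, kz r (a - b) ≤ ∑' k, kz r k := by
  have h1 : ∑ b ∈ J, kz r (a - b) = ∑ k ∈ J.image (fun b => a - b), kz r k := by
    rw [Finset.sum_image]
    intro x _ y _ h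
    simpa using h
  rw [h1]
  exact (summable_kz hr hr1).sum_le_tsum _ (fun k _ => kz_nonneg hr k)

theorem sum_kz_le' {r : ℝ} (hr : 0 ≤ r) (hr1 : r < 1) (J : Finset ℤ) (b : ℤ) :
    ∑ a ∈ J, kz r (a - b) ≤ ∑' k, kz r k := by
  have h1 : ∑ a ∈ J, kz r (a - b) = ∑ k ∈ J.image (fun a => a - b), kz r k := by
    rw [Finset.sum_image]
    intro x _ y _ h
    simpa using h
  rw [h1]
  exact (summable_kz hr hr1).sum_le_tsum _ (fun k _ => kz_nonneg hr k)

theorem schur_sum {r : ℝ} (hr : 0 ≤ r) (hr1 : r < 1) (J : Finset ℤ) (x y : ℤ → ℝ)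
    (hx : ∀ b, 0 ≤ x b) (hy : ∀ a, 0 ≤ y a) {p q : ℝ} (hpq : p.HolderConjugate q) :
    ∑ b ∈ J, ∑ a ∈ J, kz r (a - b) * x b * y a ≤
      (∑' k, kz r k) * (∑ b ∈ J, x b ^ p) ^ (1 / p) * (∑ a ∈ J, y a ^ q) ^ (1 / q) := by
  set T := ∑' k, kz r k with hT
  have hT0 : 0 ≤ T := tsum_nonneg (kz_nonneg hr)
  have hp := hpq.pos
  have hq := hpq.symm.pos
  have hk := kz_nonneg hr
  rw [← Finset.sum_product']
  have h1 := Real.inner_le_Lp_mul_Lq (J ×ˢ J) (fun z => kz r (z.2 - z.1) ^ (1 / p) * x z.1)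
    (fun z => kz r (z.2 - z.1) ^ (1 / q) * y z.2) hpq
  have e1 : ∀ z : ℤ × ℤ, kz r (z.2 - z.1) ^ (1 / p) * x z.1 * (kz r (z.2 - z.1) ^ (1 / q) * y z.2) =
      kz r (z.2 - z.1) * x z.1 * y z.2 := by
    intro z
    have : kz r (z.2 - z.1) ^ (1 / p) * kz r (z.2 - z.1) ^ (1 / q) = kz r (z.2 - z.1) := by
      have h2 : 1 / p + 1 / q = 1 := by
        have := hpq.inv_add_inv_eq_one
        simpa using this
      rw [← Real.rpow_add' (hk _) (by rw [h2]; norm_num), h2, Real.rpow_one]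
    calc _ = (kz r (z.2 - z.1) ^ (1 / p) * kz r (z.2 - z.1) ^ (1 / q)) * x z.1 * y z.2 := by ring
      _ = _ := by rw [this]
  have e2 : ∀ z : ℤ × ℤ, |kz r (z.2 - z.1) ^ (1 / p) * x z.1| ^ p = kz r (z.2 - z.1) * x z.1 ^ p := by
    intro z
    have := hk (z.2 - z.1)
    rw [abs_of_nonneg (mul_nonneg (by positivity) (hx _)), Real.mul_rpow (by positivity) (hx _),
      ← Real.rpow_mul this, one_div, inv_mul_cancel₀ hp.ne', Real.rpow_one]
  have e3 : ∀ z : ℤ × ℤ, |kz r (z.2 - z.1) ^ (1 / q) * y z.2| ^ q = kz r (z.2 - z.1) * y z.2 ^ q := by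
    intro z
    have := hk (z.2 - z.1)
    rw [abs_of_nonneg (mul_nonneg (by positivity) (hy _)), Real.mul_rpow (by positivity) (hy _),
      ← Real.rpow_mul this, one_div, inv_mul_cancel₀ hq.ne', Real.rpow_one]
  simp_rw [e1, e2, e3] at h1
  refine h1.trans ?_
  have h3 : ∑ z ∈ J ×ˢ J, kz r (z.2 - z.1) * x z.1 ^ p ≤ T * ∑ b ∈ J, x b ^ p := by
    rw [Finset.sum_product, Finset.mul_sum]
    apply Finset.sum_le_sum
    intro b _
    simp only
    rw [← Finset.sum_mul]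
    have := sum_kz_le' hr hr1 J b
    have := hx b
    gcongr
  have h4 : ∑ z ∈ J ×ˢ J, kz r (z.2 - z.1) * y z.2 ^ q ≤ T * ∑ a ∈ J, y a ^ q := by
    rw [Finset.sum_product_right, Finset.mul_sum]
    apply Finset.sum_le_sum
    intro a _
    simp only
    rw [← Finset.sum_mul]
    have := sum_kz_le hr hr1 J a
    have := hy a
    gcongr
  have hX : 0 ≤ ∑ b ∈ J, x b ^ p := Finset.sum_nonneg fun b _ => Real.rpow_nonneg (hx b) _
  have hY : 0 ≤ ∑ a ∈ J, y a ^ q := Finset.sum_nonneg fun b _ => Real.rpow_nonneg (hy b) _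
  have hX' : 0 ≤ ∑ z ∈ J ×ˢ J, kz r (z.2 - z.1) * x z.1 ^ p :=
    Finset.sum_nonneg fun z _ => mul_nonneg (hk _) (Real.rpow_nonneg (hx _) _)
  have hY' : 0 ≤ ∑ z ∈ J ×ˢ J, kz r (z.2 - z.1) * y z.2 ^ q :=
    Finset.sum_nonneg fun z _ => mul_nonneg (hk _) (Real.rpow_nonneg (hy _) _)
  calc _ ≤ (T * ∑ b ∈ J, x b ^ p) ^ (1 / p) * (T * ∑ a ∈ J, y a ^ q) ^ (1 / q) := by gcongr
    _ = (T ^ (1 / p) * T ^ (1 / q)) * (∑ b ∈ J, x b ^ p) ^ (1 / p) * (∑ a ∈ J, y a ^ q) ^ (1 / q) := by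
        rw [Real.mul_rpow hT0 hX, Real.mul_rpow hT0 hY]; ring
    _ = _ := by
        have h2 : 1 / p + 1 / q = 1 := by
          have := hpq.inv_add_inv_eq_one
          simpa using this
        rw [← Real.rpow_add' hT0 (by rw [h2]; norm_num), h2, Real.rpow_one]

theorem gain_zpow (a b : ℤ) : gain ((2:ℝ) ^ a) ((2:ℝ) ^ b) ≤ (1/2) ^ (a - b).natAbs := by
  unfold gain
  rcases le_total b a with h | h
  · refine (min_le_left _ _).trans (le_of_eq ?_)
    obtain ⟨n, hn⟩ := Int.eq_ofNat_of_zero_le (sub_nonneg.2 h)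
    have ha : a = b + n := by omega
    rw [hn, ha, zpow_add₀ (by norm_num)]
    have : (2:ℝ) ^ b ≠ 0 := by positivity
    simp only [zpow_natCast, Int.natAbs_natCast]
    rw [one_div_pow]
    field_simp
  · refine (min_le_right _ _).trans (le_of_eq ?_)
    obtain ⟨n, hn⟩ := Int.eq_ofNat_of_zero_le (sub_nonneg.2 h)
    have hb : b = a + n := by omega
    have : (a - b).natAbs = n := by omega
    rw [this, hb, zpow_add₀ (by norm_num)]
    have : (2:ℝ) ^ a ≠ 0 := by positivity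
    simp only [zpow_natCast]
    rw [one_div_pow]
    field_simp

/-- dyadic slab -/
def Qd (b : ℤ) : Set (ℝ × ℝ) := {y | y.1 ∈ Ico ((2:ℝ) ^ b) ((2:ℝ) ^ (b + 1))}

theorem measurableSet_Qd (b : ℤ) : MeasurableSet (Qd b) := measurable_fst measurableSet_Ico

theorem Qd_log {b : ℤ} {y : ℝ × ℝ} (h : y ∈ Qd b) : Int.log 2 y.1 = b := by
  have h0 : 0 < y.1 := lt_of_lt_of_le (by positivity) h.1
  have h1 : b ≤ Int.log 2 y.1 := (Int.zpow_le_iff_le_log (by norm_num) h0).1 (by exact_mod_cast h.1)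
  have h2 : Int.log 2 y.1 < b + 1 := (Int.lt_zpow_iff_log_lt (by norm_num) h0).1 (by exact_mod_cast h.2)
  omega

theorem mem_Qd_log {y : ℝ × ℝ} (h : 0 < y.1) : y ∈ Qd (Int.log 2 y.1) := by
  constructor
  · exact_mod_cast (Int.zpow_le_iff_le_log (R := ℝ) (b := 2) (by norm_num) h).2 le_rfl
  · exact_mod_cast (Int.lt_zpow_iff_log_lt (R := ℝ) (b := 2) (by norm_num) h).2 (by omega)

theorem Qd_supp (b : ℤ) (F : ℝ × ℝ → ℂ) :
    ∀ y, (Qd b).indicator F y ≠ 0 → y.1 ∈ Icc ((2:ℝ) ^ b) (2 * (2:ℝ) ^ b) := by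
  intro y hy
  by_contra h
  apply hy
  apply indicator_of_notMem
  intro h2
  apply h
  refine ⟨h2.1, ?_⟩
  have := h2.2.le
  rwa [zpow_add_one₀ (by norm_num), mul_comm] at this

/-- truncation -/
noncomputable def trunc (F : ℝ × ℝ → ℂ) (J : Finset ℤ) : ℝ × ℝ → ℂ := ∑ b ∈ J, (Qd b).indicator F

open Classical in
theorem trunc_apply (F : ℝ × ℝ → ℂ) (J : Finset ℤ) (y : ℝ × ℝ) :
    trunc F J y = if y ∈ Qd (Int.log 2 y.1) ∧ Int.log 2 y.1 ∈ J then F y else 0 := by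
  unfold trunc
  rw [Finset.sum_apply]
  split_ifs with h
  · rw [Finset.sum_eq_single (Int.log 2 y.1)]
    · exact indicator_of_mem h.1 F
    · intro b _ hb
      apply indicator_of_notMem
      intro h2
      exact hb (Qd_log h2).symm
    · intro h3; exact absurd h.2 h3
  · apply Finset.sum_eq_zero
    intro b hb
    apply indicator_of_notMem
    intro h2
    have h3 := Qd_log h2
    rw [← h3] at hb h2
    exact h ⟨h2, hb⟩

theorem norm_trunc_le (F : ℝ × ℝ → ℂ) (J : Finset ℤ) (y : ℝ × ℝ) : ‖trunc F J y‖ ≤ ‖F y‖ := by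
  classical
  rw [trunc_apply]
  split_ifs <;> simp

theorem Adm.trunc {F : ℝ × ℝ → ℂ} (hF : Adm nu F) (J : Finset ℤ) : Adm nu (P117.trunc F J) :=
  Adm.finsum J fun b _ => hF.indicator (measurableSet_Qd b)

theorem nrm_rpow {α : Type*} [MeasurableSpace α] {μ : Measure α} (F : α → ℂ) {p : ℝ≥0∞}
    (hp : 1 ≤ p) (hp' : p ≠ ⊤) : nrm p F μ ^ p.toReal = (∫⁻ x, ‖F x‖ₑ ^ p.toReal ∂μ).toReal := by
  have hp0 : p ≠ 0 := fun h => by rw [h] at hp; exact absurd hp (by norm_num)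
  have hpp : 0 < p.toReal := ENNReal.toReal_pos hp0 hp'
  unfold nrm
  rw [eLpNorm_eq_lintegral_rpow_enorm_toReal hp0 hp', ← ENNReal.toReal_rpow, ← Real.rpow_mul ENNReal.toReal_nonneg,
    one_div, inv_mul_cancel₀ hpp.ne', Real.rpow_one]

theorem sum_nrm_le {F : ℝ × ℝ → ℂ} (hF : Adm nu F) {p : ℝ≥0∞} (hp : 1 ≤ p) (hp' : p ≠ ⊤)
    (J : Finset ℤ) :
    (∑ b ∈ J, nrm p ((Qd b).indicator F) nu ^ p.toReal) ^ (1 / p.toReal) ≤ nrm p F nu := by
  have hp0 : p ≠ 0 := fun h => by rw [h] at hp; exact absurd hp (by norm_num)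
  have hpp : 0 < p.toReal := ENNReal.toReal_pos hp0 hp'
  have hfin : ∫⁻ x, ‖F x‖ₑ ^ p.toReal ∂nu ≠ ⊤ := by
    have := hF.eLpNorm_ne_top hp
    rw [eLpNorm_eq_lintegral_rpow_enorm_toReal hp0 hp'] at this
    intro h
    rw [h, ENNReal.top_rpow_of_pos (by positivity)] at this
    exact this rfl
  have h1 : ∑ b ∈ J, nrm p ((Qd b).indicator F) nu ^ p.toReal ≤ nrm p F nu ^ p.toReal := by
    simp_rw [nrm_rpow _ hp hp']
    have hle : ∀ b, ∫⁻ x, ‖(Qd b).indicator F x‖ₑ ^ p.toReal ∂nu ≤ ∫⁻ x, ‖F x‖ₑ ^ p.toReal ∂nu := by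
      intro b
      apply lintegral_mono
      intro x
      have : ‖(Qd b).indicator F x‖ₑ ≤ ‖F x‖ₑ := by
        rw [enorm_indicator_eq_indicator_enorm]
        exact indicator_le_self _ _ _
      simp only
      gcongr
    rw [← ENNReal.toReal_sum (fun b _ => ne_top_of_le_ne_top hfin (hle b))]
    apply ENNReal.toReal_mono hfin
    rw [← lintegral_finsetSum]
    · apply lintegral_mono
      intro y
      simp only
      by_cases h : y ∈ Qd (Int.log 2 y.1) ∧ Int.log 2 y.1 ∈ J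
      · rw [Finset.sum_eq_single (Int.log 2 y.1)]
        · rw [indicator_of_mem h.1]
        · intro b _ hb
          rw [indicator_of_notMem, enorm_zero, ENNReal.zero_rpow_of_pos hpp]
          intro h2
          exact hb (Qd_log h2).symm
        · intro h3; exact absurd h.2 h3
      · rw [Finset.sum_eq_zero]
        · positivity
        · intro b hb
          rw [indicator_of_notMem, enorm_zero, ENNReal.zero_rpow_of_pos hpp]
          intro h2
          have h3 := Qd_log h2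
          rw [← h3] at hb h2
          exact h ⟨h2, hb⟩
    · intro b _
      exact (hF.indicator (measurableSet_Qd b)).meas.enorm.pow_const _
  calc _ ≤ (nrm p F nu ^ p.toReal) ^ (1 / p.toReal) := by
        apply Real.rpow_le_rpow _ h1 (by positivity)
        exact Finset.sum_nonneg fun b _ => Real.rpow_nonneg nrm_nonneg _
    _ = nrm p F nu := by
        rw [← Real.rpow_mul nrm_nonneg, mul_one_div, div_self hpp.ne', Real.rpow_one]

/-- integral against nu of the norm -/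
theorem integral_norm_lft_le {F : ℝ × ℝ → ℂ} (hF : Adm nu F) (m : ℤ) :
    ∫ x, ‖lft m F x‖ ≤ ∫ y, ‖F y‖ ∂nu := by
  have h1 : ∫ y, ‖F y‖ ∂nu = ∫ x : E3, ‖F (cyl x)‖ := by
    rw [← T11_map, integral_map measurable_cyl.aemeasurable]
    exact hF.meas.norm.aestronglyMeasurable
  rw [h1]
  apply integral_mono_of_nonneg
  · filter_upwards with x using norm_nonneg _
  · have := integrable_map_measure (μ := (volume : Measure E3)) (f := cyl) (g := F)
      hF.meas.aestronglyMeasurable measurable_cyl.aemeasurable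
    rw [T11_map] at this
    exact (this.1 hF.int).norm
  · filter_upwards with x
    unfold lft
    rw [norm_mul]
    exact mul_le_of_le_one_right (norm_nonneg _) (norm_ph_zpow x m)

theorem norm_Form3_le {k : ℝ → ℂ} {C : ℝ} (hb : ∀ q, ‖k q‖ ≤ C) (m : ℤ)
    {F G : ℝ × ℝ → ℂ} (hF : Adm nu F) (hG : Adm nu G) :
    ‖Form3 k m F G‖ ≤ C * (∫ y, ‖F y‖ ∂nu) * ∫ y, ‖G y‖ ∂nu := by
  have hC : 0 ≤ C := (norm_nonneg _).trans (hb 0)
  rw [Form3_eq_BK]
  refine (norm_BK_le (fun x => hb _) (hF.cyl_ph m) (hG.cyl_ph (-m))).trans ?_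
  have h1 := integral_norm_lft_le hF m
  have h2 := integral_norm_lft_le hG (-m)
  have h3 : 0 ≤ ∫ x, ‖lft (-m) G x‖ := integral_nonneg fun _ => norm_nonneg _
  have h4 : 0 ≤ ∫ y, ‖F y‖ ∂nu := integral_nonneg fun _ => norm_nonneg _
  exact mul_le_mul (mul_le_mul_of_nonneg_left h1 hC) h2 h3 (by positivity)

theorem ae_nu : ∀ᵐ p ∂nu, 0 < p.1 := by
  rw [nu_eq]
  exact Measure.ae_smul_measure ae_nu2 _

theorem trunc_tendsto {F : ℝ × ℝ → ℂ} (hF : Adm nu F) :
    Tendsto (fun n : ℕ => ∫ y, ‖(F - P117.trunc F (Finset.Icc (-(n:ℤ)) n)) y‖ ∂nu) atTop (𝓝 0) := by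
  classical
  have h0 : (0:ℝ) = ∫ _y : ℝ × ℝ, (0:ℝ) ∂nu := by simp
  rw [h0]
  apply tendsto_integral_of_dominated_convergence (fun y => 2 * ‖F y‖)
  · intro n
    exact ((hF.sub (hF.trunc _)).meas.norm).aestronglyMeasurable
  · exact hF.int.norm.const_mul 2
  · intro n
    filter_upwards with y
    rw [norm_norm, Pi.sub_apply]
    refine (norm_sub_le _ _).trans ?_
    have := norm_trunc_le F (Finset.Icc (-(n:ℤ)) n) y
    linarith
  · filter_upwards [ae_nu] with y hy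
    apply tendsto_const_nhds.congr'
    filter_upwards [eventually_ge_atTop (Int.log 2 y.1).natAbs] with n hn
    have h1 : Int.log 2 y.1 ∈ Finset.Icc (-(n:ℤ)) n := by
      rw [Finset.mem_Icc]; omega
    rw [Pi.sub_apply, trunc_apply, if_pos ⟨mem_Qd_log hy, h1⟩, sub_self, norm_zero]

end Vale.Agent.P117
end
end

section

section

open MeasureTheory Complex Set Filter
open scoped ENNReal NNReal ContDiff FourierTransform SchwartzMap ComplexConjugate Topology

namespace Vale.Agent.P117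

theorem gain_rpow_le {ε : ℝ} (hε : 0 < ε) (a b : ℤ) :
    gain ((2:ℝ) ^ a) ((2:ℝ) ^ b) ^ ε ≤ kz ((1/2) ^ ε) (a - b) := by
  have h1 := gain_zpow a b
  have h0 := (gain_pos (R := (2:ℝ) ^ a) (S := (2:ℝ) ^ b) (by positivity) (by positivity)).le
  calc gain ((2:ℝ) ^ a) ((2:ℝ) ^ b) ^ ε ≤ ((1/2) ^ (a - b).natAbs) ^ ε := by gcongr
    _ = kz ((1/2) ^ ε) (a - b) := by
        unfold kz
        rw [← Real.rpow_natCast, ← Real.rpow_natCast, ← Real.rpow_mul (by norm_num),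
          ← Real.rpow_mul (by norm_num), mul_comm]

/-- approximation by truncations -/
theorem trunc_limit {B : (ℝ × ℝ → ℂ) → (ℝ × ℝ → ℂ) → ℂ} (hB : BilAdm nu nu B) {C : ℝ} (hC : 0 ≤ C)
    (hb : ∀ F G, Adm nu F → Adm nu G → ‖B F G‖ ≤ C * (∫ y, ‖F y‖ ∂nu) * ∫ y, ‖G y‖ ∂nu)
    {F G : ℝ × ℝ → ℂ} (hF : Adm nu F) (hG : Adm nu G) {X : ℝ}
    (hX : ∀ n : ℕ, ‖B (trunc F (Finset.Icc (-(n:ℤ)) n)) (trunc G (Finset.Icc (-(n:ℤ)) n))‖ ≤ X) :
    ‖B F G‖ ≤ X := by
  set iF := ∫ y, ‖F y‖ ∂nu with hiF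
  set iG := ∫ y, ‖G y‖ ∂nu with hiG
  have h1 : ∀ n : ℕ, ‖B F G‖ ≤ X + (C * (∫ y, ‖(F - trunc F (Finset.Icc (-(n:ℤ)) n)) y‖ ∂nu) * iG +
      C * iF * (∫ y, ‖(G - trunc G (Finset.Icc (-(n:ℤ)) n)) y‖ ∂nu)) := by
    intro n
    set Fn := trunc F (Finset.Icc (-(n:ℤ)) n) with hFn
    set Gn := trunc G (Finset.Icc (-(n:ℤ)) n) with hGn
    have aF : Adm nu Fn := hF.trunc _
    have aG : Adm nu Gn := hG.trunc _
    have e1 : B F G = B (F - Fn) G + (B Fn (G - Gn) + B Fn Gn) := by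
      rw [← hB.add2 _ _ _ aF (hG.sub aG) aG, sub_add_cancel, ← hB.add1 _ _ _ (hF.sub aF) aF hG,
        sub_add_cancel]
    have h2 := hb _ _ (hF.sub aF) hG
    have h3 := hb _ _ aF (hG.sub aG)
    have h4 := hX n
    have h5 : ∫ y, ‖Fn y‖ ∂nu ≤ iF := by
      apply integral_mono aF.int.norm hF.int.norm
      intro y
      exact norm_trunc_le F _ y
    have h6 : 0 ≤ ∫ y, ‖(G - Gn) y‖ ∂nu := integral_nonneg fun _ => norm_nonneg _
    have h7 : C * (∫ y, ‖Fn y‖ ∂nu) * (∫ y, ‖(G - Gn) y‖ ∂nu) ≤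
        C * iF * (∫ y, ‖(G - Gn) y‖ ∂nu) := by gcongr
    rw [e1]
    calc _ ≤ ‖B (F - Fn) G‖ + (‖B Fn (G - Gn)‖ + ‖B Fn Gn‖) :=
          (norm_add_le _ _).trans (add_le_add le_rfl (norm_add_le _ _))
      _ ≤ _ := by linarith
  have h2 : Tendsto (fun n : ℕ => X + (C * (∫ y, ‖(F - trunc F (Finset.Icc (-(n:ℤ)) n)) y‖ ∂nu) * iG +
      C * iF * (∫ y, ‖(G - trunc G (Finset.Icc (-(n:ℤ)) n)) y‖ ∂nu))) atTop
      (𝓝 (X + (C * 0 * iG + C * iF * 0))) := by
    have t1 := trunc_tendsto hF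
    have t2 := trunc_tendsto hG
    exact tendsto_const_nhds.add (((tendsto_const_nhds.mul t1).mul tendsto_const_nhds).add
      (tendsto_const_nhds.mul t2))
  have h3 := ge_of_tendsto' h2 h1
  simpa using h3

theorem block_expand {B : (ℝ × ℝ → ℂ) → (ℝ × ℝ → ℂ) → ℂ} (hB : BilAdm nu nu B)
    {F G : ℝ × ℝ → ℂ} (hF : Adm nu F) (hG : Adm nu G) (J : Finset ℤ) :
    B (trunc F J) (trunc G J) = ∑ b ∈ J, ∑ a ∈ J, B ((Qd b).indicator F) ((Qd a).indicator G) := by
  have h1 := hB.sum1 J (fun _ => 1) (fun b => (Qd b).indicator F)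
    (fun b _ => hF.indicator (measurableSet_Qd b)) (hG.trunc J)
  simp only [one_smul, one_mul] at h1
  unfold trunc at h1 ⊢
  rw [h1]
  apply Finset.sum_congr rfl
  intro b _
  have h2 := hB.sum2 J (fun _ => 1) (fun a => (Qd a).indicator G)
    (fun a _ => hG.indicator (measurableSet_Qd a)) (hF.indicator (measurableSet_Qd b))
  simp only [one_smul, one_mul] at h2
  exact h2

theorem sum_abs_bound {x y : ℤ → ℝ} (hx : ∀ b, 0 ≤ x b) (hy : ∀ a, 0 ≤ y a) {z : ℤ → ℤ → ℂ} {X r : ℝ}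
    (hX : 0 ≤ X) (hr : 0 ≤ r) (hr1 : r < 1) {p q : ℝ} (hpq : p.HolderConjugate q)
    (hb : ∀ a b : ℤ, ‖z b a‖ ≤ X * kz r (a - b) * x b * y a) {P Q : ℝ} (J : Finset ℤ)
    (hP : (∑ b ∈ J, x b ^ p) ^ (1 / p) ≤ P) (hQ : (∑ a ∈ J, y a ^ q) ^ (1 / q) ≤ Q) (hP0 : 0 ≤ P) :
    ‖∑ b ∈ J, ∑ a ∈ J, z b a‖ ≤ X * (∑' k, kz r k) * P * Q := by
  have hT0 : 0 ≤ ∑' k, kz r k := tsum_nonneg (kz_nonneg hr)
  have h1 : ‖∑ b ∈ J, ∑ a ∈ J, z b a‖ ≤ ∑ b ∈ J, ∑ a ∈ J, X * kz r (a - b) * x b * y a := by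
    refine (norm_sum_le _ _).trans (Finset.sum_le_sum fun b _ => ?_)
    exact (norm_sum_le _ _).trans (Finset.sum_le_sum fun a _ => hb a b)
  have h2 : ∑ b ∈ J, ∑ a ∈ J, X * kz r (a - b) * x b * y a =
      X * ∑ b ∈ J, ∑ a ∈ J, kz r (a - b) * x b * y a := by
    rw [Finset.mul_sum]
    apply Finset.sum_congr rfl
    intro b _
    rw [Finset.mul_sum]
    apply Finset.sum_congr rfl
    intro a _
    ring
  have h3 := schur_sum hr hr1 J x y hx hy hpq
  have n2 : 0 ≤ (∑ a ∈ J, y a ^ q) ^ (1 / q) :=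
    Real.rpow_nonneg (Finset.sum_nonneg fun b _ => Real.rpow_nonneg (hy _) _) _
  calc _ ≤ X * ∑ b ∈ J, ∑ a ∈ J, kz r (a - b) * x b * y a := h1.trans_eq h2
    _ ≤ X * ((∑' k, kz r k) * (∑ b ∈ J, x b ^ p) ^ (1 / p) * (∑ a ∈ J, y a ^ q) ^ (1 / q)) :=
        mul_le_mul_of_nonneg_left h3 hX
    _ ≤ X * ((∑' k, kz r k) * P * Q) := by gcongr
    _ = _ := by ring

/-- sum over dyadic blocks -/
theorem block_sum {B : (ℝ × ℝ → ℂ) → (ℝ × ℝ → ℂ) → ℂ} (hB : BilAdm nu nu B) {X r : ℝ} (hX : 0 ≤ X)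
    (hr : 0 ≤ r) (hr1 : r < 1) {p q : ℝ≥0∞} (hp : 1 ≤ p) (hp' : p ≠ ⊤) (hq : 1 ≤ q) (hq' : q ≠ ⊤)
    (hpq : p.toReal.HolderConjugate q.toReal) {F G : ℝ × ℝ → ℂ} (hF : Adm nu F) (hG : Adm nu G)
    (hb : ∀ a b : ℤ, ‖B ((Qd b).indicator F) ((Qd a).indicator G)‖ ≤
      X * kz r (a - b) * nrm p ((Qd b).indicator F) nu * nrm q ((Qd a).indicator G) nu)
    (J : Finset ℤ) :
    ‖B (trunc F J) (trunc G J)‖ ≤ X * (∑' k, kz r k) * nrm p F nu * nrm q G nu := by
  rw [block_expand hB hF hG J]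
  exact sum_abs_bound (x := fun b => nrm p ((Qd b).indicator F) nu)
    (y := fun a => nrm q ((Qd a).indicator G) nu)
    (z := fun b a => B ((Qd b).indicator F) ((Qd a).indicator G))
    (fun _ => nrm_nonneg) (fun _ => nrm_nonneg) hX hr hr1 hpq hb J (sum_nrm_le hF hp hp' J)
    (sum_nrm_le hG hq hq' J) nrm_nonneg

theorem T12_scale (p : ℝ) (hp2 : 2 ≤ p) (hp3 : p < 3) : ∃ (M K : ℕ) (C : ℝ), 0 ≤ C ∧
    ∀ (Λ : ℝ), 1 ≤ Λ → ∀ (A : ℝ) (θ : ℝ → ℂ), Bump M A θ → ∀ (m : ℤ) (F G : ℝ × ℝ → ℂ),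
    Adm nu F → Adm nu G →
    ‖Form3 (k3 Λ θ) m F G‖ ≤ C * A * (1 + Real.log Λ) * (1 + |(m:ℝ)|) ^ K *
      nrm (ENNReal.ofReal p) F nu * nrm (ENNReal.ofReal (p / (p - 1))) G nu := by
  obtain ⟨M, C, hC, h⟩ := block_interp hp2 hp3
  have hp0 : 0 < p := by linarith
  have hq0 : 0 < p / (p - 1) := div_pos hp0 (by linarith)
  set ε : ℝ := 3 / p - 1 with hε
  have hε0 : 0 < ε := by
    rw [hε, sub_pos, lt_div_iff₀ hp0]; linarith
  set r : ℝ := (1/2) ^ ε with hr
  have hr0 : 0 ≤ r := by positivity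
  have hr1 : r < 1 := Real.rpow_lt_one (by norm_num) (by norm_num) hε0
  refine ⟨M, M + 3, C * ∑' k, kz r k, mul_nonneg hC (tsum_nonneg (kz_nonneg hr0)), ?_⟩
  intro Λ hΛ A θ hθ m F G hF hG
  have hΛ0 : 0 < Λ := by linarith
  have hA := hθ.nonneg
  have hlog : 0 ≤ Real.log Λ := Real.log_nonneg hΛ
  have hB := bilAdm_Form3 (continuous_k3 hθ hΛ0) (norm_k3_le hθ hΛ0) m
  have hP1 : (1:ℝ≥0∞) ≤ ENNReal.ofReal p := by
    rw [← ENNReal.ofReal_one]; exact ENNReal.ofReal_le_ofReal (by linarith)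
  have hQ1 : (1:ℝ≥0∞) ≤ ENNReal.ofReal (p / (p - 1)) := by
    rw [← ENNReal.ofReal_one]
    apply ENNReal.ofReal_le_ofReal
    rw [le_div_iff₀ (by linarith)]; linarith
  have hpq : (ENNReal.ofReal p).toReal.HolderConjugate (ENNReal.ofReal (p / (p - 1))).toReal := by
    rw [ENNReal.toReal_ofReal hp0.le, ENNReal.toReal_ofReal hq0.le]
    exact Real.HolderConjugate.conjExponent (by linarith)
  have hX0 : 0 ≤ C * A * (1 + |(m:ℝ)|) ^ (M + 3) * (1 + Real.log Λ) := by positivity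
  refine trunc_limit hB (C := 4 * A * (2 / Λ) ^ (3 / 2 : ℝ)) (by positivity)
    (fun F G hF hG => norm_Form3_le (norm_k3_le hθ hΛ0) m hF hG) hF hG ?_
  intro n
  have h1 := block_sum hB (X := C * A * (1 + |(m:ℝ)|) ^ (M + 3) * (1 + Real.log Λ)) hX0 hr0 hr1
    hP1 ENNReal.ofReal_ne_top hQ1 ENNReal.ofReal_ne_top hpq hF hG (by
      intro a b
      have h2 := h Λ ((2:ℝ) ^ a) ((2:ℝ) ^ b) hΛ (by positivity) (by positivity) A θ hθ m _ _
        (hF.indicator (measurableSet_Qd b)) (hG.indicator (measurableSet_Qd a)) (Qd_supp b F) (Qd_supp a G)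
      refine h2.trans ?_
      have h3 := gain_rpow_le hε0 a b
      have n1 : 0 ≤ nrm (ENNReal.ofReal p) ((Qd b).indicator F) nu := nrm_nonneg
      have n2 : 0 ≤ nrm (ENNReal.ofReal (p / (p - 1))) ((Qd a).indicator G) nu := nrm_nonneg
      calc _ ≤ C * A * (1 + |(m:ℝ)|) ^ (M + 3) * ((1 + Real.log Λ) * kz r (a - b)) *
            nrm (ENNReal.ofReal p) ((Qd b).indicator F) nu *
            nrm (ENNReal.ofReal (p / (p - 1))) ((Qd a).indicator G) nu := by gcongr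
        _ = _ := by ring) (Finset.Icc (-(n:ℤ)) n)
  refine h1.trans (le_of_eq ?_)
  ring

end Vale.Agent.P117
end
end

section

section

open MeasureTheory Complex Set
open scoped ENNReal NNReal ContDiff FourierTransform SchwartzMap ComplexConjugate Topology

namespace Vale.Agent.P117

/-- the damped power -/
noncomputable def phs (s u : ℝ) : ℂ := if 0 < u then ((u ^ (s - 1) * Real.exp (-(2 * Real.pi) * u) : ℝ) : ℂ) else 0

theorem phs_of_pos {s u : ℝ} (h : 0 < u) :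
    phs s u = ((u ^ (s - 1) * Real.exp (-(2 * Real.pi) * u) : ℝ) : ℂ) := by
  unfold phs; rw [if_pos h]

theorem phs_of_nonpos {s u : ℝ} (h : u ≤ 0) : phs s u = 0 := by
  unfold phs; rw [if_neg (not_lt.2 h)]

theorem phs_eq_indicator (s : ℝ) : phs s =
    (Ioi 0).indicator (fun u : ℝ => ((u ^ (s - 1) * Real.exp (-(2 * Real.pi) * u) : ℝ) : ℂ)) := by
  ext u
  by_cases h : 0 < u
  · rw [phs_of_pos h, indicator_of_mem (show u ∈ Ioi (0:ℝ) from h)]
  · rw [phs_of_nonpos (not_lt.1 h), indicator_of_notMem (show u ∉ Ioi (0:ℝ) from h)]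

theorem integrable_phs {s : ℝ} (hs : 0 < s) : Integrable (phs s) := by
  rw [phs_eq_indicator, integrable_indicator_iff measurableSet_Ioi]
  have h := integrableOn_rpow_mul_exp_neg_mul_rpow (s := s - 1) (p := 1) (b := 2 * Real.pi) (by linarith)
    (by norm_num) (by have := Real.pi_pos; positivity)
  simp_rw [Real.rpow_one] at h
  exact h.ofReal

theorem mul_phs (s u : ℝ) : (u : ℂ) * phs s u = phs (s + 1) u := by
  by_cases h : 0 < u
  · rw [phs_of_pos h, phs_of_pos h, ← Complex.ofReal_mul]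
    congr 1
    have : s + 1 - 1 = (s - 1) + 1 := by ring
    rw [this, Real.rpow_add_one h.ne']
    ring
  · rw [phs_of_nonpos (not_lt.1 h), phs_of_nonpos (not_lt.1 h), mul_zero]

theorem norm_phs_le {s u : ℝ} : ‖phs s u‖ ≤ |u| ^ (s - 1) := by
  by_cases h : 0 < u
  · rw [phs_of_pos h, Complex.norm_real, Real.norm_of_nonneg (by positivity), abs_of_pos h]
    apply mul_le_of_le_one_right (by positivity)
    rw [Real.exp_le_one_iff]
    have := Real.pi_pos
    nlinarith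
  · rw [phs_of_nonpos (not_lt.1 h), norm_zero]
    exact Real.rpow_nonneg (abs_nonneg _) _

theorem hasDerivAt_phs {s : ℝ} (hs : 1 < s) (u : ℝ) :
    HasDerivAt (phs (s + 1)) (s * phs s u - 2 * Real.pi * phs (s + 1) u) u := by
  rcases lt_trichotomy u 0 with h | h | h
  · rw [phs_of_nonpos h.le, phs_of_nonpos h.le]
    have h1 : phs (s + 1) =ᶠ[𝓝 u] fun _ => 0 := by
      filter_upwards [isOpen_Iio.mem_nhds h] with v hv
      exact phs_of_nonpos (le_of_lt hv)
    have h2 := (hasDerivAt_const u (0:ℂ)).congr_of_eventuallyEq h1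
    simpa using h2
  · subst h
    rw [phs_of_nonpos le_rfl, phs_of_nonpos le_rfl]
    simp only [mul_zero, sub_zero]
    have h1 : HasDerivAt (fun x : ℝ => |x| ^ s) 0 0 := by
      simpa using hasDerivAt_abs_rpow 0 hs
    rw [hasDerivAt_iff_isLittleO] at h1 ⊢
    simp only [abs_zero, smul_zero, sub_zero] at h1 ⊢
    have h3 : (0:ℝ) ^ s = 0 := Real.zero_rpow (by linarith)
    rw [h3] at h1
    simp only [sub_zero] at h1
    rw [phs_of_nonpos le_rfl]
    simp only [sub_zero]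
    refine Asymptotics.IsBigO.trans_isLittleO ?_ h1
    apply Asymptotics.IsBigO.of_bound 1
    filter_upwards with x
    rw [one_mul, Real.norm_of_nonneg (Real.rpow_nonneg (abs_nonneg _) _)]
    have := norm_phs_le (s := s + 1) (u := x)
    simpa using this
  · have h1 : phs (s + 1) =ᶠ[𝓝 u] fun v => ((v ^ s * Real.exp (-(2 * Real.pi) * v) : ℝ) : ℂ) := by
      filter_upwards [isOpen_Ioi.mem_nhds h] with v hv
      rw [phs_of_pos hv]
      congr 3; ring
    have h2 : HasDerivAt (fun v : ℝ => v ^ s * Real.exp (-(2 * Real.pi) * v))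
        (s * u ^ (s - 1) * Real.exp (-(2 * Real.pi) * u) + u ^ s * (Real.exp (-(2 * Real.pi) * u) * (-(2 * Real.pi)))) u := by
      apply HasDerivAt.mul
      · exact Real.hasDerivAt_rpow_const (Or.inl h.ne')
      · apply HasDerivAt.exp
        have h4 := (hasDerivAt_id u).const_mul (-(2 * Real.pi))
        rw [mul_one] at h4
        exact h4
    have h3 := h2.ofReal_comp.congr_of_eventuallyEq h1
    refine h3.congr_deriv ?_
    rw [phs_of_pos h, phs_of_pos h]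
    have : s + 1 - 1 = s := by ring
    rw [this]
    push_cast
    ring

theorem continuous_phs {s : ℝ} (hs : 1 < s) : Continuous (phs s) := by
  rw [continuous_iff_continuousAt]
  intro u
  rcases lt_trichotomy u 0 with h | h | h
  · have h1 : phs s =ᶠ[𝓝 u] fun _ => 0 := by
      filter_upwards [isOpen_Iio.mem_nhds h] with v hv
      exact phs_of_nonpos (le_of_lt hv)
    exact continuousAt_const.congr h1.symm
  · subst h
    unfold ContinuousAt
    rw [phs_of_nonpos le_rfl, tendsto_zero_iff_norm_tendsto_zero]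
    have h1 : Filter.Tendsto (fun x : ℝ => |x| ^ (s - 1)) (𝓝 0) (𝓝 0) := by
      have : Continuous (fun x : ℝ => |x| ^ (s - 1)) :=
        continuous_abs.rpow_const (fun x => Or.inr (by linarith))
      have h2 := this.tendsto 0
      simpa [Real.zero_rpow (by linarith : s - 1 ≠ 0)] using h2
    exact squeeze_zero (fun _ => norm_nonneg _) (fun x => norm_phs_le) h1
  · have h1 : phs s =ᶠ[𝓝 u] fun v => ((v ^ (s - 1) * Real.exp (-(2 * Real.pi) * v) : ℝ) : ℂ) := by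
      filter_upwards [isOpen_Ioi.mem_nhds h] with v hv
      rw [phs_of_pos hv]
    have h2 : ContinuousAt (fun v : ℝ => ((v ^ (s - 1) * Real.exp (-(2 * Real.pi) * v) : ℝ) : ℂ)) u := by
      apply Complex.continuous_ofReal.continuousAt.comp
      apply ContinuousAt.mul
      · exact Real.continuousAt_rpow_const _ _ (Or.inl h.ne')
      · fun_prop
    exact h2.congr h1.symm

theorem int_real {f : ℝ → ℂ} (hf : Integrable f) (t : ℝ) :
    Integrable (fun v : ℝ => Real.fourierChar (-(v * t)) • f v) := by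
  have h := (Real.fourierIntegral_convergent_iff (V := ℝ) (f := f) t).2 hf
  refine h.congr ?_
  filter_upwards with v
  have : inner ℝ v t = v * t := by
    change t * v = v * t
    ring
  rw [this]

/-- recurrence from integration by parts -/
theorem fourier_phs_rec {s : ℝ} (hs : 1 < s) (t : ℝ) :
    s * 𝓕 (phs s) t = 2 * Real.pi * (1 + I * t) * 𝓕 (phs (s + 1)) t := by
  have hd := hasDerivAt_phs hs
  have hi : Integrable (phs s) := integrable_phs (by linarith)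
  have hi' : Integrable (phs (s + 1)) := integrable_phs (by linarith)
  have he : deriv (phs (s + 1)) = fun u => (s : ℂ) * phs s u - 2 * Real.pi * phs (s + 1) u := by
    ext u; exact (hd u).deriv
  have hdi : Integrable (deriv (phs (s + 1))) := by
    rw [he]
    exact (hi.const_mul _).sub (hi'.const_mul _)
  have h1 := Real.fourier_deriv hi' (fun u => (hd u).differentiableAt) hdi
  have h2 := congrFun h1 t
  rw [he] at h2
  have h3 : 𝓕 (fun u => (s : ℂ) * phs s u - 2 * Real.pi * phs (s + 1) u) t =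
      s * 𝓕 (phs s) t - 2 * Real.pi * 𝓕 (phs (s + 1)) t := by
    rw [Real.fourier_real_eq, Real.fourier_real_eq, Real.fourier_real_eq, ← integral_const_mul,
      ← integral_const_mul, ← integral_sub]
    · congr 1
      ext u
      simp only [Circle.smul_def, smul_eq_mul]
      ring
    · exact (int_real hi t).const_mul _
    · exact (int_real hi' t).const_mul _
  rw [h3] at h2
  simp only [smul_eq_mul] at h2
  linear_combination h2

theorem hasDerivAt_fourier_phs {s : ℝ} (hs : 0 < s) (t : ℝ) :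
    HasDerivAt (𝓕 (phs s)) (-2 * Real.pi * I * 𝓕 (phs (s + 1)) t) t := by
  have hi : Integrable (phs s) := integrable_phs hs
  have hi' : Integrable (phs (s + 1)) := integrable_phs (by linarith)
  have h1 := Real.hasDerivAt_fourier hi (by
    refine hi'.congr ?_
    filter_upwards with x
    rw [← mul_phs, Complex.real_smul]) t
  refine h1.congr_deriv ?_
  rw [Real.fourier_real_eq, Real.fourier_real_eq, ← integral_const_mul]
  congr 1
  ext x
  simp only [Circle.smul_def, smul_eq_mul]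
  rw [← mul_phs]
  ring

theorem one_add_slit (t : ℝ) : (1 + I * t : ℂ) ∈ slitPlane := by
  left
  simp

/-- explicit Fourier transform of the damped power -/
theorem fourier_phs {s : ℝ} (hs : 1 < s) (t : ℝ) :
    𝓕 (phs s) t = 𝓕 (phs s) 0 * (1 + I * t) ^ (-(s : ℂ)) := by
  set H : ℝ → ℂ := fun t => (1 + I * t) ^ (s : ℂ) * 𝓕 (phs s) t with hH
  have hb : ∀ t : ℝ, HasDerivAt (fun t : ℝ => ((1 + I * t : ℂ)) ^ (s : ℂ))
      (s * (1 + I * t) ^ ((s : ℂ) - 1) * I) t := by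
    intro t
    have h1 : HasDerivAt (fun w : ℂ => 1 + I * w) I (t : ℂ) := by
      have := ((hasDerivAt_id (t : ℂ)).const_mul I).const_add 1
      rw [mul_one] at this
      exact this
    exact (h1.cpow_const (one_add_slit t)).comp_ofReal
  have hder : ∀ t : ℝ, HasDerivAt H 0 t := by
    intro t
    have h1 := (hb t).mul (hasDerivAt_fourier_phs (by linarith : 0 < s) t)
    refine h1.congr_deriv ?_
    have h2 := fourier_phs_rec hs t
    have hz : (1 + I * t : ℂ) ≠ 0 := slitPlane_ne_zero (one_add_slit t)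
    have h3 : (1 + I * t : ℂ) ^ ((s : ℂ) - 1) * (1 + I * t) = (1 + I * t) ^ (s : ℂ) := by
      rw [Complex.cpow_sub _ _ hz, Complex.cpow_one]
      field_simp
    rw [← h3]
    linear_combination ((1 + I * t : ℂ) ^ ((s : ℂ) - 1) * I) * h2
  have hconst : H t = H 0 := by
    have hdiff : Differentiable ℝ H := fun t => (hder t).differentiableAt
    exact is_const_of_deriv_eq_zero hdiff (fun t => (hder t).deriv) t 0
  have hz : (1 + I * t : ℂ) ≠ 0 := slitPlane_ne_zero (one_add_slit t)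
  simp only [hH] at hconst
  rw [Complex.ofReal_zero, mul_zero, add_zero, Complex.one_cpow, one_mul] at hconst
  rw [← hconst, Complex.cpow_neg]
  have hz' : (1 + I * t : ℂ) ^ (s : ℂ) ≠ 0 := by
    rw [Ne, Complex.cpow_eq_zero_iff]
    exact fun h => hz h.1
  field_simp

theorem norm_one_add (t : ℝ) : ‖(1 + I * t : ℂ)‖ = Real.sqrt (1 + t ^ 2) := by
  have := Complex.norm_add_mul_I 1 t
  rw [mul_comm I]
  simpa using this

theorem integrable_cpow_phs {s : ℝ} (hs : 1 < s) : Integrable (fun t : ℝ => (1 + I * t : ℂ) ^ (-(s : ℂ))) := by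
  have h1 : Integrable (fun t : ℝ => ((1:ℝ) + ‖t‖ ^ 2) ^ (-s / 2)) := by
    apply integrable_rpow_neg_one_add_norm_sq
    simpa using hs
  refine h1.mono' ?_ ?_
  · apply Measurable.aestronglyMeasurable
    fun_prop
  · filter_upwards with t
    have e : (-(s:ℂ)) = ((-s : ℝ) : ℂ) := by push_cast; rfl
    rw [e, Complex.norm_cpow_real, norm_one_add, Real.norm_eq_abs, sq_abs, Real.sqrt_eq_rpow,
      ← Real.rpow_mul (by positivity)]
    apply le_of_eq
    congr 1; ring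

theorem phs_inv {s : ℝ} (hs : 1 < s) (u : ℝ) :
    phs s u = ∫ t : ℝ, cexp (2 * Real.pi * I * t * u) * (𝓕 (phs s) 0 * (1 + I * t) ^ (-(s : ℂ))) := by
  have hF : 𝓕 (phs s) = fun t : ℝ => 𝓕 (phs s) 0 * (1 + I * t : ℂ) ^ (-(s : ℂ)) := by
    ext t; exact fourier_phs hs t
  have hi : Integrable (phs s) := integrable_phs (by linarith)
  have hi2 : Integrable (𝓕 (phs s)) := by
    rw [hF]; exact (integrable_cpow_phs hs).const_mul _
  have h1 := hi.fourierInv_fourier_eq hi2 (v := u) (continuous_phs hs).continuousAt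
  rw [← h1, Real.fourierInv_eq']
  congr 1
  ext t
  rw [← fourier_phs hs t, smul_eq_mul]
  congr 2
  have : inner ℝ t u = t * u := by
    change u * t = t * u
    ring
  rw [this]
  push_cast
  ring

end Vale.Agent.P117
end
end

section

section

open MeasureTheory Complex Set
open scoped ENNReal NNReal ContDiff FourierTransform SchwartzMap ComplexConjugate Topology

namespace Vale.Agent.P117

/-- multiplication by a complex power -/
noncomputable def pw (θ : ℝ → ℂ) (a : ℂ) (τ : ℝ) : ℂ := θ τ * cexp (a * Real.log τ)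

theorem norm_exp_log_le' (M n : ℕ) (hn : n ≤ M) (a : ℂ) {t : ℝ} (ht : t ∈ Icc (1/4 : ℝ) 4) :
    ‖iteratedDeriv n (fun τ : ℝ => cexp (a * Real.log τ)) t‖ ≤
      (1 + ‖a‖ + M) ^ M * Real.exp ((‖a‖ + M) * Real.log 4) := by
  have ht0 : 0 < t := by linarith [ht.1]
  rw [iteratedDeriv_exp_log _ _ t ht0, norm_mul]
  have hMn : (n : ℝ) ≤ M := by exact_mod_cast hn
  have hM0 : (0:ℝ) ≤ M := by positivity
  have h0 : (1:ℝ) ≤ 1 + ‖a‖ + M := by have := norm_nonneg a; linarith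
  have h1 : ‖∏ j ∈ Finset.range n, (a - j)‖ ≤ (1 + ‖a‖ + M) ^ M := by
    rw [norm_prod]
    calc ∏ j ∈ Finset.range n, ‖a - j‖ ≤ ∏ _j ∈ Finset.range n, (1 + ‖a‖ + M) := by
          apply Finset.prod_le_prod
          · intro _ _; exact norm_nonneg _
          · intro j hj
            have hj' : (j : ℝ) ≤ M := by
              have := Finset.mem_range.1 hj
              exact_mod_cast (by omega : j ≤ M)
            refine (norm_sub_le _ _).trans ?_
            have h4 : ‖(j : ℂ)‖ = j := by simp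
            rw [h4]
            linarith
      _ = (1 + ‖a‖ + M) ^ n := by simp
      _ ≤ _ := pow_le_pow_right₀ h0 hn
  have h2 : ‖cexp ((a - n) * Real.log t)‖ ≤ Real.exp ((‖a‖ + M) * Real.log 4) := by
    rw [Complex.norm_exp]
    apply Real.exp_le_exp.2
    have e1 : ((a - n) * Real.log t).re = (a.re - n) * Real.log t := by
      rw [Complex.re_mul_ofReal, Complex.sub_re, Complex.natCast_re]
    rw [e1]
    have hl : |Real.log t| ≤ Real.log 4 := by
      rw [abs_le]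
      constructor
      · rw [← Real.log_inv]
        exact Real.log_le_log (by norm_num) (by norm_num; linarith [ht.1])
      · exact Real.log_le_log ht0 ht.2
    have hr : |a.re - n| ≤ ‖a‖ + M := by
      refine (abs_sub _ _).trans ?_
      have := Complex.abs_re_le_norm a
      rw [abs_of_nonneg (by positivity : (0:ℝ) ≤ n)]
      linarith
    calc (a.re - n) * Real.log t ≤ |(a.re - n) * Real.log t| := le_abs_self _
      _ = |a.re - n| * |Real.log t| := abs_mul _ _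
      _ ≤ _ := by gcongr
  gcongr

theorem Bump.pw (a : ℂ) (M : ℕ) : ∃ C : ℝ, 0 ≤ C ∧ ∀ (A : ℝ) (θ : ℝ → ℂ), Bump M A θ →
    Bump M (C * A) (P117.pw θ a) := by
  refine ⟨2 ^ M * ((1 + ‖a‖ + M) ^ M * Real.exp ((‖a‖ + M) * Real.log 4)), by positivity, ?_⟩
  intro A θ h
  have hA := h.nonneg
  have hsupp : ∀ t, P117.pw θ a t ≠ 0 → t ∈ Icc (1/4:ℝ) 4 := fun t ht =>
    h.supp t (left_ne_zero_of_mul ht)
  have hz : ∀ t, t ∉ Icc (1/4:ℝ) 4 → P117.pw θ a =ᶠ[𝓝 t] 0 := by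
    intro t ht
    filter_upwards [isClosed_Icc.isOpen_compl.mem_nhds ht] with s hs
    by_contra h0
    exact hs (hsupp s h0)
  have hon : ContDiffOn ℝ ∞ (P117.pw θ a) (Ioi 0) :=
    (h.smooth.contDiffOn).mul (contDiffOn_exp_log _)
  refine ⟨?_, hsupp, ?_⟩
  · rw [contDiff_iff_contDiffAt]
    intro t
    by_cases ht : 0 < t
    · exact hon.contDiffAt (isOpen_Ioi.mem_nhds ht)
    · have := hz t (fun h => ht (by linarith [h.1]))
      exact contDiffAt_const.congr_of_eventuallyEq this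
  · intro i hi t
    by_cases ht : t ∈ Icc (1/4:ℝ) 4
    · have ht0 : 0 < t := by linarith [ht.1]
      rw [← norm_iteratedFDeriv_eq_norm_iteratedDeriv, ← iteratedFDerivWithin_of_isOpen i isOpen_Ioi ht0]
      have := norm_iteratedFDerivWithin_mul_le (N := ∞) (h.smooth.contDiffOn (s := Ioi 0)) (contDiffOn_exp_log a)
        isOpen_Ioi.uniqueDiffOn ht0 (n := i) (by exact_mod_cast le_top)
      refine this.trans ?_
      calc ∑ k ∈ Finset.range (i + 1), (i.choose k : ℝ) * ‖iteratedFDerivWithin ℝ k θ (Ioi 0) t‖ *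
            ‖iteratedFDerivWithin ℝ (i - k) (fun τ : ℝ => cexp (a * Real.log τ)) (Ioi 0) t‖
          ≤ ∑ k ∈ Finset.range (i + 1), (i.choose k : ℝ) * A *
            ((1 + ‖a‖ + M) ^ M * Real.exp ((‖a‖ + M) * Real.log 4)) := by
            apply Finset.sum_le_sum
            intro k hk
            have hk' : k ≤ i := Nat.lt_succ_iff.1 (Finset.mem_range.1 hk)
            have h1 := h.bound k (hk'.trans hi) t
            have h2 := norm_exp_log_le' M (i - k) ((Nat.sub_le _ _).trans hi) a ht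
            rw [iteratedFDerivWithin_of_isOpen k isOpen_Ioi ht0,
              iteratedFDerivWithin_of_isOpen (i - k) isOpen_Ioi ht0,
              norm_iteratedFDeriv_eq_norm_iteratedDeriv, norm_iteratedFDeriv_eq_norm_iteratedDeriv]
            gcongr
        _ = 2 ^ i * A * ((1 + ‖a‖ + M) ^ M * Real.exp ((‖a‖ + M) * Real.log 4)) := by
            rw [← Finset.sum_mul, ← Finset.sum_mul]
            congr 2
            exact_mod_cast Nat.sum_range_choose i
        _ ≤ 2 ^ M * A * ((1 + ‖a‖ + M) ^ M * Real.exp ((‖a‖ + M) * Real.log 4)) := by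
            gcongr
            norm_num
        _ = _ := by ring
    · have h1 := Filter.EventuallyEq.iteratedDeriv_eq i (hz t ht)
      rw [h1]
      simp
      positivity

section
variable {M : ℕ} {A B : ℝ} {θ ζ : ℝ → ℂ}

theorem Bump.add (h : Bump M A θ) (h' : Bump M B ζ) : Bump M (A + B) (fun t => θ t + ζ t) := by
  refine ⟨h.smooth.add h'.smooth, ?_, ?_⟩
  · intro t ht
    by_contra hc
    apply ht
    rw [h.eq_zero hc, h'.eq_zero hc, add_zero]
  · intro i hi t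
    have e : iteratedDeriv i (fun t => θ t + ζ t) t = iteratedDeriv i θ t + iteratedDeriv i ζ t := by
      have := iteratedDeriv_add (x := t) (n := i) (f := θ) (g := ζ)
        (h.smooth.contDiffAt.of_le (by exact_mod_cast le_top)) (h'.smooth.contDiffAt.of_le (by exact_mod_cast le_top))
      exact this
    rw [e]
    exact (norm_add_le _ _).trans (add_le_add (h.bound i hi t) (h'.bound i hi t))

theorem Bump.const_mul (h : Bump M A θ) (c : ℂ) : Bump M (‖c‖ * A) (fun t => c * θ t) := by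
  refine ⟨contDiff_const.mul h.smooth, fun t ht => h.supp t (right_ne_zero_of_mul ht), ?_⟩
  intro i hi t
  rw [iteratedDeriv_const_mul_field, norm_mul]
  have := h.bound i hi t
  gcongr

theorem Bump.deriv (h : Bump (M + 1) A θ) : Bump M A (_root_.deriv θ) := by
  refine ⟨?_, ?_, ?_⟩
  · have := h.smooth.iterate_deriv 1
    simpa using this
  · intro t ht
    by_contra hc
    have := h.iteratedDeriv_support 1 hc
    rw [iteratedDeriv_one] at this
    exact ht this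
  · intro i hi t
    rw [← iteratedDeriv_succ']
    exact h.bound (i + 1) (by omega) t

end

/-- oscillating time integral -/
noncomputable def Jf (Λ : ℝ) (a : ℝ → ℂ) (q : ℝ) : ℂ :=
  ∫ τ : ℝ, a τ * cexp (-2 * Real.pi * I * ((Λ * τ : ℝ) : ℂ)) * gp Λ q τ

theorem norm_tphase (Λ τ : ℝ) : ‖cexp (-2 * Real.pi * I * ((Λ * τ : ℝ) : ℂ))‖ = 1 := by
  rw [Complex.norm_exp]
  have : (-2 * Real.pi * I * ((Λ * τ : ℝ) : ℂ) : ℂ) = ((-2 * Real.pi * (Λ * τ) : ℝ) : ℂ) * I := by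
    push_cast; ring
  rw [this, re_ofReal_mul, I_re, mul_zero, Real.exp_zero]

theorem norm_Jf_le {M : ℕ} {A : ℝ} {a : ℝ → ℂ} (h : Bump M A a) (Λ q : ℝ) : ‖Jf Λ a q‖ ≤ 4 * A := by
  unfold Jf
  have h1 := h.integral_norm_le 0 (Nat.zero_le _)
  simp only [iteratedDeriv_zero] at h1
  refine le_trans (norm_integral_le_of_norm_le h.integrable.norm ?_) h1
  filter_upwards with τ
  rw [norm_mul, norm_mul, norm_tphase, norm_gp, mul_one, mul_one]

/-- k3 as an oscillating time integral -/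
theorem k3_eq_Jf {M : ℕ} {A : ℝ} {θ : ℝ → ℂ} (h : Bump M A θ) {Λ : ℝ} (hΛ : 0 < Λ) (q : ℝ) :
    k3 Λ θ q = (I / (2 * Λ)) ^ (3 / 2 : ℂ) * Jf Λ (pw θ (-(3/2))) q := by
  rw [k3_eq_Wt h hΛ]
  unfold Jf
  rw [← integral_const_mul]
  congr 1
  ext τ
  by_cases hτ : τ ∈ Icc (1/4 : ℝ) 4
  · have hτ0 : 0 < τ := by linarith [hτ.1]
    have hz : (I / (2 * (Λ:ℂ))) ≠ 0 := by
      have : (Λ : ℂ) ≠ 0 := by exact_mod_cast hΛ.ne'
      simp [this]
    have e0 : I / (2 * ((Λ * τ : ℝ) : ℂ)) = ((τ⁻¹ : ℝ) : ℂ) * (I / (2 * (Λ:ℂ))) := by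
      have h1 : (Λ : ℂ) ≠ 0 := by exact_mod_cast hΛ.ne'
      have h2 : (τ : ℂ) ≠ 0 := by exact_mod_cast hτ0.ne'
      push_cast
      field_simp
    have hz' : I / (2 * ((Λ * τ : ℝ) : ℂ)) ≠ 0 := by
      rw [e0]
      exact mul_ne_zero (by exact_mod_cast (inv_pos.2 hτ0).ne') hz
    have e1 : (I / (2 * ((Λ * τ : ℝ) : ℂ))) ^ ((3 / 2 : ℝ) : ℂ) =
        (I / (2 * Λ)) ^ (3 / 2 : ℂ) * cexp (-(3/2) * Real.log τ) := by
      have e2 : (((3:ℝ) / 2 : ℝ) : ℂ) = 3 / 2 := by push_cast; norm_num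
      rw [e2, Complex.cpow_def_of_ne_zero hz', Complex.cpow_def_of_ne_zero hz, e0,
        Complex.log_ofReal_mul (inv_pos.2 hτ0) hz, ← Complex.exp_add, Real.log_inv]
      congr 1
      push_cast
      ring
    unfold Wt pw
    rw [e1]
    ring
  · unfold Wt pw
    rw [h.eq_zero hτ]
    ring

/-- next amplitude in the integration by parts -/
noncomputable def nxt (Λ : ℝ) (a : ℝ → ℂ) (τ : ℝ) : ℂ :=
  2 * pw a 1 τ + (pw (deriv a) 2 τ + (-2 * Real.pi * I * Λ) * pw a 2 τ)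

theorem Bump.nxt (M : ℕ) : ∃ C : ℝ, 0 ≤ C ∧ ∀ (Λ : ℝ), 0 < Λ → ∀ (A : ℝ) (a : ℝ → ℂ),
    Bump (M + 1) A a → Bump M (C * (1 + Λ) * A) (P117.nxt Λ a) := by
  obtain ⟨C1, hC1, h1⟩ := Bump.pw 1 M
  obtain ⟨C2, hC2, h2⟩ := Bump.pw 2 M
  refine ⟨2 * C1 + C2 + 2 * Real.pi * C2, by have := Real.pi_pos; positivity, ?_⟩
  intro Λ hΛ A a h
  have hA := h.nonneg
  have h' : Bump M A a := h.mono (Nat.le_succ M) le_rfl
  have b1 := (h1 A a h').const_mul 2
  have b2 := h2 A _ h.deriv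
  have b3 := (h2 A a h').const_mul (-2 * Real.pi * I * Λ)
  refine (b1.add (b2.add b3)).mono le_rfl ?_
  have e1 : ‖(2:ℂ)‖ = 2 := Complex.norm_two
  have e2 : ‖(-2 * Real.pi * I * Λ : ℂ)‖ = 2 * Real.pi * Λ := by
    simp [abs_of_pos Real.pi_pos, abs_of_pos hΛ]
  rw [e1, e2]
  have hpi := Real.pi_pos
  have e3 : (2 * C1 + C2 + 2 * Real.pi * C2) * (1 + Λ) * A - (2 * (C1 * A) + (C2 * A + 2 * Real.pi * Λ * (C2 * A)))
      = ((2 * C1 + C2) * Λ + 2 * Real.pi * C2) * A := by ring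
  have e4 : 0 ≤ ((2 * C1 + C2) * Λ + 2 * Real.pi * C2) * A := by positivity
  linarith

theorem hasDerivAt_gp {Λ τ : ℝ} (hΛ : 0 < Λ) (hτ : 0 < τ) (q : ℝ) :
    HasDerivAt (fun τ => gp Λ q τ) (gp Λ q τ * (Real.pi * I * q / (2 * Λ * τ ^ 2))) τ := by
  unfold gp
  apply HasDerivAt.cexp
  have hΛ' : (Λ : ℂ) ≠ 0 := by exact_mod_cast hΛ.ne'
  have hτ' : (τ : ℂ) ≠ 0 := by exact_mod_cast hτ.ne'
  have h1 : HasDerivAt (fun τ : ℝ => (2 * ((Λ * τ : ℝ) : ℂ))) (2 * ((Λ : ℝ) : ℂ)) τ := by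
    have h2 : HasDerivAt (fun τ : ℝ => Λ * τ) Λ τ := by simpa using (hasDerivAt_id τ).const_mul Λ
    exact h2.ofReal_comp.const_mul 2
  have h3 : (2 * ((Λ * τ : ℝ) : ℂ)) ≠ 0 := by
    push_cast; exact mul_ne_zero two_ne_zero (mul_ne_zero hΛ' hτ')
  have h4 := (hasDerivAt_const τ (-Real.pi * I * (q : ℂ))).div h1 h3
  refine h4.congr_deriv ?_
  push_cast
  field_simp
  ring

theorem cexp_log_one {τ : ℝ} (hτ : 0 < τ) : cexp (1 * Real.log τ) = τ := by
  rw [one_mul, ← Complex.ofReal_exp, Real.exp_log hτ]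

theorem cexp_log_two {τ : ℝ} (hτ : 0 < τ) : cexp (2 * Real.log τ) = (τ : ℂ) ^ 2 := by
  have : (2 * Real.log τ : ℂ) = ((2 * Real.log τ : ℝ) : ℂ) := by push_cast; ring
  rw [this, ← Complex.ofReal_exp, mul_comm, Real.exp_mul, Real.exp_log hτ]
  norm_num

/-- integration by parts in time -/
theorem Jf_parts {A : ℝ} {a : ℝ → ℂ} (h : Bump 1 A a) {Λ : ℝ} (hΛ : 0 < Λ) (q : ℝ) :
    Jf Λ a q * (Real.pi * I * q / (2 * Λ)) = - Jf Λ (nxt Λ a) q := by
  obtain ⟨C, hC, hn⟩ := Bump.nxt 0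
  have hb := hn Λ hΛ A a h
  have hΛ' : (Λ : ℂ) ≠ 0 := by exact_mod_cast hΛ.ne'
  set E : ℝ → ℂ := fun τ => cexp (-2 * Real.pi * I * ((Λ * τ : ℝ) : ℂ)) with hE
  have hEd : ∀ τ, HasDerivAt E (E τ * (-2 * Real.pi * I * Λ)) τ := by
    intro τ
    apply HasDerivAt.cexp
    apply HasDerivAt.const_mul
    have h2 : HasDerivAt (fun τ : ℝ => Λ * τ) Λ τ := by simpa using (hasDerivAt_id τ).const_mul Λ
    exact h2.ofReal_comp
  have hEn : ∀ τ, ‖E τ‖ = 1 := fun τ => norm_tphase Λ τ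
  -- primitive
  set P : ℝ → ℂ := fun τ => (τ : ℂ) ^ 2 * a τ * E τ * gp Λ q τ with hP
  set P' : ℝ → ℂ := fun τ => nxt Λ a τ * E τ * gp Λ q τ +
    a τ * E τ * gp Λ q τ * (Real.pi * I * q / (2 * Λ)) with hP'
  have hder : ∀ τ, HasDerivAt P (P' τ) τ := by
    intro τ
    by_cases hτ : τ ∈ Icc (1/4 : ℝ) 4
    · have hτ0 : 0 < τ := by linarith [hτ.1]
      have hτ' : (τ : ℂ) ≠ 0 := by exact_mod_cast hτ0.ne'
      have d1 : HasDerivAt (fun τ : ℝ => (τ : ℂ) ^ 2) (2 * (τ : ℂ)) τ := by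
        have := (hasDerivAt_id τ).ofReal_comp.fun_pow 2
        simpa using this
      have d2 : HasDerivAt a (deriv a τ) τ :=
        ((h.smooth.differentiable (by norm_num)) τ).hasDerivAt
      have d3 := ((d1.mul d2).mul (hEd τ)).mul (hasDerivAt_gp hΛ hτ0 q)
      refine d3.congr_deriv ?_
      simp only [hP', nxt, pw, Pi.mul_apply]
      rw [cexp_log_one hτ0, cexp_log_two hτ0]
      field_simp
      ring
    · have hz : a =ᶠ[𝓝 τ] 0 := by
        filter_upwards [isClosed_Icc.isOpen_compl.mem_nhds hτ] with s hs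
        exact h.eq_zero hs
      have hPz : P =ᶠ[𝓝 τ] fun _ => 0 := by
        filter_upwards [hz] with s hs
        simp only [hP]
        rw [hs]; simp
      have hP'z : P' τ = 0 := by
        simp only [hP']
        rw [h.eq_zero hτ, hb.eq_zero hτ]; ring
      rw [hP'z]
      exact (hasDerivAt_const τ (0:ℂ)).congr_of_eventuallyEq hPz
  have hgm : Measurable (fun τ => gp Λ q τ) :=
    measurable_gp_time Λ q
  have i1 : Integrable (fun τ => nxt Λ a τ * E τ * gp Λ q τ) := by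
    refine hb.integrable.norm.mono' ?_ ?_
    · have hbm : Measurable (nxt Λ a) := hb.continuous.measurable
      have hEm : Measurable E := by simp only [hE]; fun_prop
      exact ((hbm.mul hEm).mul hgm).aestronglyMeasurable
    · filter_upwards with τ
      rw [norm_mul, norm_mul, hEn, norm_gp, mul_one, mul_one]
  have i2 : Integrable (fun τ => a τ * E τ * gp Λ q τ) := by
    refine h.integrable.norm.mono' ?_ ?_
    · have ham : Measurable a := h.continuous.measurable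
      have hEm : Measurable E := by simp only [hE]; fun_prop
      exact ((ham.mul hEm).mul hgm).aestronglyMeasurable
    · filter_upwards with τ
      rw [norm_mul, norm_mul, hEn, norm_gp, mul_one, mul_one]
  have i3 : Integrable P := by
    refine (h.integrable.norm.const_mul 16).mono' ?_ ?_
    · have ham : Measurable a := h.continuous.measurable
      have hEm : Measurable E := by simp only [hE]; fun_prop
      exact ((((Complex.measurable_ofReal.pow_const 2).mul ham).mul hEm).mul hgm).aestronglyMeasurable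
    · filter_upwards with τ
      simp only [hP]
      rw [norm_mul, norm_mul, hEn, norm_gp, mul_one, mul_one, norm_mul, norm_pow, Complex.norm_real,
        Real.norm_eq_abs, sq_abs]
      by_cases hτ : τ ∈ Icc (1/4 : ℝ) 4
      · have : τ ^ 2 ≤ 16 := by nlinarith [hτ.1, hτ.2]
        gcongr
      · rw [h.eq_zero hτ]; simp
  have i4 : Integrable P' := i1.add (i2.mul_const _)
  have hzero := integral_eq_zero_of_hasDerivAt_of_integrable hder i4 i3
  simp only [hP'] at hzero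
  rw [integral_add i1 (i2.mul_const _), integral_mul_const] at hzero
  unfold Jf
  linear_combination hzero

theorem Jf_decay (n : ℕ) : ∃ C : ℝ, 0 ≤ C ∧ ∀ (Λ : ℝ), 0 < Λ → ∀ (A : ℝ) (a : ℝ → ℂ),
    Bump n A a → ∀ q : ℝ, 0 < q → q ^ n * ‖Jf Λ a q‖ ≤ C * (Λ * (1 + Λ)) ^ n * A := by
  induction n with
  | zero =>
    refine ⟨4, by norm_num, ?_⟩
    intro Λ hΛ A a h q hq
    simpa using norm_Jf_le h Λ q
  | succ n ih =>
    obtain ⟨C, hC, hd⟩ := ih
    obtain ⟨C', hC', hn⟩ := Bump.nxt n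
    refine ⟨C * C' * (2 / Real.pi), by have := Real.pi_pos; positivity, ?_⟩
    intro Λ hΛ A a h q hq
    have hpi := Real.pi_pos
    have h1 := hd Λ hΛ _ _ (hn Λ hΛ A a h) q hq
    have h2 := Jf_parts (h.mono (by omega) le_rfl) hΛ q
    have h3 : ‖Jf Λ a q‖ * (Real.pi * q / (2 * Λ)) = ‖Jf Λ (nxt Λ a) q‖ := by
      have := congrArg norm h2
      rw [norm_mul, norm_neg, norm_div, norm_mul, norm_mul, norm_mul, norm_I, Complex.norm_real,
        Complex.norm_real, Complex.norm_two, Complex.norm_real, Real.norm_of_nonneg hpi.le,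
        Real.norm_of_nonneg hq.le, Real.norm_of_nonneg hΛ.le, mul_one] at this
      exact this
    rw [← h3] at h1
    have h4 : q ^ (n + 1) * ‖Jf Λ a q‖ = (q ^ n * (‖Jf Λ a q‖ * (Real.pi * q / (2 * Λ)))) * (2 * Λ / Real.pi) := by
      field_simp
      ring
    rw [h4]
    calc _ ≤ (C * (Λ * (1 + Λ)) ^ n * (C' * (1 + Λ) * A)) * (2 * Λ / Real.pi) := by gcongr
      _ = _ := by ring

theorem norm_pref3 {Λ : ℝ} (hΛ : 0 < Λ) : ‖(I / (2 * Λ)) ^ (3 / 2 : ℂ)‖ ≤ Λ ^ (-(3/2) : ℝ) := by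
  have e1 : (3 / 2 : ℂ) = ((3 / 2 : ℝ) : ℂ) := by push_cast; rfl
  have e2 : ‖I / (2 * (Λ : ℂ))‖ = 1 / (2 * Λ) := by
    rw [norm_div, norm_I, norm_mul, Complex.norm_two, Complex.norm_real, Real.norm_of_nonneg hΛ.le]
  rw [e1, Complex.norm_cpow_real, e2, Real.rpow_neg hΛ.le, ← Real.inv_rpow hΛ.le]
  apply Real.rpow_le_rpow (by positivity) _ (by norm_num)
  rw [one_div]
  apply inv_anti₀ hΛ
  linarith

theorem k3_decay (n : ℕ) : ∃ C : ℝ, 0 ≤ C ∧ ∀ (Λ : ℝ), 0 < Λ → ∀ (A : ℝ) (θ : ℝ → ℂ),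
    Bump n A θ → ∀ q : ℝ, 0 < q →
    q ^ n * ‖k3 Λ θ q‖ ≤ C * A * (Λ ^ (-(3/2) : ℝ) * (Λ * (1 + Λ)) ^ n) := by
  obtain ⟨C, hC, hd⟩ := Jf_decay n
  obtain ⟨C', hC', hp⟩ := Bump.pw (-(3/2)) n
  refine ⟨C * C', by positivity, ?_⟩
  intro Λ hΛ A θ h q hq
  have h1 := hd Λ hΛ _ _ (hp A θ h) q hq
  have h2 := norm_pref3 hΛ
  have hA := h.nonneg
  rw [k3_eq_Jf h hΛ, norm_mul]
  calc q ^ n * (‖(I / (2 * Λ)) ^ (3 / 2 : ℂ)‖ * ‖Jf Λ (pw θ (-(3/2))) q‖)
      = ‖(I / (2 * Λ)) ^ (3 / 2 : ℂ)‖ * (q ^ n * ‖Jf Λ (pw θ (-(3/2))) q‖) := by ring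
    _ ≤ Λ ^ (-(3/2) : ℝ) * (C * (Λ * (1 + Λ)) ^ n * (C' * A)) := by gcongr
    _ = _ := by ring

/-- splitting the L1 norm in a ball and its complement -/
theorem L1_split (n : ℕ) (hn : 2 ≤ n) : ∃ C : ℝ, 0 ≤ C ∧ ∀ (K : E3 → ℂ), Measurable K →
    ∀ ρ : ℝ, 0 < ρ → ∀ D : ℝ, 0 ≤ D → (∀ x, ρ ≤ ‖x‖ → ‖x‖ ^ (2 * n) * ‖K x‖ ≤ D) →
    ∫⁻ x, ‖K x‖ₑ ≤ (∫⁻ x in Metric.ball (0:E3) ρ, ‖K x‖ₑ) +
      ENNReal.ofReal (C * D * (ρ ^ 3 / ρ ^ (2 * n))) := by
  have hI : Integrable (fun x : E3 => (1 + ‖x‖) ^ (-((2 * n : ℕ) : ℝ))) := by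
    apply integrable_one_add_norm
    have : (4:ℝ) ≤ ((2 * n : ℕ) : ℝ) := by exact_mod_cast (by omega : 4 ≤ 2 * n)
    simp only [finrank_euclideanSpace, Fintype.card_fin, Nat.cast_ofNat]
    linarith
  set J := ∫ x : E3, (1 + ‖x‖) ^ (-((2 * n : ℕ) : ℝ)) with hJ
  have hJ0 : 0 ≤ J := integral_nonneg fun x => by positivity
  refine ⟨2 ^ (2 * n) * J, by positivity, ?_⟩
  intro K hK ρ hρ D hD hfar
  rw [← lintegral_add_compl (fun x => ‖K x‖ₑ) (Metric.isOpen_ball (x := (0:E3)) (ε := ρ)).measurableSet]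
  gcongr
  set g : E3 → ℝ := fun x => (1 + ‖x‖) ^ (-((2 * n : ℕ) : ℝ)) with hg
  have hscale : ∫ x : E3, g (ρ⁻¹ • x) = ρ ^ 3 * J := by
    rw [Measure.integral_comp_smul]
    simp only [finrank_euclideanSpace, Fintype.card_fin]
    rw [abs_of_pos (by positivity), inv_pow, inv_inv, smul_eq_mul]
  have hgi : Integrable (fun x : E3 => g (ρ⁻¹ • x)) := hI.comp_smul (inv_ne_zero hρ.ne')
  calc ∫⁻ x in (Metric.ball (0:E3) ρ)ᶜ, ‖K x‖ₑ
      ≤ ∫⁻ x in (Metric.ball (0:E3) ρ)ᶜ, ENNReal.ofReal (D * (2 ^ (2 * n) / ρ ^ (2 * n)) * g (ρ⁻¹ • x)) := by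
        apply setLIntegral_mono' (Metric.isOpen_ball (x := (0:E3)) (ε := ρ)).measurableSet.compl
        intro x hx
        have hx1 : ρ ≤ ‖x‖ := by simpa using hx
        have hx0 : 0 < ‖x‖ := by linarith
        rw [← ofReal_norm]
        apply ENNReal.ofReal_le_ofReal
        have h1 := hfar x hx1
        simp only [hg]
        rw [norm_smul, norm_inv, Real.norm_of_nonneg hρ.le, Real.rpow_neg (by positivity), Real.rpow_natCast,
          ← div_eq_mul_inv, le_div_iff₀ (by positivity)]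
        have h2 : (1 + ρ⁻¹ * ‖x‖) ^ (2 * n) ≤ (2 / ρ) ^ (2 * n) * ‖x‖ ^ (2 * n) := by
          rw [← mul_pow]
          apply pow_le_pow_left₀ (by positivity)
          have : 1 ≤ ρ⁻¹ * ‖x‖ := by
            rw [← div_eq_inv_mul, le_div_iff₀ hρ]; linarith
          calc 1 + ρ⁻¹ * ‖x‖ ≤ ρ⁻¹ * ‖x‖ + ρ⁻¹ * ‖x‖ := by linarith
            _ = 2 / ρ * ‖x‖ := by ring
        calc ‖K x‖ * (1 + ρ⁻¹ * ‖x‖) ^ (2 * n) ≤ ‖K x‖ * ((2 / ρ) ^ (2 * n) * ‖x‖ ^ (2 * n)) := by gcongr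
          _ = (2 / ρ) ^ (2 * n) * (‖x‖ ^ (2 * n) * ‖K x‖) := by ring
          _ ≤ (2 / ρ) ^ (2 * n) * D := by gcongr
          _ = _ := by rw [div_pow]; ring
    _ ≤ ∫⁻ x, ENNReal.ofReal (D * (2 ^ (2 * n) / ρ ^ (2 * n)) * g (ρ⁻¹ • x)) :=
        setLIntegral_le_lintegral _ _
    _ = ENNReal.ofReal (∫ x, D * (2 ^ (2 * n) / ρ ^ (2 * n)) * g (ρ⁻¹ • x)) := by
        rw [ofReal_integral_eq_lintegral_ofReal (hgi.const_mul _)]
        filter_upwards with x
        simp only [hg, Pi.zero_apply]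
        positivity
    _ = _ := by
        rw [integral_const_mul, hscale]
        congr 1
        ring

theorem near_L2 {K : E3 → ℂ} (hK : Measurable K) (ρ : ℝ) :
    ∫⁻ x in Metric.ball (0:E3) ρ, ‖K x‖ₑ ≤
      (∫⁻ x, ‖K x‖ₑ ^ 2) ^ (1/2 : ℝ) * (volume (Metric.ball (0:E3) ρ)) ^ (1/2 : ℝ) := by
  have h := eLpNorm_le_eLpNorm_mul_rpow_measure_univ (p := 1) (q := 2) (by norm_num)
    (μ := volume.restrict (Metric.ball (0:E3) ρ)) hK.aestronglyMeasurable
  rw [eLpNorm_one_eq_lintegral_enorm, Measure.restrict_apply_univ] at h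
  have e1 : (1 / (1:ℝ≥0∞).toReal - 1 / (2:ℝ≥0∞).toReal) = (1/2 : ℝ) := by
    rw [ENNReal.toReal_one, ENNReal.toReal_ofNat]; norm_num
  rw [e1] at h
  refine h.trans ?_
  gcongr
  rw [eLpNorm_eq_lintegral_rpow_enorm_toReal (by norm_num) (by norm_num), ENNReal.toReal_ofNat]
  have e2 : ∀ x : E3, ‖K x‖ₑ ^ (2:ℝ) = ‖K x‖ₑ ^ 2 := fun x => by
    exact_mod_cast ENNReal.rpow_natCast _ 2
  simp_rw [e2]
  gcongr
  exact Measure.restrict_le_self

theorem k3_eq_inv {Λ : ℝ} (hΛ : 0 < Λ) {A : ℝ} {θ : ℝ → ℂ} (h : Bump 4 A θ) (z : E3) :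
    k3 Λ θ (‖z‖ ^ 2) = 𝓕⁻ (fun ξ : E3 => mult Λ θ (‖ξ‖ ^ 2)) z := by
  rw [T02_k3_eq Λ hΛ A θ h, Real.fourierInv_eq']
  congr 1
  ext ξ
  rw [smul_eq_mul, mul_comm]
  congr 2
  rw [real_inner_comm]
  push_cast; ring

theorem radial_pt {Λ r : ℝ} (hΛ : 1 ≤ Λ) (hr : 0 ≤ r) :
    r ^ 2 * (1 + |Λ * (r ^ 2 - 1)|) ^ (-(4:ℝ)) ≤ jb (Λ * (r - 1)) := by
  unfold jb
  set X := 1 + |Λ * (r ^ 2 - 1)| with hX
  have hX1 : 1 ≤ X := by rw [hX]; linarith [abs_nonneg (Λ * (r ^ 2 - 1))]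
  have hX0 : 0 < X := by linarith
  have h1 : 1 + |Λ * (r - 1)| ≤ X := by
    rw [hX]
    have : |Λ * (r - 1)| ≤ |Λ * (r ^ 2 - 1)| := by
      rw [show Λ * (r ^ 2 - 1) = Λ * (r - 1) * (r + 1) by ring, abs_mul _ (r + 1)]
      apply le_mul_of_one_le_right (abs_nonneg _)
      rw [abs_of_nonneg (by linarith)]; linarith
    linarith
  have h2 : r ^ 2 ≤ X := by
    rw [hX, abs_mul, abs_of_nonneg (by linarith)]
    have h3 : |r ^ 2 - 1| ≤ Λ * |r ^ 2 - 1| := le_mul_of_one_le_left (abs_nonneg _) hΛ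
    have := le_abs_self (r ^ 2 - 1)
    linarith
  have h4 : 0 < 1 + |Λ * (r - 1)| := by positivity
  calc r ^ 2 * X ^ (-(4:ℝ)) ≤ X * X ^ (-(4:ℝ)) := by gcongr
    _ = X ^ (-(3:ℝ)) := by
        conv_lhs => rw [← Real.rpow_one X, ← Real.rpow_mul hX0.le, one_mul]
        rw [← Real.rpow_add hX0]; norm_num
    _ ≤ X ^ (-(2:ℝ)) := Real.rpow_le_rpow_of_exponent_le hX1 (by norm_num)
    _ ≤ (1 + |Λ * (r - 1)|) ^ (-(2:ℝ)) := Real.rpow_le_rpow_of_nonpos h4 h1 (by norm_num)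

theorem radial_int {Λ : ℝ} (hΛ : 1 ≤ Λ) :
    Integrable (fun ξ : E3 => (1 + |Λ * (‖ξ‖ ^ 2 - 1)|) ^ (-(4:ℝ))) ∧
    ∫ ξ : E3, (1 + |Λ * (‖ξ‖ ^ 2 - 1)|) ^ (-(4:ℝ)) ≤
      3 * volume.real (Metric.ball (0:E3) 1) * (∫ η, jb η) / Λ := by
  have hΛ0 : 0 < Λ := by linarith
  have hji : Integrable (fun r : ℝ => jb (Λ * (r - 1))) := by
    have := (integrable_jb.comp_mul_left' hΛ0.ne').comp_sub_right 1
    exact this
  have hjI : ∫ r : ℝ, jb (Λ * (r - 1)) = (∫ η, jb η) / Λ := by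
    have h1 : ∫ r : ℝ, jb (Λ * (r - 1)) = ∫ r : ℝ, jb (Λ * r) :=
      integral_sub_right_eq_self (fun r => jb (Λ * r)) 1
    rw [h1, Measure.integral_comp_mul_left, abs_of_pos (inv_pos.2 hΛ0), smul_eq_mul]
    ring
  have hmeas : Measurable (fun y : ℝ => y ^ 2 * (1 + |Λ * (y ^ 2 - 1)|) ^ (-(4:ℝ))) := by fun_prop
  have hri : IntegrableOn (fun y : ℝ => y ^ 2 * (1 + |Λ * (y ^ 2 - 1)|) ^ (-(4:ℝ))) (Ioi 0) := by
    refine (hji.integrableOn (s := Ioi 0)).mono' hmeas.aestronglyMeasurable ?_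
    filter_upwards [ae_restrict_mem measurableSet_Ioi] with y hy
    rw [Real.norm_of_nonneg (by positivity)]
    exact radial_pt hΛ (le_of_lt hy)
  have hint : Integrable (fun ξ : E3 => (1 + |Λ * (‖ξ‖ ^ 2 - 1)|) ^ (-(4:ℝ))) := by
    have := (integrable_fun_norm_addHaar (volume : Measure E3)
      (f := fun y : ℝ => (1 + |Λ * (y ^ 2 - 1)|) ^ (-(4:ℝ)))).2
    apply this
    simpa using hri
  refine ⟨hint, ?_⟩
  have h2 := integral_fun_norm_addHaar (volume : Measure E3)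
    (fun y : ℝ => (1 + |Λ * (y ^ 2 - 1)|) ^ (-(4:ℝ)))
  rw [h2]
  simp only [finrank_euclideanSpace, Fintype.card_fin, smul_eq_mul, nsmul_eq_mul, Nat.cast_ofNat,
    Nat.add_one_sub_one]
  have h3 : ∫ y in Ioi (0:ℝ), y ^ 2 * (1 + |Λ * (y ^ 2 - 1)|) ^ (-(4:ℝ)) ≤ (∫ η, jb η) / Λ := by
    rw [← hjI]
    calc _ ≤ ∫ y in Ioi (0:ℝ), jb (Λ * (y - 1)) := by
          apply setIntegral_mono_on hri hji.integrableOn measurableSet_Ioi
          intro y hy
          exact radial_pt hΛ (le_of_lt hy)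
      _ ≤ _ := setIntegral_le_integral hji (by filter_upwards with y using jb_nonneg _)
  calc _ ≤ 3 * (volume.real (Metric.ball (0:E3) 1) * ((∫ η, jb η) / Λ)) := by
        gcongr
    _ = _ := by ring

theorem k3_L2 : ∃ C : ℝ, 0 ≤ C ∧ ∀ (Λ : ℝ), 1 ≤ Λ → ∀ (A : ℝ) (θ : ℝ → ℂ), Bump 4 A θ →
    ∫⁻ x : E3, ‖k3 Λ θ (‖x‖ ^ 2)‖ₑ ^ 2 ≤ ENNReal.ofReal ((C * A) ^ 2 / Λ) := by
  obtain ⟨C2, hC2, h2⟩ := T02_mult_bound 2
  have hJ : 0 ≤ ∫ η, jb η := integral_nonneg jb_nonneg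
  set V := 3 * volume.real (Metric.ball (0:E3) 1) * (∫ η, jb η) with hV
  have hV0 : 0 ≤ V := by
    have : 0 ≤ volume.real (Metric.ball (0:E3) 1) := ENNReal.toReal_nonneg
    positivity
  refine ⟨C2 * Real.sqrt V, by positivity, ?_⟩
  intro Λ hΛ A θ h
  have hΛ0 : 0 < Λ := by linarith
  have hA := h.nonneg
  set f : E3 → ℂ := fun ξ => mult Λ θ (‖ξ‖ ^ 2) with hf
  have hfi : Integrable f := integrable_mult (by simp) h hΛ0
  have hfc : Continuous f := (continuous_mult h hΛ0).comp (by fun_prop)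
  obtain ⟨hri, hrb⟩ := radial_int hΛ
  calc ∫⁻ x : E3, ‖k3 Λ θ (‖x‖ ^ 2)‖ₑ ^ 2 = ∫⁻ x : E3, ‖𝓕 f (-x)‖ₑ ^ 2 := by
        congr 1
        ext x
        rw [k3_eq_inv hΛ0 h, Real.fourierInv_eq_fourier_neg]
    _ = ∫⁻ x : E3, ‖𝓕 f x‖ₑ ^ 2 := lintegral_neg_eq_self (fun x : E3 => ‖𝓕 f x‖ₑ ^ 2)
    _ ≤ ∫⁻ x : E3, ‖f x‖ₑ ^ 2 := lintegral_sq_fourier_le hfi hfc.measurable
    _ ≤ ∫⁻ ξ : E3, ENNReal.ofReal ((C2 * A) ^ 2 * (1 + |Λ * (‖ξ‖ ^ 2 - 1)|) ^ (-(4:ℝ))) := by
        apply lintegral_mono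
        intro ξ
        simp only [hf]
        rw [← ofReal_norm, ← ENNReal.ofReal_pow (norm_nonneg _)]
        apply ENNReal.ofReal_le_ofReal
        have h3 := h2 Λ hΛ0 A θ (h.mono (by norm_num) le_rfl) (‖ξ‖ ^ 2)
        have hX : 0 ≤ 1 + |Λ * (‖ξ‖ ^ 2 - 1)| := by positivity
        calc ‖mult Λ θ (‖ξ‖ ^ 2)‖ ^ 2 ≤ (C2 * A * (1 + |Λ * (‖ξ‖ ^ 2 - 1)|) ^ (-((2:ℕ):ℝ))) ^ 2 := by gcongr
          _ = (C2 * A) ^ 2 * ((1 + |Λ * (‖ξ‖ ^ 2 - 1)|) ^ (-((2:ℕ):ℝ))) ^ 2 := by rw [mul_pow]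
          _ = _ := by
            congr 1
            rw [← Real.rpow_natCast, ← Real.rpow_mul hX]
            norm_num
    _ = ENNReal.ofReal (∫ ξ : E3, (C2 * A) ^ 2 * (1 + |Λ * (‖ξ‖ ^ 2 - 1)|) ^ (-(4:ℝ))) := by
        rw [ofReal_integral_eq_lintegral_ofReal (hri.const_mul _)]
        filter_upwards with x
        simp only [Pi.zero_apply]
        positivity
    _ ≤ _ := by
        apply ENNReal.ofReal_le_ofReal
        rw [integral_const_mul]
        calc (C2 * A) ^ 2 * ∫ ξ : E3, (1 + |Λ * (‖ξ‖ ^ 2 - 1)|) ^ (-(4:ℝ)) ≤ (C2 * A) ^ 2 * (V / Λ) := by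
              gcongr
          _ = _ := by
              rw [show C2 * Real.sqrt V * A = (C2 * A) * Real.sqrt V by ring, mul_pow (C2 * A) (Real.sqrt V),
                Real.sq_sqrt hV0]
              ring

theorem vol_ball3 {ρ : ℝ} (hρ : 0 < ρ) : (volume (Metric.ball (0:E3) ρ)) ^ (1/2 : ℝ) =
    ENNReal.ofReal (ρ ^ (3/2:ℝ) * (volume.real (Metric.ball (0:E3) 1)) ^ (1/2:ℝ)) := by
  rw [Measure.addHaar_ball_of_pos _ _ hρ]
  simp only [finrank_euclideanSpace, Fintype.card_fin]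
  have h1 : volume (Metric.ball (0:E3) 1) = ENNReal.ofReal (volume.real (Metric.ball (0:E3) 1)) := by
    rw [Measure.real, ENNReal.ofReal_toReal measure_ball_lt_top.ne]
  rw [h1, ← ENNReal.ofReal_mul (by positivity), ENNReal.ofReal_rpow_of_nonneg (by positivity) (by norm_num),
    Real.mul_rpow (by positivity) (by positivity)]
  congr 2
  rw [← Real.rpow_natCast, ← Real.rpow_mul hρ.le]
  norm_num

theorem k3_meas {M : ℕ} {A : ℝ} {θ : ℝ → ℂ} (h : Bump M A θ) {Λ : ℝ} (hΛ : 0 < Λ) :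
    Continuous (fun x : E3 => k3 Λ θ (‖x‖ ^ 2)) := (continuous_k3 h hΛ).comp (by fun_prop)

theorem far_hyp {n : ℕ} {C : ℝ} (hd : ∀ (Λ : ℝ), 0 < Λ → ∀ (A : ℝ) (θ : ℝ → ℂ),
    Bump n A θ → ∀ q : ℝ, 0 < q →
    q ^ n * ‖k3 Λ θ q‖ ≤ C * A * (Λ ^ (-(3/2) : ℝ) * (Λ * (1 + Λ)) ^ n)) {Λ : ℝ} (hΛ : 0 < Λ)
    {A : ℝ} {θ : ℝ → ℂ} (h : Bump n A θ) {ρ : ℝ} (hρ : 0 < ρ) :
    ∀ x : E3, ρ ≤ ‖x‖ → ‖x‖ ^ (2 * n) * ‖k3 Λ θ (‖x‖ ^ 2)‖ ≤
      C * A * (Λ ^ (-(3/2) : ℝ) * (Λ * (1 + Λ)) ^ n) := by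
  intro x hx
  have h1 := hd Λ hΛ A θ h (‖x‖ ^ 2) (by have : 0 < ‖x‖ := by linarith
                                         positivity)
  rwa [← pow_mul] at h1

theorem k3_L1_small : ∃ (M : ℕ) (C : ℝ), 0 ≤ C ∧ ∀ (Λ : ℝ), 0 < Λ → Λ ≤ 1 → ∀ (A : ℝ) (θ : ℝ → ℂ),
    Bump M A θ → ∫⁻ x : E3, ‖k3 Λ θ (‖x‖ ^ 2)‖ₑ ≤ ENNReal.ofReal (C * A) := by
  obtain ⟨C1, hC1, h1⟩ := k3_decay 2
  obtain ⟨C2, hC2, h2⟩ := L1_split 2 le_rfl
  set v := volume.real (Metric.ball (0:E3) 1) with hv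
  have hv0 : 0 ≤ v := ENNReal.toReal_nonneg
  refine ⟨2, 4 * 2 ^ (3/2:ℝ) * v + C2 * C1 * 4, by positivity, ?_⟩
  intro Λ hΛ hΛ1 A θ h
  have hA := h.nonneg
  set ρ : ℝ := Λ ^ (1/2:ℝ) with hρ
  have hρ0 : 0 < ρ := by positivity
  have h3 := h2 _ (k3_meas h hΛ).measurable ρ hρ0 _ (by positivity) (far_hyp h1 hΛ h hρ0)
  refine h3.trans ?_
  have hρ3 : ρ ^ 3 = Λ ^ (3/2:ℝ) := by
    rw [hρ, ← Real.rpow_natCast, ← Real.rpow_mul hΛ.le]; norm_num
  have near : ∫⁻ x in Metric.ball (0:E3) ρ, ‖k3 Λ θ (‖x‖ ^ 2)‖ₑ ≤ ENNReal.ofReal (4 * 2 ^ (3/2:ℝ) * v * A) := by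
    calc _ ≤ ∫⁻ x in Metric.ball (0:E3) ρ, ENNReal.ofReal (4 * A * (2 / Λ) ^ (3 / 2 : ℝ)) := by
          apply lintegral_mono
          intro x
          simp only
          rw [← ofReal_norm]
          exact ENNReal.ofReal_le_ofReal (norm_k3_le h hΛ _)
      _ = ENNReal.ofReal (4 * A * (2 / Λ) ^ (3 / 2 : ℝ)) * (ENNReal.ofReal (ρ ^ 3) * ENNReal.ofReal v) := by
          rw [setLIntegral_const, Measure.addHaar_ball_of_pos _ _ hρ0]
          simp only [finrank_euclideanSpace, Fintype.card_fin]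
          rw [hv, Measure.real, ENNReal.ofReal_toReal measure_ball_lt_top.ne]
      _ = ENNReal.ofReal (4 * A * (2 / Λ) ^ (3 / 2 : ℝ) * (ρ ^ 3 * v)) := by
          rw [← ENNReal.ofReal_mul (by positivity), ← ENNReal.ofReal_mul (by positivity)]
      _ = _ := by
          congr 1
          rw [hρ3, Real.div_rpow (by norm_num) hΛ.le]
          field_simp
  have far : C2 * (C1 * A * (Λ ^ (-(3/2) : ℝ) * (Λ * (1 + Λ)) ^ 2)) * (ρ ^ 3 / ρ ^ (2 * 2)) ≤
      C2 * C1 * 4 * A := by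
    have e1 : ρ ^ (2 * 2) = Λ ^ (2:ℝ) := by
      rw [hρ, ← Real.rpow_natCast, ← Real.rpow_mul hΛ.le]; norm_num
    have e2 : Λ ^ (-(3/2) : ℝ) * Λ ^ (3/2:ℝ) = 1 := by
      rw [← Real.rpow_add hΛ]; norm_num
    have e3 : Λ ^ (2:ℝ) = Λ ^ 2 := by exact_mod_cast Real.rpow_natCast Λ 2
    rw [hρ3, e1, e3]
    have e4 : C2 * (C1 * A * (Λ ^ (-(3/2) : ℝ) * (Λ * (1 + Λ)) ^ 2)) * (Λ ^ (3/2:ℝ) / Λ ^ 2) =
        C2 * C1 * A * (Λ ^ (-(3/2) : ℝ) * Λ ^ (3/2:ℝ)) * (1 + Λ) ^ 2 := by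
      field_simp
    rw [e4, e2, mul_one]
    have e5 : (1 + Λ) ^ 2 ≤ 4 := by nlinarith
    calc C2 * C1 * A * (1 + Λ) ^ 2 ≤ C2 * C1 * A * 4 := by gcongr
      _ = _ := by ring
  calc _ ≤ ENNReal.ofReal (4 * 2 ^ (3/2:ℝ) * v * A) + ENNReal.ofReal (C2 * C1 * 4 * A) :=
        add_le_add near (ENNReal.ofReal_le_ofReal far)
    _ = _ := by
        rw [← ENNReal.ofReal_add (by positivity) (by positivity)]
        congr 1; ring

theorem k3_L1_large {ε : ℝ} (hε : 0 < ε) : ∃ (M : ℕ) (C : ℝ), 0 ≤ C ∧ ∀ (Λ : ℝ), 1 ≤ Λ →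
    ∀ (A : ℝ) (θ : ℝ → ℂ), Bump M A θ →
    ∫⁻ x : E3, ‖k3 Λ θ (‖x‖ ^ 2)‖ₑ ≤ ENNReal.ofReal (C * A * Λ ^ (1 + ε)) := by
  set e : ℝ := 2 * ε / 3 with he
  have he0 : 0 < e := by positivity
  set n : ℕ := ⌈(1/2 + 3 * e) / (2 * e)⌉₊ + 2 with hn
  have hn2 : 2 ≤ n := by omega
  have hne : 1/2 + 3 * e ≤ 2 * n * e := by
    have h1 := Nat.le_ceil ((1/2 + 3 * e) / (2 * e))
    have h2 : (1/2 + 3 * e) / (2 * e) ≤ (n : ℝ) := by
      refine h1.trans ?_
      rw [hn]; push_cast; linarith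
    rw [div_le_iff₀ (by positivity)] at h2
    linarith
  obtain ⟨C1, hC1, h1⟩ := k3_decay n
  obtain ⟨C2, hC2, h2⟩ := L1_split n hn2
  obtain ⟨C3, hC3, h3⟩ := k3_L2
  set v := volume.real (Metric.ball (0:E3) 1) with hv
  have hv0 : 0 ≤ v := ENNReal.toReal_nonneg
  refine ⟨max n 4, C3 * v ^ (1/2:ℝ) + C2 * C1 * 2 ^ n, by positivity, ?_⟩
  intro Λ hΛ A θ h
  have hΛ0 : 0 < Λ := by linarith
  have hA := h.nonneg
  set ρ : ℝ := Λ ^ (1 + e) with hρ
  have hρ0 : 0 < ρ := by positivity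
  have hbn : Bump n A θ := h.mono (le_max_left _ _) le_rfl
  have hb4 : Bump 4 A θ := h.mono (le_max_right _ _) le_rfl
  have h4 := h2 _ (k3_meas h hΛ0).measurable ρ hρ0 _ (by positivity) (far_hyp h1 hΛ0 hbn hρ0)
  refine h4.trans ?_
  have near : ∫⁻ x in Metric.ball (0:E3) ρ, ‖k3 Λ θ (‖x‖ ^ 2)‖ₑ ≤
      ENNReal.ofReal (C3 * v ^ (1/2:ℝ) * A * Λ ^ (1 + ε)) := by
    refine (near_L2 (k3_meas h hΛ0).measurable ρ).trans ?_
    have h5 := h3 Λ hΛ A θ hb4
    calc _ ≤ (ENNReal.ofReal ((C3 * A) ^ 2 / Λ)) ^ (1/2 : ℝ) * (volume (Metric.ball (0:E3) ρ)) ^ (1/2 : ℝ) := by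
          gcongr
      _ = ENNReal.ofReal (((C3 * A) ^ 2 / Λ) ^ (1/2 : ℝ)) * ENNReal.ofReal (ρ ^ (3/2:ℝ) * v ^ (1/2:ℝ)) := by
          rw [vol_ball3 hρ0, ENNReal.ofReal_rpow_of_nonneg (by positivity) (by norm_num)]
      _ = ENNReal.ofReal (((C3 * A) ^ 2 / Λ) ^ (1/2 : ℝ) * (ρ ^ (3/2:ℝ) * v ^ (1/2:ℝ))) := by
          rw [← ENNReal.ofReal_mul (by positivity)]
      _ = _ := by
          congr 1
          have e1 : ((C3 * A) ^ 2 / Λ) ^ (1/2 : ℝ) = C3 * A * Λ ^ (-(1/2) : ℝ) := by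
            rw [Real.div_rpow (by positivity) hΛ0.le, ← Real.sqrt_eq_rpow, Real.sqrt_sq (by positivity),
              Real.rpow_neg hΛ0.le]
            rfl
          have e2 : ρ ^ (3/2:ℝ) = Λ ^ (3/2 + ε) := by
            rw [hρ, ← Real.rpow_mul hΛ0.le]
            congr 1
            rw [he]; ring
          have e3 : Λ ^ (-(1/2) : ℝ) * Λ ^ (3/2 + ε) = Λ ^ (1 + ε) := by
            rw [← Real.rpow_add hΛ0]
            congr 1; ring
          rw [e1, e2]
          calc C3 * A * Λ ^ (-(1/2) : ℝ) * (Λ ^ (3/2 + ε) * v ^ (1/2:ℝ)) =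
              C3 * v ^ (1/2:ℝ) * A * (Λ ^ (-(1/2) : ℝ) * Λ ^ (3/2 + ε)) := by ring
            _ = _ := by rw [e3]
  have far : C2 * (C1 * A * (Λ ^ (-(3/2) : ℝ) * (Λ * (1 + Λ)) ^ n)) * (ρ ^ 3 / ρ ^ (2 * n)) ≤
      C2 * C1 * 2 ^ n * A * Λ ^ (1 + ε) := by
    have e1 : ρ ^ 3 / ρ ^ (2 * n) = Λ ^ ((1 + e) * (3 - 2 * n)) := by
      rw [hρ, ← Real.rpow_natCast, ← Real.rpow_natCast, ← Real.rpow_mul hΛ0.le, ← Real.rpow_mul hΛ0.le,
        ← Real.rpow_sub hΛ0]
      congr 1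
      push_cast
      ring
    have e2 : (Λ * (1 + Λ)) ^ n ≤ 2 ^ n * Λ ^ (2 * n : ℝ) := by
      have : Λ ^ (2 * n : ℝ) = (Λ * Λ) ^ n := by
        rw [mul_pow, Real.rpow_mul hΛ0.le, ← mul_pow]
        have : Λ ^ (2:ℝ) = Λ * Λ := by
          have := Real.rpow_natCast Λ 2
          push_cast at this
          rw [this]; ring
        rw [this, Real.rpow_natCast]
      rw [this, ← mul_pow]
      apply pow_le_pow_left₀ (by positivity)
      nlinarith
    have e3 : Λ ^ (-(3/2) : ℝ) * Λ ^ (2 * n : ℝ) * Λ ^ ((1 + e) * (3 - 2 * n)) ≤ Λ ^ (1 + ε) := by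
      rw [← Real.rpow_add hΛ0, ← Real.rpow_add hΛ0]
      apply Real.rpow_le_rpow_of_exponent_le hΛ
      have : -(3/2) + 2 * (n:ℝ) + (1 + e) * (3 - 2 * n) = 1 + (1/2 + 3 * e) - 2 * n * e := by ring
      rw [this]
      linarith
    rw [e1]
    calc C2 * (C1 * A * (Λ ^ (-(3/2) : ℝ) * (Λ * (1 + Λ)) ^ n)) * Λ ^ ((1 + e) * (3 - 2 * n))
        ≤ C2 * (C1 * A * (Λ ^ (-(3/2) : ℝ) * (2 ^ n * Λ ^ (2 * n : ℝ)))) * Λ ^ ((1 + e) * (3 - 2 * n)) := by
          gcongr
      _ = C2 * C1 * 2 ^ n * A * (Λ ^ (-(3/2) : ℝ) * Λ ^ (2 * n : ℝ) * Λ ^ ((1 + e) * (3 - 2 * n))) := by ring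
      _ ≤ _ := by gcongr
  calc _ ≤ ENNReal.ofReal (C3 * v ^ (1/2:ℝ) * A * Λ ^ (1 + ε)) +
        ENNReal.ofReal (C2 * C1 * 2 ^ n * A * Λ ^ (1 + ε)) :=
        add_le_add near (ENNReal.ofReal_le_ofReal far)
    _ = _ := by
        rw [← ENNReal.ofReal_add (by positivity) (by positivity)]
        congr 1; ring

end Vale.Agent.P117
end
end

section

section

open MeasureTheory Complex Set
open scoped ENNReal NNReal ContDiff FourierTransform SchwartzMap ComplexConjugate Topology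

namespace Vale.Agent.P117

/-- step function -/
noncomputable def etz (t : ℝ) : ℂ := (Real.smoothTransition (2 - t) : ℂ)

theorem contDiff_etz : ContDiff ℝ ∞ etz := by
  unfold etz
  exact Complex.ofRealCLM.contDiff.comp (Real.smoothTransition.contDiff.comp (by fun_prop))

theorem etz_one {t : ℝ} (h : t ≤ 1) : etz t = 1 := by
  unfold etz; rw [Real.smoothTransition.one_of_one_le (by linarith)]; simp

theorem etz_zero {t : ℝ} (h : 2 ≤ t) : etz t = 0 := by
  unfold etz; rw [Real.smoothTransition.zero_of_nonpos (by linarith)]; simp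

/-- dyadic partition function on the half line -/
noncomputable def chd (t : ℝ) : ℂ := etz t - etz (2 * t)

theorem contDiff_chd : ContDiff ℝ ∞ chd := contDiff_etz.sub (contDiff_etz.comp (by fun_prop))

theorem chd_zero_left {t : ℝ} (h : t ≤ 1/2) : chd t = 0 := by
  unfold chd; rw [etz_one (by linarith), etz_one (by linarith), sub_self]

theorem chd_zero_right {t : ℝ} (h : 2 ≤ t) : chd t = 0 := by
  unfold chd; rw [etz_zero h, etz_zero (by linarith), sub_self]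

theorem chd_supp {t : ℝ} (h : chd t ≠ 0) : t ∈ Icc (1/4:ℝ) 4 := by
  constructor
  · by_contra hc; push Not at hc; exact h (chd_zero_left (by linarith))
  · by_contra hc; push Not at hc; exact h (chd_zero_right (by linarith))

theorem chd_compact : HasCompactSupport chd := by
  apply HasCompactSupport.of_support_subset_isCompact (isCompact_Icc (a := (1/4:ℝ)) (b := 4))
  intro t ht
  exact chd_supp ht

/-- dyadic partition of unity -/
theorem chd_sum {t : ℝ} (ht : 0 < t) : HasSum (fun l : ℤ => chd (t / (2:ℝ) ^ l)) 1 := by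
  set L := Int.log 2 t with hL
  have h1 : (2:ℝ) ^ L ≤ t := by exact_mod_cast (Int.zpow_le_iff_le_log (R := ℝ) (b := 2) (by norm_num) ht).2 le_rfl
  have h2 : t < (2:ℝ) ^ (L + 1) := by
    exact_mod_cast (Int.lt_zpow_iff_log_lt (R := ℝ) (b := 2) (by norm_num) ht).2 (by omega)
  have hz : ∀ l ∉ ({L, L + 1} : Finset ℤ), chd (t / (2:ℝ) ^ l) = 0 := by
    intro l hl
    simp only [Finset.mem_insert, Finset.mem_singleton, not_or] at hl
    have h2l : (0:ℝ) < (2:ℝ) ^ l := by positivity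
    rcases lt_or_ge l L with h | h
    · apply chd_zero_right
      rw [le_div_iff₀ h2l]
      have : (2:ℝ) ^ (l + 1) ≤ (2:ℝ) ^ L := zpow_le_zpow_right₀ (by norm_num) (by omega)
      rw [zpow_add_one₀ (by norm_num)] at this
      linarith
    · have h' : L + 2 ≤ l := by omega
      apply chd_zero_left
      rw [div_le_iff₀ h2l]
      have : (2:ℝ) ^ (L + 2) ≤ (2:ℝ) ^ l := zpow_le_zpow_right₀ (by norm_num) h'
      have e : (2:ℝ) ^ (L + 2) = (2:ℝ) ^ (L + 1) * 2 := by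
        rw [show L + 2 = L + 1 + 1 by ring, zpow_add_one₀ (by norm_num)]
      rw [e] at this
      linarith
  have hs : HasSum (fun l : ℤ => chd (t / (2:ℝ) ^ l)) (∑ l ∈ ({L, L + 1} : Finset ℤ), chd (t / (2:ℝ) ^ l)) :=
    hasSum_sum_of_ne_finset_zero hz
  have hval : ∑ l ∈ ({L, L + 1} : Finset ℤ), chd (t / (2:ℝ) ^ l) = 1 := by
    rw [Finset.sum_pair (by omega)]
    have hp : (0:ℝ) < (2:ℝ) ^ L := by positivity
    have e1 : t / (2:ℝ) ^ (L + 1) = t / (2:ℝ) ^ L / 2 := by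
      rw [zpow_add_one₀ (by norm_num)]; field_simp
    have a1 : 1 ≤ t / (2:ℝ) ^ L := by rw [le_div_iff₀ hp]; linarith
    have a2 : t / (2:ℝ) ^ L ≤ 2 := by
      rw [div_le_iff₀ hp]
      rw [zpow_add_one₀ (by norm_num)] at h2
      linarith
    rw [e1]
    set y := t / (2:ℝ) ^ L with hy
    unfold chd
    rw [show 2 * (y / 2) = y by ring, etz_zero (show 2 ≤ 2 * y by linarith), etz_one (show y / 2 ≤ 1 by linarith)]
    ring
  rw [hval] at hs
  exact hs

/-- derivatives of the power -/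
theorem iteratedDeriv_cpow (a : ℂ) (L : ℝ) (n : ℕ) : ∀ t : ℝ,
    iteratedDeriv n (fun τ : ℝ => (1 - I * (L * τ) : ℂ) ^ a) t =
      (∏ j ∈ Finset.range n, (a - j)) * (-I * L) ^ n * (1 - I * (L * t)) ^ (a - n) := by
  have hsl : ∀ t : ℝ, (1 - I * (L * t) : ℂ) ∈ slitPlane := by
    intro t
    left
    simp
  induction n with
  | zero => intro t; simp
  | succ n ih =>
    intro t
    rw [iteratedDeriv_succ]
    have h1 : iteratedDeriv n (fun τ : ℝ => (1 - I * (L * τ) : ℂ) ^ a) =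
        fun s : ℝ => (∏ j ∈ Finset.range n, (a - j)) * (-I * L) ^ n * (1 - I * (L * s)) ^ (a - n) := by
      ext s; exact ih s
    rw [h1]
    have h2 : HasDerivAt (fun w : ℂ => 1 - I * (L * w)) (-I * L) (t : ℂ) := by
      have h3 := (((hasDerivAt_id (t : ℂ)).const_mul (L : ℂ)).const_mul I).const_sub 1
      refine h3.congr_deriv ?_
      ring
    have h4 := ((h2.cpow_const (c := a - n) (hsl t)).comp_ofReal).const_mul
      ((∏ j ∈ Finset.range n, (a - j)) * (-I * L) ^ n)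
    rw [h4.deriv, Finset.prod_range_succ]
    have e : a - (n : ℂ) - 1 = a - ((n + 1 : ℕ) : ℂ) := by push_cast; ring
    rw [e]
    ring

theorem contDiff_cpow (a : ℂ) (L : ℝ) : ContDiff ℝ ∞ (fun τ : ℝ => (1 - I * (L * τ) : ℂ) ^ a) := by
  have hsl : ∀ t : ℝ, (1 - I * (L * t) : ℂ) ∈ slitPlane := by
    intro t
    left
    simp
  have e : (fun τ : ℝ => (1 - I * (L * τ) : ℂ) ^ a) = fun τ : ℝ => cexp (Complex.log (1 - I * (L * τ)) * a) := by
    ext τ
    rw [Complex.cpow_def_of_ne_zero (slitPlane_ne_zero (hsl τ))]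
  rw [e]
  apply ContDiff.cexp
  apply ContDiff.mul _ contDiff_const
  rw [contDiff_iff_contDiffAt]
  intro t
  have h1 : ContDiffAt ℝ ∞ Complex.log (1 - I * (L * t) : ℂ) :=
    (Complex.contDiffAt_log (n := ∞) (hsl t)).restrict_scalars ℝ
  have h2 : ContDiffAt ℝ ∞ (fun τ : ℝ => (1 - I * (L * τ) : ℂ)) t := by
    apply ContDiffAt.sub contDiffAt_const
    apply ContDiffAt.mul contDiffAt_const
    apply ContDiffAt.mul contDiffAt_const
    exact Complex.ofRealCLM.contDiff.contDiffAt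
  exact h1.comp t h2

theorem norm_one_sub (y : ℝ) : ‖(1 - I * y : ℂ)‖ = Real.sqrt (1 + y ^ 2) := by
  have := norm_one_add (-y)
  rw [neg_sq] at this
  rw [← this]
  congr 1
  push_cast; ring

/-- bound for the scaled derivatives -/
theorem cpow_DB {s : ℝ} (hs : 1 < s) (M : ℕ) : ∃ C : ℝ, 0 ≤ C ∧ ∀ (L : ℝ), 0 < L →
    ∀ t ∈ Icc (1/4:ℝ) 4, DB M (C * min 1 (L ^ (-s))) (fun τ : ℝ => (1 - I * (L * τ) : ℂ) ^ (-(s:ℂ))) t := by
  refine ⟨(s + M) ^ M * 4 ^ M * 4 ^ s, by positivity, ?_⟩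
  intro L hL t ht n hn
  have ht0 : 0 < t := by linarith [ht.1]
  rw [norm_iteratedFDeriv_eq_norm_iteratedDeriv, iteratedDeriv_cpow, norm_mul, norm_mul]
  have hMn : (n : ℝ) ≤ M := by exact_mod_cast hn
  have hM0 : (0:ℝ) ≤ M := by positivity
  have h0 : (1:ℝ) ≤ s + M := by linarith
  have b1 : ‖∏ j ∈ Finset.range n, (-(s:ℂ) - j)‖ ≤ (s + M) ^ M := by
    rw [norm_prod]
    calc ∏ j ∈ Finset.range n, ‖-(s:ℂ) - j‖ ≤ ∏ _j ∈ Finset.range n, (s + M) := by
          apply Finset.prod_le_prod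
          · intro _ _; exact norm_nonneg _
          · intro j hj
            have hj' : (j : ℝ) ≤ M := by
              have := Finset.mem_range.1 hj
              exact_mod_cast (by omega : j ≤ M)
            refine (norm_sub_le _ _).trans ?_
            have h4 : ‖(j : ℂ)‖ = j := by simp
            rw [h4, norm_neg, Complex.norm_real, Real.norm_of_nonneg (by linarith)]
            linarith
      _ = (s + M) ^ n := by simp
      _ ≤ _ := pow_le_pow_right₀ h0 hn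
  set R := ‖(1 - I * (L * t) : ℂ)‖ with hR
  have hRe : R = Real.sqrt (1 + (L * t) ^ 2) := by
    rw [hR]
    have := norm_one_sub (L * t)
    push_cast at this
    exact this
  have hR1 : 1 ≤ R := by
    rw [hRe]
    rw [Real.one_le_sqrt]
    nlinarith [sq_nonneg (L * t)]
  have hRL : L / 4 ≤ R := by
    rw [hRe]
    apply Real.le_sqrt_of_sq_le
    have : L / 4 ≤ L * t := by nlinarith [ht.1]
    have h5 : 0 ≤ L / 4 := by positivity
    nlinarith
  have hR0 : 0 < R := by linarith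
  have b2 : ‖(-I * L : ℂ) ^ n‖ = L ^ n := by
    rw [norm_pow, norm_mul, norm_neg, norm_I, Complex.norm_real, Real.norm_of_nonneg hL.le, one_mul]
  have b3 : ‖(1 - I * (L * t) : ℂ) ^ (-(s:ℂ) - n)‖ = R ^ (-s) * (R ^ n)⁻¹ := by
    have e : (-(s:ℂ) - n) = ((-s - n : ℝ) : ℂ) := by push_cast; rfl
    rw [e, Complex.norm_cpow_real, ← hR, Real.rpow_sub hR0, Real.rpow_natCast, div_eq_mul_inv]
  rw [b2, b3]
  have b4 : L ^ n * (R ^ n)⁻¹ ≤ 4 ^ M := by
    rw [← div_eq_mul_inv, ← div_pow]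
    calc (L / R) ^ n ≤ 4 ^ n := by
          apply pow_le_pow_left₀ (by positivity)
          rw [div_le_iff₀ hR0]; linarith
      _ ≤ 4 ^ M := pow_le_pow_right₀ (by norm_num) hn
  have b5 : R ^ (-s) ≤ 4 ^ s * min 1 (L ^ (-s)) := by
    rw [mul_min_of_nonneg _ _ (by positivity), mul_one]
    apply le_min
    · calc R ^ (-s) ≤ 1 := Real.rpow_le_one_of_one_le_of_nonpos hR1 (by linarith)
        _ ≤ 4 ^ s := Real.one_le_rpow (by norm_num) (by linarith)
    · calc R ^ (-s) ≤ (L / 4) ^ (-s) := Real.rpow_le_rpow_of_nonpos (by positivity) hRL (by linarith)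
        _ = 4 ^ s * L ^ (-s) := by
            rw [Real.div_rpow hL.le (by norm_num), Real.rpow_neg (by norm_num : (0:ℝ) ≤ 4)]
            field_simp
  calc ‖∏ j ∈ Finset.range n, (-(s:ℂ) - j)‖ * L ^ n * (R ^ (-s) * (R ^ n)⁻¹)
      = ‖∏ j ∈ Finset.range n, (-(s:ℂ) - j)‖ * (L ^ n * (R ^ n)⁻¹) * R ^ (-s) := by ring
    _ ≤ (s + M) ^ M * 4 ^ M * (4 ^ s * min 1 (L ^ (-s))) := by gcongr
    _ = _ := by ring

/-- time piece -/
noncomputable def thl (s : ℝ) (l : ℤ) (τ : ℝ) : ℂ :=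
  (((2:ℝ) ^ l : ℝ) : ℂ) * (𝓕 (phs s) 0 * (1 - I * ((((2:ℝ) ^ l : ℝ) : ℂ) * τ)) ^ (-(s:ℂ))) * chd τ

/-- size of a time piece -/
noncomputable def aml (s : ℝ) (l : ℤ) : ℝ := (2:ℝ) ^ l * min 1 (((2:ℝ) ^ l) ^ (-s))

theorem aml_nonneg (s : ℝ) (l : ℤ) : 0 ≤ aml s l := by unfold aml; positivity

theorem thl_bump {s : ℝ} (hs : 1 < s) (M : ℕ) : ∃ C : ℝ, 0 ≤ C ∧ ∀ l : ℤ, Bump M (C * aml s l) (thl s l) := by
  obtain ⟨C1, hC1, h1⟩ := cpow_DB hs M
  obtain ⟨C2, hC2, h2⟩ := DB.exists_of_compact contDiff_chd chd_compact M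
  refine ⟨2 ^ M * (‖𝓕 (phs s) 0‖ * C1) * C2, by positivity, ?_⟩
  intro l
  set L : ℝ := (2:ℝ) ^ l with hL
  have hL0 : 0 < L := by positivity
  set c : ℂ := (L : ℂ) * 𝓕 (phs s) 0 with hc
  have e : thl s l = fun τ => c * ((1 - I * ((L : ℂ) * τ)) ^ (-(s:ℂ)) * chd τ) := by
    ext τ
    unfold thl
    rw [hc]; ring
  have hcd : ContDiff ℝ ∞ (fun τ : ℝ => (1 - I * ((L : ℂ) * τ)) ^ (-(s:ℂ)) * chd τ) :=
    (contDiff_cpow _ L).mul contDiff_chd
  have hsupp : ∀ t : ℝ, (1 - I * ((L : ℂ) * t)) ^ (-(s:ℂ)) * chd t ≠ 0 → t ∈ Icc (1/4:ℝ) 4 :=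
    fun t ht => chd_supp (right_ne_zero_of_mul ht)
  have hb : Bump M (2 ^ M * (C1 * min 1 (L ^ (-s))) * C2) (fun τ : ℝ => (1 - I * ((L : ℂ) * τ)) ^ (-(s:ℂ)) * chd τ) := by
    refine ⟨hcd, hsupp, ?_⟩
    intro i hi t
    by_cases ht : t ∈ Icc (1/4:ℝ) 4
    · have h3 := DB.mul (contDiff_cpow (-(s:ℂ)) L) contDiff_chd (h1 L hL0 t ht) (h2 t) i hi
      rw [norm_iteratedFDeriv_eq_norm_iteratedDeriv] at h3
      exact h3
    · have hz : (fun τ : ℝ => (1 - I * ((L : ℂ) * τ)) ^ (-(s:ℂ)) * chd τ) =ᶠ[𝓝 t] 0 := by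
        filter_upwards [isClosed_Icc.isOpen_compl.mem_nhds ht] with v hv
        by_contra h0
        exact hv (hsupp v h0)
      have h3 := Filter.EventuallyEq.iteratedDeriv_eq i hz
      rw [h3]
      simp
      positivity
  rw [e]
  refine (hb.const_mul c).mono le_rfl (le_of_eq ?_)
  rw [hc, norm_mul, Complex.norm_real, Real.norm_of_nonneg hL0.le]
  unfold aml
  rw [← hL]
  ring

end Vale.Agent.P117
end
end

section

section

open MeasureTheory Complex Set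
open scoped ENNReal NNReal ContDiff FourierTransform SchwartzMap ComplexConjugate Topology

namespace Vale.Agent.P117

theorem conj_phs (s u : ℝ) : conj (phs s u) = phs s u := by
  unfold phs
  split_ifs
  · exact Complex.conj_ofReal _
  · exact map_zero _

theorem conj_fourier_zero (s : ℝ) : conj (𝓕 (phs s) 0) = 𝓕 (phs s) 0 := by
  have h : 𝓕 (phs s) 0 = ∫ u, phs s u := by
    rw [Real.fourier_real_eq]
    congr 1
    ext v
    simp
  rw [h, ← integral_conj]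
  congr 1
  ext u
  exact conj_phs s u

theorem conj_cpow_one (s t : ℝ) : conj ((1 - I * t : ℂ) ^ (-(s:ℂ))) = (1 + I * t : ℂ) ^ (-(s:ℂ)) := by
  have hz : (1 - I * t : ℂ).arg ≠ Real.pi := by
    have : (1 - I * t : ℂ) ∈ slitPlane := by left; simp
    exact (Complex.mem_slitPlane_iff_arg.1 this).1
  have h := Complex.conj_cpow (1 - I * t : ℂ) (-(s:ℂ)) hz
  have e1 : conj (-(s:ℂ)) = -(s:ℂ) := by rw [map_neg, Complex.conj_ofReal]
  have e2 : conj (1 - I * t : ℂ) = 1 + I * t := by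
    rw [map_sub, map_mul, Complex.conj_ofReal, Complex.conj_I, map_one]; ring
  rw [e1, e2] at h
  exact h.symm

/-- half of the frequency representation -/
noncomputable def Pm (s q : ℝ) : ℂ :=
  ∫ t in Ioi (0:ℝ), 𝓕 (phs s) 0 * (1 - I * t) ^ (-(s:ℂ)) * cexp (2 * Real.pi * I * t * (q - 1))

theorem Pm_integrable {s : ℝ} (hs : 1 < s) (q : ℝ) :
    Integrable (fun t : ℝ => 𝓕 (phs s) 0 * (1 - I * t) ^ (-(s:ℂ)) * cexp (2 * Real.pi * I * t * (q - 1))) := by
  have h1 := (integrable_cpow_phs hs).const_mul (𝓕 (phs s) 0)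
  refine h1.norm.mono' ?_ ?_
  · apply Measurable.aestronglyMeasurable
    fun_prop
  · filter_upwards with t
    rw [norm_mul, norm_mul, norm_mul, ← conj_cpow_one, RCLike.norm_conj]
    have : ‖cexp (2 * Real.pi * I * t * (q - 1))‖ = 1 := by
      have e : (2 * Real.pi * I * t * (q - 1) : ℂ) = ((2 * Real.pi * t * (q - 1) : ℝ) : ℂ) * I := by
        push_cast; ring
      rw [e, Complex.norm_exp_ofReal_mul_I]
    rw [this, mul_one]

theorem Pm_add_conj {s : ℝ} (hs : 1 < s) (q : ℝ) : Pm s q + conj (Pm s q) = phs s (1 - q) := by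
  have hinv := phs_inv hs (1 - q)
  set g : ℝ → ℂ := fun t => cexp (2 * Real.pi * I * t * ((1 - q : ℝ) : ℂ)) *
    (𝓕 (phs s) 0 * (1 + I * t) ^ (-(s : ℂ))) with hg
  have hgi : Integrable g := by
    have h1 := (integrable_cpow_phs hs).const_mul (𝓕 (phs s) 0)
    refine h1.norm.mono' ?_ ?_
    · apply Measurable.aestronglyMeasurable
      simp only [hg]
      fun_prop
    · filter_upwards with t
      simp only [hg]
      rw [norm_mul]
      have : ‖cexp (2 * Real.pi * I * t * ((1 - q : ℝ) : ℂ))‖ = 1 := by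
        have e : (2 * Real.pi * I * t * ((1 - q : ℝ) : ℂ) : ℂ) = ((2 * Real.pi * t * (1 - q) : ℝ) : ℂ) * I := by
          push_cast; ring
        rw [e, Complex.norm_exp_ofReal_mul_I]
      rw [this, one_mul]
  have hsplit : ∫ t, g t = (∫ t in Ioi (0:ℝ), g t) + ∫ t in Iic (0:ℝ), g t := by
    have h := integral_add_compl (s := Ioi (0:ℝ)) measurableSet_Ioi hgi
    rw [compl_Ioi] at h
    exact h.symm
  have h1 : ∫ t in Ioi (0:ℝ), g t = conj (Pm s q) := by
    unfold Pm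
    rw [← integral_conj]
    congr 1
    ext t
    simp only [hg]
    rw [map_mul, map_mul, conj_fourier_zero, conj_cpow_one, ← Complex.exp_conj]
    have e : conj (2 * Real.pi * I * t * (q - 1) : ℂ) = 2 * Real.pi * I * t * ((1 - q : ℝ) : ℂ) := by
      simp only [map_mul, map_sub, Complex.conj_ofReal, Complex.conj_I, map_one, Complex.conj_ofNat]
      push_cast; ring
    rw [e]; ring
  have h2 : ∫ t in Iic (0:ℝ), g t = Pm s q := by
    have h3 := integral_comp_neg_Ioi (0:ℝ) g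
    rw [neg_zero] at h3
    rw [← h3]
    unfold Pm
    congr 1
    ext t
    simp only [hg]
    push_cast
    have e1 : (1 + I * -(t:ℂ)) = 1 - I * t := by ring
    have e2 : (2 * Real.pi * I * -(t:ℂ) * (1 - q) : ℂ) = 2 * Real.pi * I * t * (q - 1) := by ring
    rw [e1, e2]; ring
  rw [hinv, hsplit, h1, h2]
  ring

/-- real dyadic function -/
noncomputable def chr (t : ℝ) : ℝ := Real.smoothTransition (2 - t) - Real.smoothTransition (2 - 2 * t)

theorem chd_eq (t : ℝ) : chd t = (chr t : ℂ) := by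
  unfold chd chr etz
  push_cast; rfl

theorem chr_nonneg {t : ℝ} (ht : 0 ≤ t) : 0 ≤ chr t := by
  unfold chr
  have := Real.smoothTransition.monotone (show 2 - 2 * t ≤ 2 - t by linarith)
  linarith

theorem chr_sum {t : ℝ} (ht : 0 < t) : HasSum (fun l : ℤ => chr (t / (2:ℝ) ^ l)) 1 := by
  have h := chd_sum ht
  simp_rw [chd_eq] at h
  rw [← Complex.ofReal_one] at h
  exact Complex.hasSum_ofReal.1 h

theorem mult_thl {s : ℝ} (l : ℤ) (q : ℝ) : mult ((2:ℝ) ^ l) (thl s l) q =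
    ∫ t in Ioi (0:ℝ), (𝓕 (phs s) 0 * (1 - I * t) ^ (-(s:ℂ)) * cexp (2 * Real.pi * I * t * (q - 1))) *
      chd (t / (2:ℝ) ^ l) := by
  unfold mult
  congr 1
  ext t
  unfold thl
  have hL : (((2:ℝ) ^ l : ℝ) : ℂ) ≠ 0 := by
    exact_mod_cast (by positivity : (0:ℝ) < (2:ℝ) ^ l).ne'
  have e : (((2:ℝ) ^ l : ℝ) : ℂ) * ((t / (2:ℝ) ^ l : ℝ) : ℂ) = t := by
    rw [← Complex.ofReal_mul]
    congr 1
    field_simp
  rw [e]
  field_simp

theorem mult_hasSum {s : ℝ} (hs : 1 < s) (q : ℝ) :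
    HasSum (fun l : ℤ => mult ((2:ℝ) ^ l) (thl s l) q) (Pm s q) := by
  simp_rw [mult_thl]
  unfold Pm
  set g : ℝ → ℂ := fun t => 𝓕 (phs s) 0 * (1 - I * t) ^ (-(s:ℂ)) * cexp (2 * Real.pi * I * t * (q - 1)) with hg
  have hgi : Integrable g := Pm_integrable hs q
  have hgm : Measurable g := by
    simp only [hg]
    fun_prop
  have hcm : Measurable chd := contDiff_chd.continuous.measurable
  apply hasSum_integral_of_dominated_convergence (bound := fun (l : ℤ) (t : ℝ) => ‖g t‖ * chr (t / (2:ℝ) ^ l))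
  · intro l
    exact (hgm.mul (hcm.comp (by fun_prop))).aestronglyMeasurable
  · intro l
    filter_upwards [ae_restrict_mem measurableSet_Ioi] with t ht
    have ht0 : 0 < t := ht
    rw [norm_mul, chd_eq, Complex.norm_real, Real.norm_of_nonneg (chr_nonneg (by positivity))]
  · filter_upwards [ae_restrict_mem measurableSet_Ioi] with t ht
    exact ((chr_sum ht).summable).mul_left _
  · refine (hgi.norm.integrableOn (s := Ioi 0)).congr ?_
    filter_upwards [ae_restrict_mem measurableSet_Ioi] with t ht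
    rw [((chr_sum ht).mul_left ‖g t‖).tsum_eq, mul_one]
  · filter_upwards [ae_restrict_mem measurableSet_Ioi] with t ht
    have := (chd_sum ht).mul_left (g t)
    rwa [mul_one] at this

theorem mult_full_hasSum {s : ℝ} (hs : 1 < s) (q : ℝ) :
    HasSum (fun l : ℤ => mult ((2:ℝ) ^ l) (thl s l) q + conj (mult ((2:ℝ) ^ l) (thl s l) q))
      (phs s (1 - q)) := by
  rw [← Pm_add_conj hs q]
  exact (mult_hasSum hs q).add (Complex.hasSum_conj'.2 (mult_hasSum hs q))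

/-- summability of the sizes with a geometric weight -/
theorem aml_summable {s e : ℝ} (he : 0 ≤ e) (hse : e < s - 1) :
    Summable (fun l : ℤ => aml s l * max 1 (((2:ℝ) ^ l) ^ e)) := by
  set r : ℝ := max (1/2) ((2:ℝ) ^ (-(s - 1 - e))) with hr
  have hr0 : 0 ≤ r := le_max_of_le_left (by norm_num)
  have hr1 : r < 1 := by
    apply max_lt (by norm_num)
    apply Real.rpow_lt_one_of_one_lt_of_neg (by norm_num) (by linarith)
  refine Summable.of_nonneg_of_le (fun l => ?_) (fun l => ?_) (summable_kz hr0 hr1)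
  · exact mul_nonneg (aml_nonneg s l) (le_max_of_le_left zero_le_one)
  · unfold aml kz
    rcases le_total 0 l with h | h
    · obtain ⟨n, hn⟩ := Int.eq_ofNat_of_zero_le h
      have hL1 : (1:ℝ) ≤ (2:ℝ) ^ l := one_le_zpow₀ (by norm_num) h
      have hL0 : (0:ℝ) < (2:ℝ) ^ l := by positivity
      have e1 : max 1 (((2:ℝ) ^ l) ^ e) = ((2:ℝ) ^ l) ^ e := max_eq_right (Real.one_le_rpow hL1 he)
      rw [e1]
      calc (2:ℝ) ^ l * min 1 (((2:ℝ) ^ l) ^ (-s)) * ((2:ℝ) ^ l) ^ e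
          ≤ (2:ℝ) ^ l * ((2:ℝ) ^ l) ^ (-s) * ((2:ℝ) ^ l) ^ e := by
            have := min_le_right 1 (((2:ℝ) ^ l) ^ (-s))
            gcongr
        _ = ((2:ℝ) ^ l) ^ (-(s - 1 - e)) := by
            conv_lhs => rw [← Real.rpow_one ((2:ℝ) ^ l), ← Real.rpow_mul hL0.le, ← Real.rpow_mul hL0.le]
            rw [one_mul, one_mul, ← Real.rpow_add hL0, ← Real.rpow_add hL0]
            congr 1; ring
        _ = ((2:ℝ) ^ (-(s - 1 - e))) ^ l.natAbs := by
            rw [hn, zpow_natCast, Int.natAbs_natCast, ← Real.rpow_natCast, ← Real.rpow_natCast,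
              ← Real.rpow_mul (by norm_num), ← Real.rpow_mul (by norm_num), mul_comm]
        _ ≤ r ^ l.natAbs := by
            apply pow_le_pow_left₀ (by positivity)
            exact le_max_right _ _
    · obtain ⟨n, hn⟩ := Int.eq_ofNat_of_zero_le (show 0 ≤ -l by omega)
      have hl : l = -n := by omega
      have hL0 : (0:ℝ) < (2:ℝ) ^ l := by positivity
      have hL1 : (2:ℝ) ^ l ≤ 1 := zpow_le_one_of_nonpos₀ (by norm_num) h
      have e1 : max 1 (((2:ℝ) ^ l) ^ e) = 1 := max_eq_left (Real.rpow_le_one hL0.le hL1 he)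
      rw [e1, mul_one]
      calc (2:ℝ) ^ l * min 1 (((2:ℝ) ^ l) ^ (-s)) ≤ (2:ℝ) ^ l * 1 := by
            have := min_le_left 1 (((2:ℝ) ^ l) ^ (-s))
            gcongr
        _ = (1/2) ^ l.natAbs := by
            rw [mul_one, hl, zpow_neg, zpow_natCast, Int.natAbs_neg, Int.natAbs_natCast, one_div, inv_pow]
        _ ≤ r ^ l.natAbs := by
            apply pow_le_pow_left₀ (by positivity)
            exact le_max_left _ _

end Vale.Agent.P117
end
end

section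

section

open MeasureTheory Complex Set
open scoped ENNReal NNReal ContDiff FourierTransform SchwartzMap ComplexConjugate Topology

namespace Vale.Agent.P117

theorem conj_sum {p q : ℝ≥0∞} (h : p⁻¹ + q⁻¹ = 1) : (1 / p).toReal + (1 / q).toReal = 1 := by
  have h1 : p⁻¹ ≠ ⊤ := by
    intro h0; rw [h0, top_add] at h; exact ENNReal.top_ne_one h
  have h2 : q⁻¹ ≠ ⊤ := by
    intro h0; rw [h0, add_top] at h; exact ENNReal.top_ne_one h
  rw [one_div, one_div, ← ENNReal.toReal_add h1 h2, h, ENNReal.toReal_one]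

theorem one_le_of_conj {p q : ℝ≥0∞} (h : p⁻¹ + q⁻¹ = 1) : 1 ≤ p := by
  rw [← ENNReal.inv_le_one, ← h]
  exact le_self_add

theorem conj_eq {P : ℝ} (hP : 1 < P) {q : ℝ≥0∞} (h : (ENNReal.ofReal P)⁻¹ + q⁻¹ = 1) :
    q = ENNReal.ofReal (P / (P - 1)) := by
  have hP0 : 0 < P := by linarith
  have hq := conj_sum h
  rw [toReal_inv_ofReal hP0] at hq
  have h1 : (1 / q).toReal = (P - 1) / P := by
    have : (1 / q).toReal = 1 - 1 / P := by linarith
    rw [this]; field_simp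
  have h2 : q⁻¹ ≠ ⊤ := by
    intro h0; rw [h0, add_top] at h; exact ENNReal.top_ne_one h
  have h3 : q⁻¹ = (ENNReal.ofReal (P / (P - 1)))⁻¹ := by
    rw [one_div] at h1
    rw [← ENNReal.ofReal_toReal h2, h1, ← ENNReal.ofReal_inv_of_pos (div_pos hP0 (by linarith)), inv_div]
  exact inv_injective h3

/-- Young inequality for forms -/
theorem young_Form3 {k : ℝ → ℂ} (hk : Continuous k) {B : ℝ} (hB : 0 ≤ B)
    (hL : ∫⁻ x : E3, ‖k (‖x‖ ^ 2)‖ₑ ≤ ENNReal.ofReal B) {p q : ℝ≥0∞} (hpq : p⁻¹ + q⁻¹ = 1) (m : ℤ)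
    {F G : ℝ × ℝ → ℂ} (hF : Adm nu F) (hG : Adm nu G) :
    ‖Form3 k m F G‖ ≤ B * nrm p F nu * nrm q G nu := by
  have hp1 := one_le_of_conj hpq
  have hq1 : 1 ≤ q := one_le_of_conj (by rwa [add_comm] at hpq)
  have hK : Continuous (fun x : E3 => k (‖x‖ ^ 2)) := hk.comp (by fun_prop)
  have hf := hF.cyl_ph m
  have hg := hG.cyl_ph (-m)
  rw [Form3_eq_BK]
  unfold BK
  have hfm : Measurable (lft m F) := hf.meas
  have h1 : eLpNorm (cv (fun x : E3 => k (‖x‖ ^ 2)) (lft m F)) p volume ≤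
      ENNReal.ofReal (B * nrm p F nu) := by
    refine (young_L1 hK.measurable hfm p hp1).trans ?_
    rw [ENNReal.ofReal_mul hB]
    gcongr
    rw [hF.ofReal_nrm hp1]
    exact eLpNorm_cyl_ph_le hF.meas m p
  have hmeas : AEStronglyMeasurable (cv (fun x : E3 => k (‖x‖ ^ 2)) (lft m F)) volume := by
    unfold cv
    apply StronglyMeasurable.aestronglyMeasurable
    apply StronglyMeasurable.integral_prod_right' (f := fun z : E3 × E3 =>
      (fun x : E3 => k (‖x‖ ^ 2)) (z.1 - z.2) * lft m F z.2)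
    apply Measurable.stronglyMeasurable
    have := hK.measurable
    exact (this.comp (by fun_prop)).mul (hfm.comp measurable_snd)
  have h2 := norm_integral_mul_le hmeas hg p q hpq hq1 (mul_nonneg hB nrm_nonneg) h1
  refine h2.trans ?_
  have h3 := nrm_cyl_ph_le hG (-m) hq1
  have n1 : 0 ≤ nrm p F nu := nrm_nonneg
  gcongr

theorem log_bound {e : ℝ} (he : 0 < e) {Λ : ℝ} (hΛ : 1 ≤ Λ) : 1 + Real.log Λ ≤ (1 + 1 / e) * Λ ^ e := by
  have h1 := Real.log_le_rpow_div (by linarith : 0 ≤ Λ) he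
  have h2 : 1 ≤ Λ ^ e := Real.one_le_rpow hΛ he.le
  calc 1 + Real.log Λ ≤ Λ ^ e + Λ ^ e / e := by linarith
    _ = _ := by ring

/-- small exponents -/
theorem form_small {P : ℝ} (hP2 : 2 ≤ P) (hP3 : P < 3) {e : ℝ} (he : 0 < e) :
    ∃ (M K : ℕ) (C : ℝ), 0 ≤ C ∧
    ∀ (Λ : ℝ), 1 ≤ Λ → ∀ (A : ℝ) (θ : ℝ → ℂ), Bump M A θ → ∀ (m : ℤ) (F G : ℝ × ℝ → ℂ),
    Adm nu F → Adm nu G →
    ‖Form3 (k3 Λ θ) m F G‖ ≤ C * A * (1 + |(m:ℝ)|) ^ K * Λ ^ e *
      nrm (ENNReal.ofReal P) F nu * nrm (ENNReal.ofReal (P / (P - 1))) G nu := by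
  obtain ⟨M, K, C, hC, h⟩ := T12_scale P hP2 hP3
  refine ⟨M, K, C * (1 + 1 / e), by positivity, ?_⟩
  intro Λ hΛ A θ hθ m F G hF hG
  have h1 := h Λ hΛ A θ hθ m F G hF hG
  have h2 := log_bound he hΛ
  have hA := hθ.nonneg
  have n1 : 0 ≤ nrm (ENNReal.ofReal P) F nu := nrm_nonneg
  have n2 : 0 ≤ nrm (ENNReal.ofReal (P / (P - 1))) G nu := nrm_nonneg
  calc _ ≤ C * A * ((1 + 1 / e) * Λ ^ e) * (1 + |(m:ℝ)|) ^ K *
      nrm (ENNReal.ofReal P) F nu * nrm (ENNReal.ofReal (P / (P - 1))) G nu := by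
        refine h1.trans ?_
        gcongr
    _ = _ := by ring

theorem rpow_interp {X Λ e0 e1 t : ℝ} (hX : 0 ≤ X) (hΛ : 0 < Λ) :
    (X * Λ ^ e0) ^ (1 - t) * (X * Λ ^ e1) ^ t = X * Λ ^ (e0 * (1 - t) + e1 * t) := by
  rw [Real.mul_rpow hX (by positivity), Real.mul_rpow hX (by positivity),
    ← Real.rpow_mul hΛ.le, ← Real.rpow_mul hΛ.le]
  have e2 : X ^ (1 - t) * X ^ t = X := by
    rw [← Real.rpow_add' hX (by norm_num)]
    norm_num
  rw [Real.rpow_add hΛ]
  calc _ = (X ^ (1 - t) * X ^ t) * (Λ ^ (e0 * (1 - t)) * Λ ^ (e1 * t)) := by ring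
    _ = _ := by rw [e2]

theorem choose_params {x e : ℝ} (hx0 : 0 < x) (hx : x ≤ 1/3) (he : max (1 - 3 * x) 0 < e) :
    ∃ P0 ε e0 : ℝ, 2 ≤ P0 ∧ P0 < 3 ∧ 0 < ε ∧ 0 < e0 ∧
      e0 * (1 - (1 - P0 * x)) + (1 + ε) * (1 - P0 * x) ≤ e := by
  set g := e - max (1 - 3 * x) 0 with hg
  have hg0 : 0 < g := by linarith
  have h1 : 1 - 3 * x ≤ e - g := by rw [hg]; linarith [le_max_left (1 - 3 * x) 0]
  have h2 : 0 ≤ e - g := by rw [hg]; linarith [le_max_right (1 - 3 * x) 0]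
  set a := min (1/2) (g / 4) with ha
  have ha0 : 0 < a := lt_min (by norm_num) (by positivity)
  have ha1 : a ≤ 1/2 := min_le_left _ _
  have ha2 : a ≤ g / 4 := min_le_right _ _
  refine ⟨3 - a, g / 4, g / 4, by linarith, by linarith, by positivity, by positivity, ?_⟩
  have e1 : 1 - (1 - (3 - a) * x) = (3 - a) * x := by ring
  rw [e1]
  have b1 : (3 - a) * x ≤ 1 := by nlinarith
  have b2 : 0 ≤ (3 - a) * x := by nlinarith
  have b3 : a * x ≤ g / 4 := by nlinarith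
  have b4 : 1 - (3 - a) * x = (1 - 3 * x) + a * x := by ring
  have b5 : 0 ≤ 1 - (3 - a) * x := by linarith
  have b6 : g / 4 * ((3 - a) * x) ≤ g / 4 := by nlinarith
  have b7 : g / 4 * (1 - (3 - a) * x) ≤ g / 4 := by nlinarith
  have b8 : (1 + g / 4) * (1 - (3 - a) * x) = (1 - (3 - a) * x) + g / 4 * (1 - (3 - a) * x) := by ring
  rw [b8]
  linarith

/-- bound at one time scale for all exponents at least two -/
theorem form_large {p q : ℝ≥0∞} (hpq : p⁻¹ + q⁻¹ = 1) (hp : 2 ≤ p) {e : ℝ}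
    (he : max (1 - 3 * (1 / p).toReal) 0 < e) :
    ∃ (M K : ℕ) (C : ℝ), 0 ≤ C ∧
    ∀ (Λ : ℝ), 1 ≤ Λ → ∀ (A : ℝ) (θ : ℝ → ℂ), Bump M A θ → ∀ (m : ℤ) (F G : ℝ × ℝ → ℂ),
    Adm nu F → Adm nu G →
    ‖Form3 (k3 Λ θ) m F G‖ ≤ C * A * (1 + |(m:ℝ)|) ^ K * Λ ^ e * nrm p F nu * nrm q G nu := by
  have he0 : 0 < e := lt_of_le_of_lt (le_max_right _ _) he
  have hp1 := one_le_of_conj hpq
  have hq1 : 1 ≤ q := one_le_of_conj (by rwa [add_comm] at hpq)
  rcases eq_or_ne p ⊤ with rfl | hptop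
  · -- p infinite
    have he1 : 1 < e := by
      have := lt_of_le_of_lt (le_max_left (1 - 3 * (1 / (⊤ : ℝ≥0∞)).toReal) 0) he
      simpa using this
    obtain ⟨M, C, hC, h⟩ := k3_L1_large (show 0 < e - 1 by linarith)
    refine ⟨M, 0, C, hC, ?_⟩
    intro Λ hΛ A θ hθ m F G hF hG
    have hΛ0 : 0 < Λ := by linarith
    have hA := hθ.nonneg
    have h1 := young_Form3 (continuous_k3 hθ hΛ0) (B := C * A * Λ ^ (1 + (e - 1))) (by positivity)
      (h Λ hΛ A θ hθ) hpq m hF hG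
    rw [show 1 + (e - 1) = e by ring] at h1
    simpa using h1
  · set P := p.toReal with hP
    have hpP : p = ENNReal.ofReal P := (ENNReal.ofReal_toReal hptop).symm
    have hP2 : 2 ≤ P := by
      have := ENNReal.toReal_mono hptop hp
      simpa using this
    have hP0 : 0 < P := by linarith
    have hqP : q = ENNReal.ofReal (P / (P - 1)) := conj_eq (by linarith) (by rw [← hpP]; exact hpq)
    rcases lt_or_ge P 3 with hP3 | hP3
    · rw [hpP, hqP]
      exact form_small hP2 hP3 he0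
    · have hx : (1 / p).toReal = 1 / P := by rw [hpP]; exact toReal_inv_ofReal hP0
      rw [hx] at he
      have hx0 : 0 < 1 / P := by positivity
      have hx3 : 1 / P ≤ 1 / 3 := one_div_le_one_div_of_le (by norm_num) hP3
      obtain ⟨P0, ε, e0, hP02, hP03, hε, he00, hexp⟩ := choose_params hx0 hx3 he
      set t := 1 - P0 * (1 / P) with ht
      have hP0' : 0 < P0 := by linarith
      have ht0 : 0 < t := by
        rw [ht]
        have : P0 * (1 / P) < 1 := by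
          calc P0 * (1 / P) < 3 * (1 / P) := by gcongr
            _ ≤ 1 := by linarith
        linarith
      have ht1 : t < 1 := by
        rw [ht]
        have : 0 < P0 * (1 / P) := by positivity
        linarith
      obtain ⟨M1, K1, C1, hC1, h1⟩ := form_small hP02 hP03 he00
      obtain ⟨M2, C2, hC2, h2⟩ := k3_L1_large hε
      refine ⟨max M1 M2, K1, max C1 C2, le_max_of_le_left hC1, ?_⟩
      intro Λ hΛ A θ hθ m F G hF hG
      have hΛ0 : 0 < Λ := by linarith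
      have hA := hθ.nonneg
      set X := max C1 C2 * A * (1 + |(m:ℝ)|) ^ K1 with hX
      have hX0 : 0 ≤ X := by
        have : 0 ≤ max C1 C2 := le_max_of_le_left hC1
        positivity
      have hB := bilAdm_Form3 (continuous_k3 hθ hΛ0) (norm_k3_le hθ hΛ0) m
      have hQ0 : 0 < P0 / (P0 - 1) := div_pos hP0' (by linarith)
      have hq0 : (1 / q).toReal = 1 - 1 / P := by
        have := conj_sum hpq
        rw [hx] at this
        linarith
      have hT := T01 hB (p0 := ENNReal.ofReal P0) (p1 := ⊤) (q0 := ENNReal.ofReal (P0 / (P0 - 1)))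
        (q1 := 1) (p := p) (q := q)
        (by rw [← ENNReal.ofReal_one]; exact ENNReal.ofReal_le_ofReal (by linarith))
        ENNReal.ofReal_ne_top le_top
        (by
          rw [← ENNReal.ofReal_one]
          apply ENNReal.ofReal_le_ofReal
          rw [le_div_iff₀ (by linarith)]; linarith)
        ENNReal.ofReal_ne_top le_rfl ht0 ht1
        (by
          rw [hx, toReal_inv_ofReal hP0']
          simp only [ENNReal.div_top, ENNReal.toReal_zero, mul_zero, add_zero]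
          rw [ht]; field_simp; ring)
        (by
          rw [hq0, toReal_inv_ofReal hQ0]
          simp only [div_one, ENNReal.toReal_one, mul_one]
          rw [ht, one_div_div]; field_simp; ring)
        hp1 hq1 (M0 := X * Λ ^ e0) (M1 := X * Λ ^ (1 + ε)) (by positivity) (by positivity)
        (fun F G hF hG => by
          have h3 := h1 Λ hΛ A θ (hθ.mono (le_max_left _ _) le_rfl) m F G hF hG
          refine h3.trans ?_
          have n1 : 0 ≤ nrm (ENNReal.ofReal P0) F nu := nrm_nonneg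
          have n2 : 0 ≤ nrm (ENNReal.ofReal (P0 / (P0 - 1))) G nu := nrm_nonneg
          have := le_max_left C1 C2
          rw [hX]
          gcongr)
        (fun F G hF hG => by
          have h3 := young_Form3 (continuous_k3 hθ hΛ0) (B := C2 * A * Λ ^ (1 + ε)) (by positivity)
            (h2 Λ hΛ A θ (hθ.mono (le_max_right _ _) le_rfl)) (p := ⊤) (q := 1) (by simp) m hF hG
          refine h3.trans ?_
          have n1 : 0 ≤ nrm ⊤ F nu := nrm_nonneg
          have n2 : 0 ≤ nrm 1 G nu := nrm_nonneg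
          have h4 := le_max_right C1 C2
          have h5 : (1:ℝ) ≤ (1 + |(m:ℝ)|) ^ K1 := one_le_pow₀ (by linarith [abs_nonneg (m:ℝ)])
          have h6 : C2 * A ≤ X := by
            rw [hX]
            calc C2 * A ≤ max C1 C2 * A := by gcongr
              _ ≤ max C1 C2 * A * (1 + |(m:ℝ)|) ^ K1 := by
                apply le_mul_of_one_le_right _ h5
                have : 0 ≤ max C1 C2 := le_max_of_le_left hC1
                positivity
          gcongr)
        hF hG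
      rw [rpow_interp hX0 hΛ0] at hT
      refine hT.trans ?_
      have h7 : Λ ^ (e0 * (1 - t) + (1 + ε) * t) ≤ Λ ^ e := Real.rpow_le_rpow_of_exponent_le hΛ hexp
      have n1 : 0 ≤ nrm p F nu := nrm_nonneg
      have n2 : 0 ≤ nrm q G nu := nrm_nonneg
      gcongr

theorem Form3_swap {k : ℝ → ℂ} (hk : Continuous k) {C : ℝ} (hb : ∀ q, ‖k q‖ ≤ C) (m : ℤ)
    {F G : ℝ × ℝ → ℂ} (hF : Adm nu F) (hG : Adm nu G) : Form3 k m F G = Form3 k (-m) G F := by
  unfold Form3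
  have hf := hF.cyl_ph m
  have hg := hG.cyl_ph (-m)
  have hint : Integrable (Function.uncurry fun x y : E3 => k (‖x - y‖ ^ 2) * (F (cyl y) * ph y ^ m) *
      (G (cyl x) * ph x ^ (-m))) (volume.prod volume) := by
    have h1 := (hg.int.mul_prod hf.int)
    have hkm : AEStronglyMeasurable (fun z : E3 × E3 => k (‖z.1 - z.2‖ ^ 2)) (volume.prod volume) :=
      (hk.comp (by fun_prop)).aestronglyMeasurable
    have h2 := h1.bdd_mul (c := C) hkm (by filter_upwards with z using hb _)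
    refine h2.congr ?_
    filter_upwards with z
    simp only [Function.uncurry_def]
    ring
  rw [integral_integral_swap hint]
  congr 1
  ext x
  congr 1
  ext y
  rw [norm_sub_rev, neg_neg]
  ring

/-- critical exponent -/
noncomputable def crit (p : ℝ≥0∞) : ℝ := max (3 * |(1 / p).toReal - 1 / 2| - 1 / 2) 0

theorem crit_ge {p : ℝ≥0∞} (hp : 2 ≤ p) : crit p = max (1 - 3 * (1 / p).toReal) 0 := by
  have h1 : (1 / p).toReal ≤ 1 / 2 := by
    have h2 : (1 / p) ≤ 1 / 2 := ENNReal.div_le_div_left hp 1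
    have h3 := ENNReal.toReal_mono (by norm_num) h2
    have h4 : (1 / (2:ℝ≥0∞)).toReal = 1/2 := by
      rw [one_div, ENNReal.toReal_inv, ENNReal.toReal_ofNat]; norm_num
    rwa [h4] at h3
  unfold crit
  rw [abs_of_nonpos (by linarith)]
  congr 1
  ring

theorem crit_symm {p q : ℝ≥0∞} (hpq : p⁻¹ + q⁻¹ = 1) : crit p = crit q := by
  have h := conj_sum hpq
  unfold crit
  have : (1 / p).toReal - 1 / 2 = -((1 / q).toReal - 1 / 2) := by linarith
  rw [this, abs_neg]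

theorem two_le_or {p q : ℝ≥0∞} (hpq : p⁻¹ + q⁻¹ = 1) : 2 ≤ p ∨ 2 ≤ q := by
  by_contra hcon
  push Not at hcon
  have h1 : (2:ℝ≥0∞)⁻¹ < p⁻¹ := ENNReal.inv_lt_inv.2 hcon.1
  have h2 : (2:ℝ≥0∞)⁻¹ < q⁻¹ := ENNReal.inv_lt_inv.2 hcon.2
  have h3 := ENNReal.add_lt_add h1 h2
  rw [hpq, ENNReal.inv_two_add_inv_two] at h3
  exact lt_irrefl _ h3

/-- bound at one time scale for all exponents and all scales -/
theorem form_all {p q : ℝ≥0∞} (hpq : p⁻¹ + q⁻¹ = 1) {e : ℝ} (he : crit p < e) :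
    ∃ (M K : ℕ) (C : ℝ), 0 ≤ C ∧
    ∀ (Λ : ℝ), 0 < Λ → ∀ (A : ℝ) (θ : ℝ → ℂ), Bump M A θ → ∀ (m : ℤ) (F G : ℝ × ℝ → ℂ),
    Adm nu F → Adm nu G →
    ‖Form3 (k3 Λ θ) m F G‖ ≤ C * A * (1 + |(m:ℝ)|) ^ K * max 1 (Λ ^ e) * nrm p F nu * nrm q G nu := by
  have he0 : 0 < e := lt_of_le_of_lt (le_max_right _ _) he
  obtain ⟨M0, C0, hC0, h0⟩ := k3_L1_small
  have main : ∀ {p q : ℝ≥0∞}, p⁻¹ + q⁻¹ = 1 → 2 ≤ p → crit p < e → ∃ (M K : ℕ) (C : ℝ), 0 ≤ C ∧
      ∀ (Λ : ℝ), 0 < Λ → ∀ (A : ℝ) (θ : ℝ → ℂ), Bump M A θ → ∀ (m : ℤ) (F G : ℝ × ℝ → ℂ),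
      Adm nu F → Adm nu G →
      ‖Form3 (k3 Λ θ) m F G‖ ≤ C * A * (1 + |(m:ℝ)|) ^ K * max 1 (Λ ^ e) * nrm p F nu * nrm q G nu := by
    intro p q hpq hp he
    rw [crit_ge hp] at he
    obtain ⟨M1, K1, C1, hC1, h1⟩ := form_large hpq hp he
    refine ⟨max M0 M1, K1, max C0 C1, le_max_of_le_left hC0, ?_⟩
    intro Λ hΛ A θ hθ m F G hF hG
    have hA := hθ.nonneg
    have n1 : 0 ≤ nrm p F nu := nrm_nonneg
    have n2 : 0 ≤ nrm q G nu := nrm_nonneg
    have n3 : 0 ≤ max C0 C1 := le_max_of_le_left hC0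
    rcases le_total Λ 1 with hl | hl
    · have h2 := young_Form3 (continuous_k3 hθ hΛ) (B := C0 * A) (by positivity)
        (h0 Λ hΛ hl A θ (hθ.mono (le_max_left _ _) le_rfl)) hpq m hF hG
      refine h2.trans ?_
      have h5 : (1:ℝ) ≤ (1 + |(m:ℝ)|) ^ K1 := one_le_pow₀ (by linarith [abs_nonneg (m:ℝ)])
      have h6 : (1:ℝ) ≤ max 1 (Λ ^ e) := le_max_left _ _
      have h7 : C0 * A ≤ max C0 C1 * A * (1 + |(m:ℝ)|) ^ K1 * max 1 (Λ ^ e) := by
        calc C0 * A = C0 * A * 1 * 1 := by ring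
          _ ≤ max C0 C1 * A * (1 + |(m:ℝ)|) ^ K1 * max 1 (Λ ^ e) := by
              have := le_max_left C0 C1
              gcongr
      gcongr
    · have h2 := h1 Λ hl A θ (hθ.mono (le_max_right _ _) le_rfl) m F G hF hG
      refine h2.trans ?_
      have h3 := le_max_right C0 C1
      have h4 : Λ ^ e ≤ max 1 (Λ ^ e) := le_max_right _ _
      gcongr
  rcases two_le_or hpq with hp | hq
  · exact main hpq hp he
  · have hqp : q⁻¹ + p⁻¹ = 1 := by rwa [add_comm] at hpq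
    obtain ⟨M, K, C, hC, h⟩ := main hqp hq (by rwa [← crit_symm hpq])
    refine ⟨M, K, C, hC, ?_⟩
    intro Λ hΛ A θ hθ m F G hF hG
    rw [Form3_swap (continuous_k3 hθ hΛ) (norm_k3_le hθ hΛ) m hF hG]
    have h1 := h Λ hΛ A θ hθ (-m) G F hG hF
    refine h1.trans (le_of_eq ?_)
    rw [Int.cast_neg, abs_neg]
    ring

end Vale.Agent.P117
end
end

section

section

open MeasureTheory Complex Set
open scoped ENNReal NNReal ContDiff FourierTransform SchwartzMap ComplexConjugate Topology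

namespace Vale.Agent.P117

/-- multiplier of a time piece -/
noncomputable def ml (s : ℝ) (l : ℤ) (ξ : E3) : ℂ := mult ((2:ℝ) ^ l) (thl s l) (‖ξ‖ ^ 2)

/-- kernel of a time piece -/
noncomputable def Kl (s : ℝ) (l : ℤ) (x : E3) : ℂ := k3 ((2:ℝ) ^ l) (thl s l) (‖x‖ ^ 2)

/-- conjugate kernel -/
noncomputable def Kc (s : ℝ) (l : ℤ) (x : E3) : ℂ := conj (Kl s l x)

theorem two_zpow_pos (l : ℤ) : (0:ℝ) < (2:ℝ) ^ l := by positivity

theorem Kl_eq {s : ℝ} (hs : 1 < s) (l : ℤ) : Kl s l = 𝓕⁻ (ml s l) := by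
  obtain ⟨C, hC, h⟩ := thl_bump hs 4
  ext x
  exact k3_eq_inv (two_zpow_pos l) (h l) x

theorem ml_cont {s : ℝ} (hs : 1 < s) (l : ℤ) : Continuous (ml s l) := by
  obtain ⟨C, hC, h⟩ := thl_bump hs 4
  exact (continuous_mult (h l) (two_zpow_pos l)).comp (by fun_prop)

theorem ml_int {s : ℝ} (hs : 1 < s) (l : ℤ) : Integrable (ml s l) := by
  obtain ⟨C, hC, h⟩ := thl_bump hs 4
  exact integrable_mult (by simp) (h l) (two_zpow_pos l)

theorem ml_even (s : ℝ) (l : ℤ) (ξ : E3) : ml s l (-ξ) = ml s l ξ := by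
  unfold ml; rw [norm_neg]

theorem fourier_ml {s : ℝ} (l : ℤ) (x : E3) : 𝓕 (ml s l) x = 𝓕⁻ (ml s l) x := by
  have h : (fun ξ => ml s l (-ξ)) = ml s l := funext (ml_even s l)
  rw [Real.fourierInv_eq_fourier_comp_neg, h]

theorem Kc_eq {s : ℝ} (hs : 1 < s) (l : ℤ) : Kc s l = 𝓕⁻ (fun ξ => conj (ml s l ξ)) := by
  ext x
  rw [fourierInv_conj, fourier_ml, ← Kl_eq hs]
  rfl

theorem Kl_cont {s : ℝ} (hs : 1 < s) (l : ℤ) : Continuous (Kl s l) := by
  rw [Kl_eq hs]; exact continuous_fourierInv (ml_int hs l)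

theorem Kl_bdd {s : ℝ} (hs : 1 < s) (l : ℤ) (x : E3) : ‖Kl s l x‖ ≤ ∫ ξ, ‖ml s l ξ‖ := by
  rw [Kl_eq hs]; exact norm_fourierInv_le _ _

theorem Kc_cont {s : ℝ} (hs : 1 < s) (l : ℤ) : Continuous (Kc s l) :=
  Complex.continuous_conj.comp (Kl_cont hs l)

theorem Kc_bdd {s : ℝ} (hs : 1 < s) (l : ℤ) (x : E3) : ‖Kc s l x‖ ≤ ∫ ξ, ‖ml s l ξ‖ := by
  unfold Kc; rw [RCLike.norm_conj]; exact Kl_bdd hs l x

theorem ml_conj_int {s : ℝ} (hs : 1 < s) (l : ℤ) : Integrable (fun ξ => conj (ml s l ξ)) :=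
  (Complex.conjCLE : ℂ →L[ℝ] ℂ).integrable_comp (ml_int hs l)

/-- the operator with multiplier phs s (1 - |xi|^2) -/
noncomputable def Tp (s : ℝ) (h : E3 → ℂ) : E3 → ℂ := 𝓕⁻ (fun ξ : E3 => phs s (1 - ‖ξ‖ ^ 2) * 𝓕 h ξ)

/-- one piece -/
noncomputable def Sl (s : ℝ) (l : ℤ) (h : E3 → ℂ) : E3 → ℂ :=
  𝓕⁻ (fun ξ : E3 => (ml s l ξ + conj (ml s l ξ)) * 𝓕 h ξ)

theorem ml_bound {s : ℝ} (hs : 1 < s) : ∃ C : ℝ, 0 ≤ C ∧ ∀ (l : ℤ) (ξ : E3),
    ‖ml s l ξ + conj (ml s l ξ)‖ ≤ C * aml s l := by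
  obtain ⟨C, hC, h⟩ := thl_bump hs 4
  refine ⟨8 * C, by positivity, ?_⟩
  intro l ξ
  have h1 : ‖ml s l ξ‖ ≤ 4 * (C * aml s l) := norm_mult_le4 (two_zpow_pos l) (h l) _
  calc _ ≤ ‖ml s l ξ‖ + ‖conj (ml s l ξ)‖ := norm_add_le _ _
    _ = ‖ml s l ξ‖ + ‖ml s l ξ‖ := by rw [RCLike.norm_conj]
    _ ≤ _ := by linarith

section
variable {s : ℝ} {h g : E3 → ℂ}

theorem Sl_eq (hs : 1 < s) (l : ℤ) (hh : Integrable h) (x : E3) :
    Sl s l h x = cv (Kl s l) h x + cv (Kc s l) h x := by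
  have h1 := cv_inv_eq (ml_int hs l) hh
  have h2 := cv_inv_eq (ml_conj_int hs l) hh
  have hb : ∀ v, ‖𝓕 h v‖ ≤ ∫ y, ‖h y‖ := norm_fourier_le h
  have hc : AEStronglyMeasurable (𝓕 h) volume := (continuous_fourier hh).aestronglyMeasurable
  have i1 : Integrable (fun ξ => ml s l ξ * 𝓕 h ξ) :=
    (ml_int hs l).mul_bdd hc (by filter_upwards with v using hb v)
  have i2 : Integrable (fun ξ => conj (ml s l ξ) * 𝓕 h ξ) :=
    (ml_conj_int hs l).mul_bdd hc (by filter_upwards with v using hb v)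
  rw [Kl_eq hs, Kc_eq hs, h1, h2]
  unfold Sl
  rw [Real.fourierInv_eq, Real.fourierInv_eq, Real.fourierInv_eq, ← integral_add]
  · congr 1
    ext v
    rw [← smul_add]
    congr 1
    ring
  · exact int_phaseV i1 x
  · exact int_phaseV i2 x

theorem Sl_norm {C : ℝ} (hC : ∀ (l : ℤ) (ξ : E3), ‖ml s l ξ + conj (ml s l ξ)‖ ≤ C * aml s l)
    (l : ℤ) (hFh : Integrable (𝓕 h)) (x : E3) :
    ‖Sl s l h x‖ ≤ C * aml s l * ∫ ξ, ‖𝓕 h ξ‖ := by
  unfold Sl
  refine (norm_fourierInv_le _ _).trans ?_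
  rw [← integral_const_mul]
  apply integral_mono_of_nonneg
  · filter_upwards with v using norm_nonneg _
  · exact hFh.norm.const_mul _
  · filter_upwards with v
    rw [norm_mul]
    have := hC l v
    gcongr

theorem aml_sum (hs : 1 < s) : Summable (aml s) := by
  have h1 := aml_summable (s := s) (e := 0) le_rfl (by linarith)
  simpa using h1

theorem Tp_hasSum (hs : 1 < s) (hh : Integrable h) (hFh : Integrable (𝓕 h)) (x : E3) :
    HasSum (fun l : ℤ => Sl s l h x) (Tp s h x) := by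
  obtain ⟨C, hC, hb⟩ := ml_bound hs
  have hc : Measurable (𝓕 h) := (continuous_fourier hh).measurable
  unfold Sl Tp
  simp_rw [Real.fourierInv_eq]
  have hm : ∀ l, Measurable (fun ξ => (ml s l ξ + conj (ml s l ξ)) * 𝓕 h ξ) := by
    intro l
    have h1 := (ml_cont hs l).measurable
    have h2 : Measurable (fun ξ => conj (ml s l ξ)) := (Complex.continuous_conj.comp (ml_cont hs l)).measurable
    exact (h1.add h2).mul hc
  have hi : ∀ l, Integrable (fun ξ => (ml s l ξ + conj (ml s l ξ)) * 𝓕 h ξ) := by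
    intro l
    refine (hFh.norm.const_mul (C * aml s l)).mono' (hm l).aestronglyMeasurable ?_
    filter_upwards with v
    rw [norm_mul]
    have := hb l v
    gcongr
  have hsum := hasSum_integral_of_summable_integral_norm (μ := (volume : Measure E3))
    (F := fun (l : ℤ) (v : E3) => Real.fourierChar (inner ℝ v x) • ((ml s l v + conj (ml s l v)) * 𝓕 h v))
    (fun l => int_phaseV (hi l) x) (by
      refine Summable.of_nonneg_of_le (fun l => integral_nonneg fun _ => norm_nonneg _) (fun l => ?_)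
        ((aml_sum hs).mul_left (C * ∫ ξ, ‖𝓕 h ξ‖))
      calc _ ≤ ∫ v, C * aml s l * ‖𝓕 h v‖ := by
            apply integral_mono_of_nonneg
            · filter_upwards with v using norm_nonneg _
            · exact hFh.norm.const_mul _
            · filter_upwards with v
              rw [Circle.norm_smul, norm_mul]
              have := hb l v
              gcongr
        _ = _ := by rw [integral_const_mul]; ring)
  have e : ∫ v, ∑' l, Real.fourierChar (inner ℝ v x) • ((ml s l v + conj (ml s l v)) * 𝓕 h v) =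
      ∫ v, Real.fourierChar (inner ℝ v x) • (phs s (1 - ‖v‖ ^ 2) * 𝓕 h v) := by
    congr 1
    ext v
    have h1 := mult_full_hasSum hs (‖v‖ ^ 2)
    have h2 := (h1.mul_right (𝓕 h v)).mul_left ((Real.fourierChar (inner ℝ v x) : Circle) : ℂ)
    exact h2.tsum_eq
  rw [e] at hsum
  exact hsum

/-- the pairing as a series over time scales -/
theorem pair_hasSum (hs : 1 < s) (hh : Adm volume h) (hFh : Integrable (𝓕 h)) (hg : Adm volume g) :
    HasSum (fun l : ℤ => BK (Kl s l) h g + BK (Kc s l) h g) (∫ x, Tp s h x * g x) := by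
  obtain ⟨C, hC, hb⟩ := ml_bound hs
  have hS : ∀ l x, ‖Sl s l h x‖ ≤ C * aml s l * ∫ ξ, ‖𝓕 h ξ‖ := fun l x => Sl_norm hb l hFh x
  have i1 : ∀ l, Integrable (fun x => cv (Kl s l) h x * g x) := fun l =>
    integrable_BK (Kl_cont hs l) (Kl_bdd hs l) hh hg
  have i2 : ∀ l, Integrable (fun x => cv (Kc s l) h x * g x) := fun l =>
    integrable_BK (Kc_cont hs l) (Kc_bdd hs l) hh hg
  have e1 : ∀ l x, Sl s l h x * g x = cv (Kl s l) h x * g x + cv (Kc s l) h x * g x := by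
    intro l x
    rw [Sl_eq hs l hh.int, add_mul]
  have i3 : ∀ l, Integrable (fun x => Sl s l h x * g x) := by
    intro l
    simp_rw [e1]
    exact (i1 l).add (i2 l)
  have hsum := hasSum_integral_of_summable_integral_norm (μ := (volume : Measure E3))
    (F := fun (l : ℤ) (x : E3) => Sl s l h x * g x) i3 (by
      refine Summable.of_nonneg_of_le (fun l => integral_nonneg fun _ => norm_nonneg _) (fun l => ?_)
        ((aml_sum hs).mul_left (C * (∫ ξ, ‖𝓕 h ξ‖) * ∫ x, ‖g x‖))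
      calc _ ≤ ∫ x, (C * aml s l * ∫ ξ, ‖𝓕 h ξ‖) * ‖g x‖ := by
            apply integral_mono_of_nonneg
            · filter_upwards with v using norm_nonneg _
            · exact hg.int.norm.const_mul _
            · filter_upwards with x
              rw [norm_mul]
              have := hS l x
              gcongr
        _ = _ := by rw [integral_const_mul]; ring)
  have e2 : ∫ x, ∑' l, Sl s l h x * g x = ∫ x, Tp s h x * g x := by
    congr 1
    ext x
    exact ((Tp_hasSum hs hh.int hFh x).mul_right (g x)).tsum_eq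
  rw [e2] at hsum
  have e3 : (fun l => ∫ x, Sl s l h x * g x) = fun l => BK (Kl s l) h g + BK (Kc s l) h g := by
    ext l
    simp_rw [e1]
    rw [integral_add (i1 l) (i2 l)]
    rfl
  rw [e3] at hsum
  exact hsum

end

theorem conj_ph_zpow (m : ℤ) (x : E3) : conj (ph x ^ m) = ph x ^ (-m) := by
  rcases ph_cases x with h | h
  · rw [h]
    rcases eq_or_ne m 0 with rfl | hm
    · simp
    · rw [zero_zpow m hm, zero_zpow (-m) (by omega), map_zero]
  · have h0 : ph x ≠ 0 := by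
      intro h0; rw [h0, norm_zero] at h; exact zero_ne_one h
    rw [map_zpow₀, zpow_neg, ← inv_zpow]
    congr 1
    rw [Complex.inv_def, Complex.normSq_eq_norm_sq, h]
    simp

theorem conj_lft (m : ℤ) (F : ℝ × ℝ → ℂ) (x : E3) : conj (lft m F x) = lft (-m) (fun y => conj (F y)) x := by
  unfold lft
  rw [map_mul, conj_ph_zpow]

theorem Adm.conj {α : Type*} [MeasurableSpace α] {μ : Measure α} {F : α → ℂ} (hF : Adm μ F) :
    Adm μ (fun y => (starRingEnd ℂ) (F y)) := by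
  refine ⟨Complex.continuous_conj.measurable.comp hF.meas, (Complex.conjCLE : ℂ →L[ℝ] ℂ).integrable_comp hF.int, ?_⟩
  obtain ⟨C, hC⟩ := hF.bdd
  exact ⟨C, fun x => by rw [RCLike.norm_conj]; exact hC x⟩

theorem nrm_conj {α : Type*} [MeasurableSpace α] {μ : Measure α} (F : α → ℂ) (p : ℝ≥0∞) :
    nrm p (fun y => conj (F y)) μ = nrm p F μ := by
  unfold nrm
  congr 1
  apply eLpNorm_congr_norm_ae
  filter_upwards with y
  rw [RCLike.norm_conj]

theorem BK_conj (K f g : E3 → ℂ) :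
    BK (fun x => conj (K x)) f g = conj (BK K (fun x => conj (f x)) (fun x => conj (g x))) := by
  unfold BK cv
  rw [← integral_conj]
  congr 1
  ext x
  rw [map_mul, ← integral_conj, Complex.conj_conj]
  congr 2
  ext y
  rw [map_mul, Complex.conj_conj]

theorem BK_Kl (s : ℝ) (l : ℤ) (m : ℤ) (F G : ℝ × ℝ → ℂ) :
    BK (Kl s l) (lft m F) (lft (-m) G) = Form3 (k3 ((2:ℝ) ^ l) (thl s l)) m F G :=
  (Form3_eq_BK _ m F G).symm

theorem BK_Kc (s : ℝ) (l : ℤ) (m : ℤ) (F G : ℝ × ℝ → ℂ) :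
    BK (Kc s l) (lft m F) (lft (-m) G) =
      conj (Form3 (k3 ((2:ℝ) ^ l) (thl s l)) (-m) (fun y => conj (F y)) (fun y => conj (G y))) := by
  change BK (fun x => conj (Kl s l x)) _ _ = _
  rw [BK_conj, Form3_eq_BK]
  congr 1
  have e1 : (fun x => conj (lft m F x)) = lft (-m) (fun y => conj (F y)) := funext (conj_lft m F)
  have e2 : (fun x => conj (lft (-m) G x)) = lft (- -m) (fun y => conj (G y)) := funext (conj_lft (-m) G)
  rw [e1, e2]
  rfl

/-- bilinear bound for the damped operator on a single angular mode -/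
theorem Tp_bound {p q : ℝ≥0∞} (hpq : p⁻¹ + q⁻¹ = 1) {s : ℝ} (hs : 1 < s) (hc : crit p < s - 1) :
    ∃ (K : ℕ) (C : ℝ), 0 ≤ C ∧ ∀ (m : ℤ) (F G : ℝ × ℝ → ℂ), Adm nu F → Adm nu G →
      Integrable (𝓕 (lft m F)) →
      ‖∫ x, Tp s (lft m F) x * lft (-m) G x‖ ≤ C * (1 + |(m:ℝ)|) ^ K * nrm p F nu * nrm q G nu := by
  set e := (crit p + (s - 1)) / 2 with he
  have he1 : crit p < e := by rw [he]; linarith
  have he2 : e < s - 1 := by rw [he]; linarith
  have he0 : 0 ≤ e := le_trans (le_max_right _ _) he1.le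
  obtain ⟨M, K, C, hC, h⟩ := form_all hpq he1
  obtain ⟨C', hC', hb⟩ := thl_bump hs M
  have hsum := aml_summable he0 he2
  set S := ∑' l : ℤ, aml s l * max 1 (((2:ℝ) ^ l) ^ e) with hS
  have hS0 : 0 ≤ S := tsum_nonneg fun l => mul_nonneg (aml_nonneg s l) (le_max_of_le_left zero_le_one)
  refine ⟨K, 2 * C * C' * S, by positivity, ?_⟩
  intro m F G hF hG hFi
  have hser := pair_hasSum hs (hF.cyl_ph m) hFi (hG.cyl_ph (-m))
  have n1 : 0 ≤ nrm p F nu := nrm_nonneg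
  have n2 : 0 ≤ nrm q G nu := nrm_nonneg
  have hterm : ∀ l : ℤ, ‖BK (Kl s l) (lft m F) (lft (-m) G) + BK (Kc s l) (lft m F) (lft (-m) G)‖ ≤
      (2 * C * C' * (1 + |(m:ℝ)|) ^ K * nrm p F nu * nrm q G nu) * (aml s l * max 1 (((2:ℝ) ^ l) ^ e)) := by
    intro l
    refine (norm_add_le _ _).trans ?_
    rw [BK_Kl, BK_Kc, RCLike.norm_conj]
    have h1 := h ((2:ℝ) ^ l) (two_zpow_pos l) _ _ (hb l) m F G hF hG
    have h2 := h ((2:ℝ) ^ l) (two_zpow_pos l) _ _ (hb l) (-m) _ _ hF.conj hG.conj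
    rw [nrm_conj, nrm_conj, Int.cast_neg, abs_neg] at h2
    refine (add_le_add h1 h2).trans (le_of_eq ?_)
    ring
  have h3 := tsum_of_norm_bounded (hsum.hasSum.mul_left
    (2 * C * C' * (1 + |(m:ℝ)|) ^ K * nrm p F nu * nrm q G nu)) hterm
  have h4 := hser.tsum_eq
  have h5 : ∫ x, Tp s (lft m F) x * lft (-m) G x = ∑' l : ℤ,
      (BK (Kl s l) (lft m F) (lft (-m) G) + BK (Kc s l) (lft m F) (lft (-m) G)) := h4.symm
  rw [h5]
  refine h3.trans (le_of_eq ?_)
  rw [← hS]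
  ring

end Vale.Agent.P117
end
end

section

section

open MeasureTheory Complex Set
open scoped ENNReal NNReal ContDiff FourierTransform SchwartzMap ComplexConjugate Topology

namespace Vale.Agent.P117

theorem E3_norm_sq (x : E3) : ‖x‖ ^ 2 = x 0 ^ 2 + x 1 ^ 2 + x 2 ^ 2 := by
  rw [EuclideanSpace.norm_sq_eq, Fin.sum_univ_three, Real.norm_eq_abs, Real.norm_eq_abs,
    Real.norm_eq_abs, sq_abs, sq_abs, sq_abs]

/-- rotation about the third axis -/
noncomputable def rot (φ : ℝ) : E3 ≃ₗᵢ[ℝ] E3 :=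
  { toFun := fun x => !₂[Real.cos φ * x 0 - Real.sin φ * x 1, Real.sin φ * x 0 + Real.cos φ * x 1, x 2]
    invFun := fun x => !₂[Real.cos φ * x 0 + Real.sin φ * x 1, -Real.sin φ * x 0 + Real.cos φ * x 1, x 2]
    map_add' := by intro x y; ext i; fin_cases i <;> simp <;> ring
    map_smul' := by intro c x; ext i; fin_cases i <;> simp <;> ring
    left_inv := by
      intro x
      have h := Real.sin_sq_add_cos_sq φ
      ext i
      fin_cases i
      · simp
        linear_combination (x 0) * h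
      · simp
        linear_combination (x 1) * h
      · simp
    right_inv := by
      intro x
      have h := Real.sin_sq_add_cos_sq φ
      ext i
      fin_cases i
      · simp
        linear_combination (x 0) * h
      · simp
        linear_combination (x 1) * h
      · simp
    norm_map' := by
      intro x
      have h := Real.sin_sq_add_cos_sq φ
      have : ‖(!₂[Real.cos φ * x 0 - Real.sin φ * x 1, Real.sin φ * x 0 + Real.cos φ * x 1, x 2] : E3)‖ ^ 2 =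
          ‖x‖ ^ 2 := by
        rw [E3_norm_sq, E3_norm_sq]
        simp
        linear_combination (x 0 ^ 2 + x 1 ^ 2) * h
      exact (sq_eq_sq₀ (norm_nonneg _) (norm_nonneg _)).1 this }

theorem rot_zero' (φ : ℝ) (x : E3) : rot φ x 0 = Real.cos φ * x 0 - Real.sin φ * x 1 := by simp [rot]
theorem rot_one' (φ : ℝ) (x : E3) : rot φ x 1 = Real.sin φ * x 0 + Real.cos φ * x 1 := by simp [rot]
theorem rot_two' (φ : ℝ) (x : E3) : rot φ x 2 = x 2 := by simp [rot]

theorem rot_pt (φ : ℝ) (p : ℝ × ℝ) (α : ℝ) : rot φ (pt (p, α)) = pt (p, α + φ) := by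
  ext i
  fin_cases i
  · change rot φ (pt (p, α)) 0 = pt (p, α + φ) 0
    rw [rot_zero', pt_zero, pt_one, pt_zero]
    simp only
    rw [Real.cos_add]; ring
  · change rot φ (pt (p, α)) 1 = pt (p, α + φ) 1
    rw [rot_one', pt_zero, pt_one, pt_one]
    simp only
    rw [Real.sin_add]; ring
  · change rot φ (pt (p, α)) 2 = pt (p, α + φ) 2
    rw [rot_two', pt_two, pt_two]

/-- every point in cylindrical coordinates -/
theorem exists_pt (x : E3) : ∃ α : ℝ, x = pt (cyl x, α) ∧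
    ((cyl x).1 ≠ 0 → ph x = cexp (I * α)) := by
  set z : ℂ := (x 0 : ℂ) + (x 1 : ℂ) * I with hz
  have hr : (cyl x).1 = ‖z‖ := by
    rw [hz, Complex.norm_add_mul_I]; rfl
  refine ⟨z.arg, ?_, ?_⟩
  · have h0 : ‖z‖ * Real.cos z.arg = x 0 := by
      rw [Complex.norm_mul_cos_arg, hz]; simp
    have h1 : ‖z‖ * Real.sin z.arg = x 1 := by
      rw [Complex.norm_mul_sin_arg, hz]; simp
    ext i
    fin_cases i
    · change x 0 = pt (cyl x, z.arg) 0
      rw [pt_zero]; simp only; rw [hr, h0]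
    · change x 1 = pt (cyl x, z.arg) 1
      rw [pt_one]; simp only; rw [hr, h1]
    · change x 2 = pt (cyl x, z.arg) 2
      rw [pt_two]; rfl
  · intro hne
    have hzn : (‖z‖ : ℂ) ≠ 0 := by
      rw [← hr]; exact_mod_cast hne
    have h2 := Complex.norm_mul_exp_arg_mul_I z
    have h3 : ph x = z / ‖z‖ := by
      have : Real.sqrt (x 0 ^ 2 + x 1 ^ 2) = ‖z‖ := hr
      unfold ph
      rw [this, hz]
      ring
    rw [h3, div_eq_iff hzn, mul_comm, mul_comm I]
    exact h2.symm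

/-- equivariance under rotations about the third axis -/
def Equi (m : ℤ) (h : E3 → ℂ) : Prop := ∀ (φ : ℝ) (x : E3), h (rot φ x) = cexp (I * (m * φ : ℝ)) * h x

/-- profile in the half plane -/
noncomputable def prof (h : E3 → ℂ) (p : ℝ × ℝ) : ℂ := h (pt (p, 0))

theorem Equi.eq_lft {m : ℤ} {h : E3 → ℂ} (he : Equi m h) : h = lft m (prof h) := by
  ext x
  obtain ⟨α, hx, hph⟩ := exists_pt x
  by_cases hr : (cyl x).1 = 0
  · -- on the axis
    have hfix : ∀ φ, rot φ x = x := by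
      intro φ
      rw [hx, rot_pt]
      ext i
      fin_cases i
      · change pt (cyl x, α + φ) 0 = pt (cyl x, α) 0
        rw [pt_zero, pt_zero]; simp only; rw [hr]; ring
      · change pt (cyl x, α + φ) 1 = pt (cyl x, α) 1
        rw [pt_one, pt_one]; simp only; rw [hr]; ring
      · rfl
    have hph0 : ph x = 0 := by
      unfold ph
      have : Real.sqrt (x 0 ^ 2 + x 1 ^ 2) = 0 := hr
      rw [this]; simp
    have hx0 : pt (cyl x, 0) = x := by
      have h1 := hfix (-α)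
      have h2 : rot (-α) (pt (cyl x, α)) = pt (cyl x, 0) := by rw [rot_pt, add_neg_cancel]
      rw [← hx, h1] at h2
      exact h2.symm
    rcases eq_or_ne m 0 with rfl | hm
    · unfold lft prof
      rw [hx0]; simp
    · unfold lft
      rw [hph0, zero_zpow m hm, mul_zero]
      have h1 := he (Real.pi / m) x
      rw [hfix] at h1
      have hm' : (m : ℝ) ≠ 0 := by exact_mod_cast hm
      have e : (I * ((m * (Real.pi / m) : ℝ) : ℂ)) = Real.pi * I := by
        rw [mul_div_cancel₀ _ hm']; ring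
      rw [e, Complex.exp_pi_mul_I] at h1
      have h2 : (2:ℂ) * h x = 0 := by linear_combination h1
      exact (mul_eq_zero.1 h2).resolve_left two_ne_zero
  · unfold lft prof
    have h1 := he α (pt (cyl x, 0))
    rw [rot_pt, zero_add, ← hx] at h1
    rw [h1, hph hr, ← Complex.exp_int_mul]
    have : (I * ((m * α : ℝ) : ℂ)) = m * (I * α) := by push_cast; ring
    rw [this]; ring

theorem ae_cyl_pos : ∀ᵐ x : E3, 0 < (cyl x).1 := mp_cyl.quasiMeasurePreserving.ae ae_nu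

theorem norm_prof_cyl {m : ℤ} {h : E3 → ℂ} (he : Equi m h) {x : E3} (hx : 0 < (cyl x).1) :
    ‖prof h (cyl x)‖ = ‖h x‖ := by
  conv_rhs => rw [he.eq_lft]
  unfold lft
  rw [norm_mul]
  obtain ⟨α, _, hph⟩ := exists_pt x
  rw [hph hx.ne', norm_zpow]
  have : ‖cexp (I * α)‖ = 1 := by rw [mul_comm, Complex.norm_exp_ofReal_mul_I]
  rw [this, one_zpow, mul_one]

theorem Equi.adm {m : ℤ} {h : E3 → ℂ} (he : Equi m h) (ha : Adm volume h) : Adm nu (prof h) := by
  have hm : Measurable (prof h) := ha.meas.comp (measurable_pt.comp (by fun_prop))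
  refine ⟨hm, ?_, ?_⟩
  · rw [← T11_map, integrable_map_measure hm.aestronglyMeasurable measurable_cyl.aemeasurable]
    refine ha.int.norm.mono' (hm.comp measurable_cyl).aestronglyMeasurable ?_
    filter_upwards [ae_cyl_pos] with x hx
    rw [Function.comp_apply, norm_prof_cyl he hx]
  · obtain ⟨C, hC⟩ := ha.bdd
    exact ⟨C, fun p => hC _⟩

theorem Equi.eLpNorm {m : ℤ} {h : E3 → ℂ} (he : Equi m h) (hm : Measurable h) (p : ℝ≥0∞) :
    MeasureTheory.eLpNorm (prof h) p nu = MeasureTheory.eLpNorm h p volume := by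
  have hpm : Measurable (prof h) := hm.comp (measurable_pt.comp (by fun_prop))
  rw [← T11_map, eLpNorm_map_measure hpm.aestronglyMeasurable measurable_cyl.aemeasurable]
  apply eLpNorm_congr_norm_ae
  filter_upwards [ae_cyl_pos] with x hx
  rw [Function.comp_apply, norm_prof_cyl he hx]

theorem Equi.nrm {m : ℤ} {h : E3 → ℂ} (he : Equi m h) (hm : Measurable h) (p : ℝ≥0∞) :
    P117.nrm p (prof h) nu = P117.nrm p h volume := by
  unfold P117.nrm
  rw [he.eLpNorm hm]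

theorem Equi.fourier {m : ℤ} {h : E3 → ℂ} (he : Equi m h) : Equi m (𝓕 h) := by
  intro φ ξ
  rw [← Real.fourier_comp_linearIsometry]
  have : h ∘ rot φ = fun x => cexp (I * (m * φ : ℝ)) * h x := by
    ext x; exact he φ x
  rw [this, Real.fourier_eq, Real.fourier_eq, ← integral_const_mul]
  congr 1
  ext v
  simp only [Circle.smul_def, smul_eq_mul]
  ring

theorem Equi.fourierInv {m : ℤ} {h : E3 → ℂ} (he : Equi m h) : Equi m (𝓕⁻ h) := by
  intro φ x
  rw [Real.fourierInv_eq_fourier_neg, Real.fourierInv_eq_fourier_neg, ← map_neg]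
  exact he.fourier φ (-x)

theorem norm_rot (φ : ℝ) (x : E3) : ‖rot φ x‖ = ‖x‖ := (rot φ).norm_map x

theorem Equi.radial_mul {m : ℤ} {h : E3 → ℂ} (he : Equi m h) (M : ℝ → ℂ) :
    Equi m (fun ξ => M ‖ξ‖ * h ξ) := by
  intro φ ξ
  simp only
  rw [norm_rot, he φ ξ]
  ring

theorem Equi.cv {m : ℤ} {f : E3 → ℂ} (he : Equi m f) (M : ℝ → ℂ) :
    Equi m (P117.cv (fun x => M ‖x‖) f) := by
  intro φ x
  unfold P117.cv
  rw [← (rot φ).measurePreserving.integral_comp (rot φ).toHomeomorph.measurableEmbedding,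
    ← integral_const_mul]
  congr 1
  ext y
  simp only
  rw [← map_sub, norm_rot, he φ y]
  ring

end Vale.Agent.P117
end
end

section

section

open MeasureTheory Complex Set Filter
open scoped ENNReal NNReal ContDiff FourierTransform SchwartzMap ComplexConjugate Topology

namespace Vale.Agent.P117

/-- dual weight -/
noncomputable def wt (a : ℝ) (E : Set E3) (u : E3 → ℂ) (x : E3) : ℂ :=
  E.indicator (fun x => conj (u x) * ((‖u x‖ ^ a : ℝ) : ℂ)) x

section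
variable {a : ℝ} {E : Set E3} {u : E3 → ℂ}

theorem wt_mul (ha : 0 < a + 2) (x : E3) :
    u x * wt a E u x = E.indicator (fun x => ((‖u x‖ ^ (a + 2) : ℝ) : ℂ)) x := by
  unfold wt
  by_cases hx : x ∈ E
  · rw [indicator_of_mem hx, indicator_of_mem hx]
    by_cases hu : u x = 0
    · rw [hu, norm_zero, Real.zero_rpow ha.ne']; simp
    · have hn : 0 < ‖u x‖ := norm_pos_iff.2 hu
      have h1 : u x * conj (u x) = ((‖u x‖ ^ (2:ℝ) : ℝ) : ℂ) := by
        rw [Complex.mul_conj, Complex.normSq_eq_norm_sq]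
        congr 1
        exact_mod_cast (Real.rpow_natCast ‖u x‖ 2).symm
      rw [← mul_assoc, h1, ← Complex.ofReal_mul, ← Real.rpow_add hn]
      congr 2; ring
  · rw [indicator_of_notMem hx, indicator_of_notMem hx, mul_zero]

theorem norm_wt_le (x : E3) : ‖wt a E u x‖ ≤ E.indicator (fun x => ‖u x‖ ^ (a + 1)) x := by
  unfold wt
  by_cases hx : x ∈ E
  · rw [indicator_of_mem hx, indicator_of_mem hx]
    by_cases hu : u x = 0
    · rw [hu]; simp; positivity
    · have hn : 0 < ‖u x‖ := norm_pos_iff.2 hu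
      rw [norm_mul, RCLike.norm_conj, Complex.norm_real, Real.norm_of_nonneg (by positivity),
        Real.rpow_add_one hn.ne', mul_comm]
  · rw [indicator_of_notMem hx, indicator_of_notMem hx, norm_zero]

theorem wt_adm (ha : 0 ≤ a + 1) (hE : MeasurableSet E) (hEf : volume E ≠ ⊤) (hu : Measurable u)
    {C : ℝ} (hC : ∀ x, ‖u x‖ ≤ C) : Adm volume (wt a E u) := by
  have hm : Measurable (wt a E u) := by
    have hg : Measurable (fun x => conj (u x) * ((‖u x‖ ^ a : ℝ) : ℂ)) := by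
      have h1 : Measurable (fun x => conj (u x)) := Complex.continuous_conj.measurable.comp hu
      fun_prop
    exact hg.indicator hE
  have hC0 : 0 ≤ C := (norm_nonneg _).trans (hC 0)
  have hb : ∀ x, ‖wt a E u x‖ ≤ E.indicator (fun _ => C ^ (a + 1)) x := by
    intro x
    refine (norm_wt_le x).trans ?_
    apply indicator_le_indicator
    exact Real.rpow_le_rpow (norm_nonneg _) (hC x) ha
  refine ⟨hm, ?_, C ^ (a + 1), ?_⟩
  · have hi : Integrable (E.indicator (fun _ : E3 => C ^ (a + 1))) :=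
      (integrable_indicator_iff hE).2 (integrableOn_const hEf)
    exact hi.mono' hm.aestronglyMeasurable (by filter_upwards with x using hb x)
  · intro x
    refine (hb x).trans ?_
    apply indicator_le_self' 
    intro _ _
    positivity

theorem wt_equi {m : ℤ} (he : Equi m u) (hE : ∀ φ x, rot φ x ∈ E ↔ x ∈ E) : Equi (-m) (wt a E u) := by
  intro φ x
  unfold wt
  by_cases hx : x ∈ E
  · rw [indicator_of_mem hx, indicator_of_mem ((hE φ x).2 hx), he φ x]
    have h1 : ‖cexp (I * (m * φ : ℝ)) * u x‖ = ‖u x‖ := by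
      rw [norm_mul, mul_comm I, Complex.norm_exp_ofReal_mul_I, one_mul]
    rw [h1, map_mul, ← Complex.exp_conj]
    have h2 : conj (I * ((m * φ : ℝ) : ℂ)) = I * (((-m : ℤ) * φ : ℝ) : ℂ) := by
      rw [map_mul, Complex.conj_I, Complex.conj_ofReal]; push_cast; ring
    rw [h2]; ring
  · rw [indicator_of_notMem hx, indicator_of_notMem (fun h => hx ((hE φ x).1 h)), mul_zero]

theorem ball_rot (R : ℝ) (φ : ℝ) (x : E3) : rot φ x ∈ Metric.ball (0:E3) R ↔ x ∈ Metric.ball (0:E3) R := by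
  rw [mem_ball_zero_iff, mem_ball_zero_iff, norm_rot]

theorem wt_integral (ha : 0 < a + 2) (hE : MeasurableSet E) :
    ∫ x, u x * wt a E u x = ((∫ x in E, ‖u x‖ ^ (a + 2) : ℝ) : ℂ) := by
  simp_rw [wt_mul ha]
  rw [integral_indicator hE]
  exact integral_complex_ofReal

end

/-- algebra for the dual estimate -/
theorem dual_alg {J D P Q : ℝ} (hJ : 0 ≤ J) (hD : 0 ≤ D) (hPQ : P.HolderConjugate Q)
    (h : J ≤ D * J ^ (1 / Q)) : J ^ (1 / P) ≤ D := by
  rcases hJ.eq_or_lt with h0 | h0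
  · rw [← h0, Real.zero_rpow (by have := hPQ.pos; positivity)]; exact hD
  · have e : 1 / P = 1 - 1 / Q := by
      have := hPQ.inv_add_inv_eq_one
      rw [one_div, one_div]; linarith
    rw [e, Real.rpow_sub h0, Real.rpow_one, div_le_iff₀ (by positivity)]
    exact h

/-- local bound, finite exponent -/
theorem dual_local {p q : ℝ≥0∞} (hpq : p⁻¹ + q⁻¹ = 1) (hp' : p ≠ ⊤) {m : ℤ} {u : E3 → ℂ}
    (hu : Measurable u) {C : ℝ} (hC : ∀ x, ‖u x‖ ≤ C) (he : Equi m u) {D : ℝ} (hD : 0 ≤ D)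
    (h : ∀ g, Adm volume g → Equi (-m) g → ‖∫ x, u x * g x‖ ≤ D * nrm q g volume) (R : ℝ) :
    (∫ x in Metric.ball (0:E3) R, ‖u x‖ ^ p.toReal) ^ (1 / p.toReal) ≤ D := by
  have hp1 := one_le_of_conj hpq
  have hq1 : 1 ≤ q := one_le_of_conj (by rwa [add_comm] at hpq)
  set P := p.toReal with hP
  set E := Metric.ball (0:E3) R with hE
  have hEm : MeasurableSet E := Metric.isOpen_ball.measurableSet
  have hEf : volume E ≠ ⊤ := measure_ball_lt_top.ne
  have hP1 : 1 ≤ P := by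
    rw [hP, ← ENNReal.toReal_one]
    exact ENNReal.toReal_mono hp' hp1
  set g := wt (P - 2) E u with hg
  have hga : Adm volume g := wt_adm (by linarith) hEm hEf hu hC
  have hge : Equi (-m) g := wt_equi he (ball_rot R)
  have h1 := h g hga hge
  have h2 := wt_integral (a := P - 2) (E := E) (u := u) (by linarith) hEm
  have e1 : P - 2 + 2 = P := by ring
  rw [e1] at h2
  rw [hg, h2, Complex.norm_real] at h1
  set J := ∫ x in E, ‖u x‖ ^ P with hJ
  have hJ0 : 0 ≤ J := integral_nonneg fun x => by positivity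
  rw [Real.norm_of_nonneg hJ0, ← hg] at h1
  have hgn : ∀ x, ‖g x‖ ≤ E.indicator (fun x => ‖u x‖ ^ (P - 1)) x := by
    intro x
    have := norm_wt_le (a := P - 2) (E := E) (u := u) x
    have e2 : P - 2 + 1 = P - 1 := by ring
    rwa [e2] at this
  have hC0 : 0 ≤ C := (norm_nonneg _).trans (hC 0)
  rcases eq_or_ne q ⊤ with hq | hq
  · -- p = 1
    have hPe : P = 1 := by
      have h3 := conj_sum hpq
      rw [hq, ENNReal.div_top, ENNReal.toReal_zero, add_zero, one_div, ENNReal.toReal_inv] at h3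
      rw [hP]
      exact inv_eq_one.1 h3
    have h3 : nrm q g volume ≤ 1 := by
      unfold nrm
      rw [hq, eLpNorm_exponent_top]
      have h4 : eLpNormEssSup g volume ≤ ENNReal.ofReal 1 := by
        apply eLpNormEssSup_le_of_ae_bound
        filter_upwards with x
        refine (hgn x).trans ?_
        rw [hPe, sub_self]
        simp only [Real.rpow_zero]
        apply indicator_le_self'
        intro _ _
        norm_num
      rw [ENNReal.ofReal_one] at h4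
      have := ENNReal.toReal_mono ENNReal.one_ne_top h4
      simpa using this
    rw [hPe, div_one, Real.rpow_one]
    calc J ≤ D * nrm q g volume := h1
      _ ≤ D * 1 := by gcongr
      _ = D := mul_one D
  · set Q := q.toReal with hQ
    have hQ1 : 1 ≤ Q := by
      rw [hQ, ← ENNReal.toReal_one]
      exact ENNReal.toReal_mono hq hq1
    have hsum : P⁻¹ + Q⁻¹ = 1 := by
      have h3 := conj_sum hpq
      rwa [one_div, one_div, ENNReal.toReal_inv, ENNReal.toReal_inv] at h3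
    have hPlt : 1 < P := by
      by_contra hcon
      have hP1' : P = 1 := le_antisymm (not_lt.1 hcon) hP1
      rw [hP1', inv_one] at hsum
      have : Q⁻¹ = 0 := by linarith
      rw [inv_eq_zero] at this
      linarith
    have hPQ : P.HolderConjugate Q := Real.holderConjugate_iff.2 ⟨hPlt, hsum⟩
    have hexp : (P - 1) * Q = P := hPQ.sub_one_mul_conj
    have h3 : nrm q g volume ≤ J ^ (1 / Q) := by
      have h4 : nrm q g volume ^ Q = (∫⁻ x, ‖g x‖ₑ ^ Q).toReal := nrm_rpow g hq1 hq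
      have h5 : (∫⁻ x, ‖g x‖ₑ ^ Q) ≤ ENNReal.ofReal J := by
        have hint : IntegrableOn (fun x => ‖u x‖ ^ P) E := by
          apply Measure.integrableOn_of_bounded (M := C ^ P) hEf
          · exact (hu.norm.pow_const P).aestronglyMeasurable
          · filter_upwards with x
            rw [Real.norm_of_nonneg (by positivity)]
            exact Real.rpow_le_rpow (norm_nonneg _) (hC x) (by linarith)
        rw [hJ, ofReal_integral_eq_lintegral_ofReal hint (by filter_upwards with x; positivity),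
          ← lintegral_indicator hEm]
        apply lintegral_mono
        intro x
        simp only
        by_cases hx : x ∈ E
        · rw [indicator_of_mem hx]
          have h6 := hgn x
          rw [indicator_of_mem hx] at h6
          rw [← ofReal_norm, ENNReal.ofReal_rpow_of_nonneg (norm_nonneg _) (by linarith)]
          apply ENNReal.ofReal_le_ofReal
          calc ‖g x‖ ^ Q ≤ (‖u x‖ ^ (P - 1)) ^ Q := Real.rpow_le_rpow (norm_nonneg _) h6 (by linarith)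
            _ = ‖u x‖ ^ P := by rw [← Real.rpow_mul (norm_nonneg _), hexp]
        · have h6 := hgn x
          rw [indicator_of_notMem hx] at h6
          have h7 : g x = 0 := norm_eq_zero.1 (le_antisymm h6 (norm_nonneg _))
          rw [h7, enorm_zero, ENNReal.zero_rpow_of_pos (by linarith)]
          exact zero_le
      have h6 : nrm q g volume ^ Q ≤ J := by
        rw [h4]
        have := ENNReal.toReal_mono ENNReal.ofReal_ne_top h5
        rwa [ENNReal.toReal_ofReal hJ0] at this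
      calc nrm q g volume = (nrm q g volume ^ Q) ^ (1 / Q) := by
            rw [← Real.rpow_mul nrm_nonneg, mul_one_div, div_self (by linarith), Real.rpow_one]
        _ ≤ J ^ (1 / Q) := Real.rpow_le_rpow (Real.rpow_nonneg nrm_nonneg _) h6 (by positivity)
    exact dual_alg hJ0 hD hPQ (h1.trans (by gcongr))

theorem dual_fin {p q : ℝ≥0∞} (hpq : p⁻¹ + q⁻¹ = 1) (hp' : p ≠ ⊤) {m : ℤ} {u : E3 → ℂ}
    (hu : Measurable u) {C : ℝ} (hC : ∀ x, ‖u x‖ ≤ C) (he : Equi m u) {D : ℝ} (hD : 0 ≤ D)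
    (h : ∀ g, Adm volume g → Equi (-m) g → ‖∫ x, u x * g x‖ ≤ D * nrm q g volume) :
    eLpNorm u p volume ≤ ENNReal.ofReal D := by
  have hp1 := one_le_of_conj hpq
  have hp0 : p ≠ 0 := fun h => by rw [h] at hp1; exact absurd hp1 (by norm_num)
  have hPpos : 0 < p.toReal := ENNReal.toReal_pos hp0 hp'
  have hC0 : 0 ≤ C := (norm_nonneg _).trans (hC 0)
  rw [eLpNorm_eq_lintegral_rpow_enorm_toReal hp0 hp']
  have hloc : ∀ n : ℕ, ∫⁻ x, (Metric.ball (0:E3) n).indicator (fun x => ‖u x‖ₑ ^ p.toReal) x ≤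
      ENNReal.ofReal (D ^ p.toReal) := by
    intro n
    have h1 := dual_local hpq hp' hu hC he hD h n
    have hEm : MeasurableSet (Metric.ball (0:E3) (n:ℝ)) := Metric.isOpen_ball.measurableSet
    have hint : IntegrableOn (fun x => ‖u x‖ ^ p.toReal) (Metric.ball (0:E3) n) := by
      apply Measure.integrableOn_of_bounded (M := C ^ p.toReal) measure_ball_lt_top.ne
      · exact (hu.norm.pow_const _).aestronglyMeasurable
      · filter_upwards with x
        rw [Real.norm_of_nonneg (by positivity)]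
        exact Real.rpow_le_rpow (norm_nonneg _) (hC x) (by linarith)
    rw [lintegral_indicator hEm]
    have e1 : ∀ x, ‖u x‖ₑ ^ p.toReal = ENNReal.ofReal (‖u x‖ ^ p.toReal) := by
      intro x
      rw [← ofReal_norm, ENNReal.ofReal_rpow_of_nonneg (norm_nonneg _) hPpos.le]
    simp_rw [e1]
    rw [← ofReal_integral_eq_lintegral_ofReal hint (by filter_upwards with x; positivity)]
    apply ENNReal.ofReal_le_ofReal
    set J := ∫ x in Metric.ball (0:E3) n, ‖u x‖ ^ p.toReal with hJ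
    have hJ0 : 0 ≤ J := integral_nonneg fun x => by positivity
    calc J = (J ^ (1 / p.toReal)) ^ p.toReal := by
          rw [← Real.rpow_mul hJ0, one_div, inv_mul_cancel₀ hPpos.ne', Real.rpow_one]
      _ ≤ D ^ p.toReal := Real.rpow_le_rpow (by positivity) h1 hPpos.le
  have hsup : ∫⁻ x, ‖u x‖ₑ ^ p.toReal = ⨆ n : ℕ, ∫⁻ x,
      (Metric.ball (0:E3) n).indicator (fun x => ‖u x‖ₑ ^ p.toReal) x := by
    rw [← lintegral_iSup]
    · congr 1
      ext x
      obtain ⟨N, hN⟩ := exists_nat_gt ‖x‖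
      apply le_antisymm
      · refine le_iSup_of_le N ?_
        rw [indicator_of_mem (by simpa using hN)]
      · apply iSup_le
        intro n
        exact indicator_le_self _ _ _
    · intro n
      exact (hu.enorm.pow_const _).indicator Metric.isOpen_ball.measurableSet
    · intro a b hab x
      apply indicator_le_indicator_of_subset
      · exact Metric.ball_subset_ball (by exact_mod_cast hab)
      · intro _; exact zero_le
  have hfin : ∫⁻ x, ‖u x‖ₑ ^ p.toReal ≤ ENNReal.ofReal (D ^ p.toReal) := by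
    rw [hsup]; exact iSup_le hloc
  calc _ ≤ (ENNReal.ofReal (D ^ p.toReal)) ^ (1 / p.toReal) := by gcongr
    _ = ENNReal.ofReal D := by
        rw [ENNReal.ofReal_rpow_of_nonneg (by positivity) (by positivity), ← Real.rpow_mul hD, mul_one_div,
          div_self hPpos.ne', Real.rpow_one]

theorem dual_top {q : ℝ≥0∞} (hpq : (⊤ : ℝ≥0∞)⁻¹ + q⁻¹ = 1) {m : ℤ} {u : E3 → ℂ}
    (hu : Continuous u) {C : ℝ} (hC : ∀ x, ‖u x‖ ≤ C) (he : Equi m u) {D : ℝ} (hD : 0 ≤ D)
    (h : ∀ g, Adm volume g → Equi (-m) g → ‖∫ x, u x * g x‖ ≤ D * nrm q g volume) :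
    eLpNorm u ⊤ volume ≤ ENNReal.ofReal D := by
  have hq : q = 1 := by
    simpa using hpq
  subst hq
  have hall : ∀ x, ‖u x‖ ≤ D := by
    intro x0
    by_contra hcon
    push Not at hcon
    obtain ⟨D', hD1, hD2⟩ := exists_between hcon
    set E := {x : E3 | D' < ‖u x‖} ∩ Metric.ball (0:E3) (‖x0‖ + 1) with hE
    have hEo : IsOpen E := (isOpen_lt continuous_const hu.norm).inter Metric.isOpen_ball
    have hEm : MeasurableSet E := hEo.measurableSet
    have hEf : volume E < ⊤ := lt_of_le_of_lt (measure_mono inter_subset_right) measure_ball_lt_top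
    have hEn : E.Nonempty := ⟨x0, hD2, by simp⟩
    have hEp : 0 < volume E := hEo.measure_pos volume hEn
    have hErot : ∀ φ x, rot φ x ∈ E ↔ x ∈ E := by
      intro φ x
      have h1 : ‖u (rot φ x)‖ = ‖u x‖ := by
        rw [he φ x, norm_mul, mul_comm I, Complex.norm_exp_ofReal_mul_I, one_mul]
      simp only [hE, mem_inter_iff, mem_ofPred_eq, h1, ball_rot]
    have hga := wt_adm (a := -1) (by norm_num) hEm hEf.ne hu.measurable hC
    have hge : Equi (-m) (wt (-1) E u) := wt_equi he hErot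
    have h1 := h _ hga hge
    have h2 := wt_integral (a := -1) (E := E) (u := u) (by norm_num) hEm
    rw [show (-1:ℝ) + 2 = 1 by norm_num] at h2
    simp only [Real.rpow_one] at h2
    rw [h2, Complex.norm_real] at h1
    have hint : IntegrableOn (fun x => ‖u x‖) E := by
      apply Measure.integrableOn_of_bounded (M := C) hEf.ne
      · exact hu.norm.aestronglyMeasurable
      · filter_upwards with x
        rw [norm_norm]; exact hC x
    have h3 : D' * volume.real E ≤ ∫ x in E, ‖u x‖ := by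
      have h4 := setIntegral_mono_on (f := fun _ => D') (g := fun x => ‖u x‖) (integrableOn_const hEf.ne)
        hint hEm (fun x hx => le_of_lt hx.1)
      rw [setIntegral_const, smul_eq_mul, mul_comm] at h4
      exact h4
    have h5 : nrm 1 (wt (-1) E u) volume ≤ volume.real E := by
      unfold nrm
      rw [eLpNorm_one_eq_lintegral_enorm]
      have h6 : ∫⁻ x, ‖wt (-1) E u x‖ₑ ≤ volume E := by
        rw [← setLIntegral_one, ← lintegral_indicator hEm]
        apply lintegral_mono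
        intro x
        simp only
        have h7 := norm_wt_le (a := -1) (E := E) (u := u) x
        rw [show (-1:ℝ) + 1 = 0 by norm_num] at h7
        simp only [Real.rpow_zero] at h7
        by_cases hx : x ∈ E
        · rw [indicator_of_mem hx] at h7 ⊢
          rw [← ofReal_norm, ← ENNReal.ofReal_one]
          exact ENNReal.ofReal_le_ofReal h7
        · rw [indicator_of_notMem hx] at h7 ⊢
          have : wt (-1) E u x = 0 := norm_eq_zero.1 (le_antisymm h7 (norm_nonneg _))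
          rw [this, enorm_zero]
      exact ENNReal.toReal_mono hEf.ne h6
    have hJ0 : 0 ≤ ∫ x in E, ‖u x‖ := integral_nonneg fun _ => norm_nonneg _
    rw [Real.norm_of_nonneg hJ0] at h1
    have hv : 0 < volume.real E := ENNReal.toReal_pos hEp.ne' hEf.ne
    have h8 : D' * volume.real E ≤ D * volume.real E := by
      calc _ ≤ _ := h3
        _ ≤ _ := h1
        _ ≤ _ := by gcongr
    have h9 : D' ≤ D := le_of_mul_le_mul_right h8 hv
    linarith
  rw [eLpNorm_exponent_top]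
  apply eLpNormEssSup_le_of_ae_bound
  filter_upwards with x using hall x

/-- converse of the Hoelder inequality for equivariant functions -/
theorem dual_bound {p q : ℝ≥0∞} (hpq : p⁻¹ + q⁻¹ = 1) {m : ℤ} {u : E3 → ℂ}
    (hu : Continuous u) {C : ℝ} (hC : ∀ x, ‖u x‖ ≤ C) (he : Equi m u) {D : ℝ} (hD : 0 ≤ D)
    (h : ∀ g, Adm volume g → Equi (-m) g → ‖∫ x, u x * g x‖ ≤ D * nrm q g volume) :
    eLpNorm u p volume ≤ ENNReal.ofReal D := by
  rcases eq_or_ne p ⊤ with rfl | hp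
  · exact dual_top hpq hu hC he hD h
  · exact dual_fin hpq hp hu.measurable hC he hD h

end Vale.Agent.P117
end
end

section

section

open MeasureTheory Complex Set Filter
open scoped ENNReal NNReal ContDiff FourierTransform SchwartzMap ComplexConjugate Topology

namespace Vale.Agent.P117

/-- radial symbol -/
noncomputable def brm (δ r : ℝ) : ℂ := if r < 1 then (((1 - r ^ 2) ^ δ : ℝ) : ℂ) else 0

/-- the Bochner-Riesz operator as an inverse Fourier transform -/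
noncomputable def TB (δ : ℝ) (f : E3 → ℂ) : E3 → ℂ := 𝓕⁻ (fun ξ : E3 => brm δ ‖ξ‖ * 𝓕 f ξ)

/-- gaussian smoothing -/
noncomputable def Gs (f : E3 → ℂ) (x : E3) : ℂ := (Real.exp (2 * Real.pi) : ℂ) * cv (gau E3 (Real.pi / 2)) f x

theorem pi_half_pos : 0 < Real.pi / 2 := by have := Real.pi_pos; positivity

theorem gau_bdd (x : E3) : ‖gau E3 (Real.pi / 2) x‖ ≤
    ((Real.pi / (Real.pi / 2)) ^ (Module.finrank ℝ E3 / 2 : ℝ))⁻¹ := by
  rw [norm_gau pi_half_pos]
  apply mul_le_of_le_one_right (by have := Real.pi_pos; positivity)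
  rw [Real.exp_le_one_iff]
  have := Real.pi_pos
  have h2 : 0 ≤ ‖x‖ ^ 2 := by positivity
  nlinarith

section
variable {f : E3 → ℂ}

theorem Gs_adm (hf : Adm volume f) : Adm volume (Gs f) := by
  have hc : Continuous (cv (gau E3 (Real.pi / 2)) f) := continuous_cv (continuous_gau _) gau_bdd hf.int
  refine ⟨(continuous_const.mul hc).measurable, (integrable_cv (integrable_gau pi_half_pos) hf.int).const_mul _, ?_⟩
  refine ⟨‖(Real.exp (2 * Real.pi) : ℂ)‖ *
    (((Real.pi / (Real.pi / 2)) ^ (Module.finrank ℝ E3 / 2 : ℝ))⁻¹ * ∫ y, ‖f y‖), fun x => ?_⟩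
  unfold Gs
  rw [norm_mul]
  have := norm_cv_le gau_bdd hf.int x
  gcongr

theorem Gs_equi {m : ℤ} (he : Equi m f) : Equi m (Gs f) := by
  have h1 : (gau E3 (Real.pi / 2)) = fun x : E3 => (fun r : ℝ =>
      (((Real.pi / (Real.pi / 2)) ^ (Module.finrank ℝ E3 / 2 : ℝ))⁻¹ : ℝ) *
        cexp (-((Real.pi / 2 : ℝ) : ℂ) * (r : ℂ) ^ 2)) ‖x‖ := by
    ext x; rfl
  have h2 := he.cv (fun r : ℝ => (((Real.pi / (Real.pi / 2)) ^ (Module.finrank ℝ E3 / 2 : ℝ))⁻¹ : ℝ) *
        cexp (-((Real.pi / 2 : ℝ) : ℂ) * (r : ℂ) ^ 2))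
  intro φ x
  unfold Gs
  rw [h1, h2 φ x]
  ring

theorem Gs_fourier (hf : Adm volume f) (ξ : E3) :
    𝓕 (Gs f) ξ = (Real.exp (2 * Real.pi * (1 - ‖ξ‖ ^ 2)) : ℂ) * 𝓕 f ξ := by
  have h1 : 𝓕 (Gs f) ξ = (Real.exp (2 * Real.pi) : ℂ) * 𝓕 (cv (gau E3 (Real.pi / 2)) f) ξ := by
    rw [Real.fourier_eq, Real.fourier_eq, ← integral_const_mul]
    congr 1
    ext v
    unfold Gs
    simp only [Circle.smul_def, smul_eq_mul]
    ring
  rw [h1, fourier_cv (integrable_gau pi_half_pos) hf.int, fourier_gau pi_half_pos, ← mul_assoc,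
    ← Complex.ofReal_mul, ← Real.exp_add]
  congr 3
  have := Real.pi_pos
  field_simp
  ring

theorem Gs_fourier_int (hf : Adm volume f) (hF : Integrable (𝓕 f)) : Integrable (𝓕 (Gs f)) := by
  have h1 : Continuous (𝓕 (Gs f)) := continuous_fourier (Gs_adm hf).int
  refine (hF.norm.const_mul (Real.exp (2 * Real.pi))).mono' h1.aestronglyMeasurable ?_
  filter_upwards with ξ
  rw [Gs_fourier hf, norm_mul, Complex.norm_real, Real.norm_of_nonneg (Real.exp_nonneg _)]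
  have : Real.exp (2 * Real.pi * (1 - ‖ξ‖ ^ 2)) ≤ Real.exp (2 * Real.pi) := by
    apply Real.exp_le_exp.2
    have := Real.pi_pos
    have h2 : 0 ≤ ‖ξ‖ ^ 2 := by positivity
    nlinarith
  gcongr

theorem Gs_norm (hf : Adm volume f) {p : ℝ≥0∞} (hp : 1 ≤ p) :
    eLpNorm (Gs f) p volume ≤ ENNReal.ofReal (Real.exp (2 * Real.pi)) * eLpNorm f p volume := by
  have h1 : Gs f = (Real.exp (2 * Real.pi) : ℂ) • cv (gau E3 (Real.pi / 2)) f := by
    ext x; rfl
  rw [h1, eLpNorm_const_smul]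
  have h2 : ‖(Real.exp (2 * Real.pi) : ℂ)‖ₑ = ENNReal.ofReal (Real.exp (2 * Real.pi)) := by
    rw [← ofReal_norm, Complex.norm_real, Real.norm_of_nonneg (Real.exp_nonneg _)]
  rw [h2]
  gcongr
  have h3 := young_L1 (continuous_gau (V := E3) (Real.pi / 2)).measurable hf.meas p hp
  rwa [lintegral_gau pi_half_pos, one_mul] at h3

/-- factorization through the gaussian -/
theorem TB_eq_Tp (δ : ℝ) (hf : Adm volume f) : TB δ f = Tp (δ + 1) (Gs f) := by
  unfold TB Tp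
  congr 1
  ext ξ
  rw [Gs_fourier hf, ← mul_assoc]
  congr 1
  unfold brm
  split_ifs with h
  · have h1 : 0 < 1 - ‖ξ‖ ^ 2 := by
      have := norm_nonneg ξ
      nlinarith
    rw [phs_of_pos h1, ← Complex.ofReal_mul]
    congr 1
    rw [mul_assoc, ← Real.exp_add]
    have e : -(2 * Real.pi) * (1 - ‖ξ‖ ^ 2) + 2 * Real.pi * (1 - ‖ξ‖ ^ 2) = 0 := by ring
    rw [e, Real.exp_zero, mul_one, add_sub_cancel_right]
  · have h1 : 1 - ‖ξ‖ ^ 2 ≤ 0 := by
      push Not at h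
      nlinarith
    rw [phs_of_nonpos h1, zero_mul]

theorem TB_int {δ : ℝ} (hδ : 0 ≤ δ) (hf : Integrable f) (hF : Integrable (𝓕 f)) :
    Integrable (fun ξ : E3 => brm δ ‖ξ‖ * 𝓕 f ξ) := by
  have hm : Measurable (fun ξ : E3 => brm δ ‖ξ‖) := by
    unfold brm
    apply Measurable.ite
    · exact measurableSet_lt (by fun_prop) measurable_const
    · fun_prop
    · fun_prop
  refine hF.bdd_mul (c := 1) hm.aestronglyMeasurable ?_
  filter_upwards with ξ
  unfold brm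
  split_ifs with h
  · have := norm_nonneg ξ
    have h1 : 0 ≤ 1 - ‖ξ‖ ^ 2 := by nlinarith
    rw [Complex.norm_real, Real.norm_of_nonneg (by positivity)]
    apply Real.rpow_le_one h1 _ hδ
    have : 0 ≤ ‖ξ‖ ^ 2 := by positivity
    linarith
  · simp

end

/-- the bound on one angular mode -/
theorem mode_bound {p : ℝ≥0∞} (hp : 1 ≤ p) {δ : ℝ} (hδ : crit p < δ) :
    ∃ (K : ℕ) (C : ℝ), 0 ≤ C ∧ ∀ (m : ℤ) (f : E3 → ℂ), Adm volume f → Integrable (𝓕 f) → Equi m f →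
      eLpNorm (TB δ f) p volume ≤ ENNReal.ofReal (C * (1 + |(m:ℝ)|) ^ K) * eLpNorm f p volume := by
  have hδ0 : 0 < δ := lt_of_le_of_lt (le_max_right _ _) hδ
  obtain ⟨q, hpq⟩ : ∃ q : ℝ≥0∞, p⁻¹ + q⁻¹ = 1 := by
    refine ⟨(1 - p⁻¹)⁻¹, ?_⟩
    rw [inv_inv]
    exact add_tsub_cancel_of_le (ENNReal.inv_le_one.2 hp)
  obtain ⟨K, C, hC, h⟩ := Tp_bound hpq (s := δ + 1) (by linarith) (by simpa using hδ)
  refine ⟨K, C * Real.exp (2 * Real.pi), by positivity, ?_⟩
  intro m f hf hF he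
  have hh := Gs_adm hf
  have hhe := Gs_equi he
  have hint := TB_int hδ0.le hf.int hF
  have hu : Continuous (TB δ f) := continuous_fourierInv hint
  have hub : ∀ x, ‖TB δ f x‖ ≤ ∫ ξ, ‖brm δ ‖ξ‖ * 𝓕 f ξ‖ := norm_fourierInv_le _
  have hue : Equi m (TB δ f) := (he.fourier.radial_mul (brm δ)).fourierInv
  have hD := dual_bound hpq hu hub hue (D := C * (1 + |(m:ℝ)|) ^ K * nrm p (Gs f) volume)
    (by have : 0 ≤ nrm p (Gs f) volume := nrm_nonneg
        positivity) (by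
      intro g hg hge
      have h1 := h m (prof (Gs f)) (prof g) (hhe.adm hh) (hge.adm hg) (by
        rw [← hhe.eq_lft]; exact Gs_fourier_int hf hF)
      rw [← hhe.eq_lft, ← hge.eq_lft, hhe.nrm hh.meas, hge.nrm hg.meas, ← TB_eq_Tp δ hf] at h1
      exact h1)
  refine hD.trans ?_
  have hG := Gs_norm hf hp
  rw [ENNReal.ofReal_mul (by positivity), hh.ofReal_nrm hp]
  calc _ ≤ ENNReal.ofReal (C * (1 + |(m:ℝ)|) ^ K) *
        (ENNReal.ofReal (Real.exp (2 * Real.pi)) * eLpNorm f p volume) := by gcongr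
    _ = _ := by
        rw [← mul_assoc, ← ENNReal.ofReal_mul (by positivity)]
        congr 2
        ring

end Vale.Agent.P117
end
end

section

section

open MeasureTheory Complex Set Filter
open scoped ENNReal NNReal ContDiff FourierTransform SchwartzMap ComplexConjugate Topology

namespace Vale.Agent.P117

theorem rot_rot (φ ψ : ℝ) (x : E3) : rot φ (rot ψ x) = rot (φ + ψ) x := by
  obtain ⟨α, hx, -⟩ := exists_pt x
  rw [hx, rot_pt, rot_pt, rot_pt, add_assoc, add_comm ψ φ]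

theorem rot_zero_apply (x : E3) : rot 0 x = x := by
  obtain ⟨α, hx, -⟩ := exists_pt x
  conv_lhs => rw [hx]
  rw [rot_pt, add_zero, ← hx]

theorem rot_two_pi (φ : ℝ) (x : E3) : rot (φ + 2 * Real.pi) x = rot φ x := by
  ext i
  fin_cases i
  · change rot _ x 0 = rot _ x 0
    rw [rot_zero', rot_zero', Real.cos_add_two_pi, Real.sin_add_two_pi]
  · change rot _ x 1 = rot _ x 1
    rw [rot_one', rot_one', Real.cos_add_two_pi, Real.sin_add_two_pi]
  · change rot _ x 2 = rot _ x 2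
    rw [rot_two', rot_two']

theorem rot_explicit (φ : ℝ) (x : E3) :
    rot φ x = !₂[Real.cos φ * x 0 - Real.sin φ * x 1, Real.sin φ * x 0 + Real.cos φ * x 1, x 2] := rfl

theorem continuous_rot : Continuous (fun q : ℝ × E3 => rot q.1 q.2) := by
  simp only [rot_explicit]
  refine (PiLp.continuous_toLp 2 _).comp ?_
  refine continuous_pi fun i => ?_
  fin_cases i
  · simp only [Fin.zero_eta, Matrix.cons_val_zero]
    fun_prop
  · simp only [Fin.mk_one, Matrix.cons_val_one, Matrix.cons_val_zero]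
    fun_prop
  · simp only [Fin.reduceFinMk, Matrix.cons_val]
    fun_prop

theorem continuous_rot' : Continuous (fun q : E3 × ℝ => rot q.2 q.1) := by
  simp only [rot_explicit]
  refine (PiLp.continuous_toLp 2 _).comp ?_
  refine continuous_pi fun i => ?_
  fin_cases i
  · simp only [Fin.zero_eta, Matrix.cons_val_zero]
    fun_prop
  · simp only [Fin.mk_one, Matrix.cons_val_one, Matrix.cons_val_zero]
    fun_prop
  · simp only [Fin.reduceFinMk, Matrix.cons_val]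
    fun_prop

/-- angular mode -/
noncomputable def mode (m : ℤ) (g : E3 → ℂ) (x : E3) : ℂ :=
  (1 / (2 * Real.pi) : ℝ) • ∫ φ in (-Real.pi)..Real.pi, cexp (-(I * (m * φ : ℝ))) * g (rot φ x)

theorem exp_per (m : ℤ) (φ : ℝ) :
    cexp (-(I * (m * (φ + 2 * Real.pi) : ℝ))) = cexp (-(I * (m * φ : ℝ))) := by
  have : -(I * ((m * (φ + 2 * Real.pi) : ℝ) : ℂ)) = -(I * (m * φ : ℝ)) - m * (2 * Real.pi * I) := by
    push_cast; ring
  rw [this, Complex.exp_sub, Complex.exp_int_mul_two_pi_mul_I, div_one]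

theorem norm_expm (m : ℤ) (φ : ℝ) : ‖cexp (-(I * (m * φ : ℝ)))‖ = 1 := by
  have : -(I * ((m * φ : ℝ) : ℂ)) = ((-(m * φ) : ℝ) : ℂ) * I := by push_cast; ring
  rw [this, Complex.norm_exp_ofReal_mul_I]

theorem mode_equi (m : ℤ) (g : E3 → ℂ) : Equi m (mode m g) := by
  intro ψ x
  unfold mode
  rw [mul_smul_comm]
  congr 1
  rw [← intervalIntegral.integral_const_mul]
  set G : ℝ → ℂ := fun φ => cexp (-(I * (m * φ : ℝ))) * g (rot φ x) with hG
  have hper : Function.Periodic G (2 * Real.pi) := by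
    intro φ
    simp only [hG]
    rw [exp_per, rot_two_pi]
  have h1 : ∀ φ : ℝ, cexp (-(I * (m * φ : ℝ))) * g (rot φ (rot ψ x)) =
      cexp (I * (m * ψ : ℝ)) * G (φ + ψ) := by
    intro φ
    simp only [hG]
    rw [rot_rot, ← mul_assoc, ← Complex.exp_add]
    congr 2
    push_cast; ring
  simp_rw [h1]
  rw [intervalIntegral.integral_const_mul, intervalIntegral.integral_const_mul]
  congr 1
  rw [intervalIntegral.integral_comp_add_right]
  have h2 := hper.intervalIntegral_add_eq (-Real.pi + ψ) (-Real.pi)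
  have e1 : -Real.pi + ψ + 2 * Real.pi = Real.pi + ψ := by ring
  have e2 : -Real.pi + 2 * Real.pi = Real.pi := by ring
  rw [e1, e2] at h2
  exact h2

theorem mode_continuous {g : E3 → ℂ} (hg : Continuous g) (m : ℤ) : Continuous (mode m g) := by
  unfold mode
  refine Continuous.fun_const_smul (intervalIntegral.continuous_parametric_intervalIntegral_of_continuous'
    (X := E3) (μ := volume) (f := fun x φ => cexp (-(I * (m * φ : ℝ))) * g (rot φ x)) ?_ _ _) _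
  have h2 : Continuous (fun q : E3 × ℝ => g (rot q.2 q.1)) := hg.comp continuous_rot'
  refine Continuous.mul ?_ h2
  fun_prop

theorem mode_bdd {g : E3 → ℂ} {C : ℝ} (hC : ∀ x, ‖g x‖ ≤ C) (m : ℤ) (x : E3) : ‖mode m g x‖ ≤ C := by
  unfold mode
  have hpi := Real.pi_pos
  rw [norm_smul, Real.norm_of_nonneg (by positivity)]
  have h := intervalIntegral.norm_integral_le_of_norm_le_const (a := -Real.pi) (b := Real.pi) (C := C)
    (f := fun φ => cexp (-(I * (m * φ : ℝ))) * g (rot φ x)) (by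
      intro φ _
      rw [norm_mul, norm_expm, one_mul]
      exact hC _)
  have e : |Real.pi - -Real.pi| = 2 * Real.pi := by
    rw [abs_of_pos (by linarith)]; ring
  rw [e] at h
  calc _ ≤ 1 / (2 * Real.pi) * (C * (2 * Real.pi)) := by gcongr
    _ = C := by field_simp

/-- the enorm of a mode is at most the average of the enorm -/
theorem mode_enorm (m : ℤ) (g : E3 → ℂ) (x : E3) :
    ‖mode m g x‖ₑ ≤ ENNReal.ofReal (1 / (2 * Real.pi)) * ∫⁻ φ in Ioc (-Real.pi) Real.pi, ‖g (rot φ x)‖ₑ := by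
  unfold mode
  have hpi := Real.pi_pos
  rw [enorm_smul]
  have e : ‖(1 / (2 * Real.pi) : ℝ)‖ₑ = ENNReal.ofReal (1 / (2 * Real.pi)) := by
    rw [← ofReal_norm, Real.norm_of_nonneg (by positivity)]
  rw [e, intervalIntegral.integral_of_le (by linarith)]
  gcongr
  refine (enorm_integral_le_lintegral_enorm _).trans (le_of_eq ?_)
  apply lintegral_congr
  intro φ
  rw [enorm_mul]
  have : ‖cexp (-(I * (m * φ : ℝ)))‖ₑ = 1 := by
    rw [← ofReal_norm, norm_expm, ENNReal.ofReal_one]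
  rw [this, one_mul]

theorem lintegral_pi_one : ENNReal.ofReal (1 / (2 * Real.pi)) * volume (Ioc (-Real.pi) Real.pi) = 1 := by
  have hpi := Real.pi_pos
  rw [Real.volume_Ioc, ← ENNReal.ofReal_mul (by positivity)]
  rw [← ENNReal.ofReal_one]
  congr 1
  field_simp
  ring

theorem measurable_rot_swap {g : E3 → ℂ} (hg : Measurable g) :
    Measurable (fun q : E3 × ℝ => g (rot q.2 q.1)) := by
  have h2 : Measurable (fun q : E3 × ℝ => rot q.2 q.1) := continuous_rot'.measurable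
  exact Measurable.comp hg h2

theorem lintegral_rot {F : E3 → ℝ≥0∞} (φ : ℝ) : ∫⁻ x, F (rot φ x) = ∫⁻ x, F x := by
  exact (rot φ).measurePreserving.lintegral_comp_emb (rot φ).toHomeomorph.measurableEmbedding F

theorem mode_eLpNorm {g : E3 → ℂ} (hg : Measurable g) (m : ℤ) {p : ℝ≥0∞} (hp : 1 ≤ p) :
    eLpNorm (mode m g) p volume ≤ eLpNorm g p volume := by
  have hpi := Real.pi_pos
  rcases eq_or_ne p ⊤ with rfl | htop
  · rw [eLpNorm_exponent_top, eLpNorm_exponent_top]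
    have h0 : ∀ᵐ x : E3, ∀ᵐ φ ∂(volume.restrict (Ioc (-Real.pi) Real.pi)),
        ‖g (rot φ x)‖ₑ ≤ eLpNormEssSup g volume := by
      have hs : MeasurableSet {q : E3 × ℝ | ‖g (rot q.2 q.1)‖ₑ ≤ eLpNormEssSup g volume} :=
        measurableSet_le (measurable_rot_swap hg).enorm measurable_const
      rw [← Measure.ae_prod_iff_ae_ae hs]
      have hs' : MeasurableSet {q : ℝ × E3 | ‖g (rot q.1 q.2)‖ₑ ≤ eLpNormEssSup g volume} :=
        measurableSet_le (hg.comp continuous_rot.measurable).enorm measurable_const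
      have h2 : ∀ᵐ φ ∂(volume.restrict (Ioc (-Real.pi) Real.pi)), ∀ᵐ x : E3,
          ‖g (rot φ x)‖ₑ ≤ eLpNormEssSup g volume := by
        filter_upwards with φ
        exact (rot φ).measurePreserving.quasiMeasurePreserving.ae (ae_le_eLpNormEssSup (f := g))
      rw [← Measure.ae_prod_iff_ae_ae hs'] at h2
      have h3 := (Measure.measurePreserving_swap (μ := (volume : Measure E3))
        (ν := volume.restrict (Ioc (-Real.pi) Real.pi))).quasiMeasurePreserving.ae h2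
      exact h3
    apply eLpNormEssSup_le_of_ae_enorm_bound
    filter_upwards [h0] with x hx
    refine (mode_enorm m g x).trans ?_
    calc _ ≤ ENNReal.ofReal (1 / (2 * Real.pi)) *
          ∫⁻ φ in Ioc (-Real.pi) Real.pi, eLpNormEssSup g volume := by
          exact mul_le_mul_right (lintegral_mono_ae hx) _
      _ = eLpNormEssSup g volume := by
          rw [lintegral_const, Measure.restrict_apply MeasurableSet.univ, univ_inter,
            mul_comm (eLpNormEssSup g volume), ← mul_assoc, lintegral_pi_one, one_mul]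
  · have hp0 : p ≠ 0 := fun h => by rw [h] at hp; exact absurd hp (by norm_num)
    rw [eLpNorm_eq_lintegral_rpow_enorm_toReal hp0 htop, eLpNorm_eq_lintegral_rpow_enorm_toReal hp0 htop]
    have hp1 : 1 ≤ p.toReal := by
      rw [← ENNReal.toReal_one]
      exact ENNReal.toReal_mono htop hp
    apply ENNReal.rpow_le_rpow _ (by positivity)
    have h1 : ∀ x : E3, ‖mode m g x‖ₑ ^ p.toReal ≤
        ENNReal.ofReal (1 / (2 * Real.pi)) * ∫⁻ φ in Ioc (-Real.pi) Real.pi, ‖g (rot φ x)‖ₑ ^ p.toReal := by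
      intro x
      have hmx : Measurable (fun φ : ℝ => ‖g (rot φ x)‖ₑ) :=
        ((measurable_rot_swap hg).comp (measurable_prodMk_left (x := x))).enorm
      have h := holder_pow (volume.restrict (Ioc (-Real.pi) Real.pi))
        (k := fun _ => ENNReal.ofReal (1 / (2 * Real.pi))) (g := fun φ => ‖g (rot φ x)‖ₑ)
        (by fun_prop) hmx.aemeasurable hp1
      rw [lintegral_const, Measure.restrict_apply MeasurableSet.univ, univ_inter, lintegral_pi_one,
        ENNReal.one_rpow, one_mul, lintegral_const_mul _ hmx, lintegral_const_mul _ (hmx.pow_const _)] at h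
      exact (ENNReal.rpow_le_rpow (mode_enorm m g x) (by positivity)).trans h
    refine (lintegral_mono h1).trans ?_
    rw [lintegral_const_mul' _ _ ENNReal.ofReal_ne_top]
    rw [lintegral_lintegral_swap ((measurable_rot_swap hg).enorm.pow_const _).aemeasurable]
    simp_rw [fun φ : ℝ => lintegral_rot (F := fun y => ‖g y‖ₑ ^ p.toReal) φ]
    rw [lintegral_const, Measure.restrict_apply MeasurableSet.univ, univ_inter,
      mul_comm (∫⁻ x : E3, ‖g x‖ₑ ^ p.toReal), ← mul_assoc, lintegral_pi_one, one_mul]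

end Vale.Agent.P117
end
end

section

section

open MeasureTheory Complex Set Filter
open scoped ENNReal NNReal ContDiff FourierTransform SchwartzMap ComplexConjugate Topology

namespace Vale.Agent.P117

attribute [local irreducible] rot

theorem mode_int {g : E3 → ℂ} (hg : Continuous g) (hi : Integrable g) (m : ℤ) : Integrable (mode m g) := by
  rw [← memLp_one_iff_integrable] at hi ⊢
  refine ⟨(mode_continuous hg m).aestronglyMeasurable, ?_⟩
  exact (mode_eLpNorm hg.measurable m le_rfl).trans_lt hi.2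

theorem mode_adm {g : E3 → ℂ} (hg : Continuous g) (ha : Adm volume g) (m : ℤ) : Adm volume (mode m g) := by
  refine ⟨(mode_continuous hg m).measurable, mode_int hg ha.int m, ?_⟩
  obtain ⟨C, hC⟩ := ha.bdd
  exact ⟨C, mode_bdd hC m⟩

theorem integrable_rot_prod {g : E3 → ℂ} (hg : Measurable g) (hi : Integrable g) :
    Integrable (fun q : E3 × ℝ => g (rot q.2 q.1)) (volume.prod (volume.restrict (Ioc (-Real.pi) Real.pi))) := by
  refine ⟨(measurable_rot_swap hg).aestronglyMeasurable, ?_⟩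
  unfold HasFiniteIntegral
  rw [lintegral_prod_symm _ (measurable_rot_swap hg).enorm.aemeasurable]
  simp only
  simp_rw [fun φ : ℝ => lintegral_rot (F := fun y => ‖g y‖ₑ) φ]
  rw [lintegral_const, Measure.restrict_apply MeasurableSet.univ, univ_inter]
  apply ENNReal.mul_lt_top hi.2
  rw [Real.volume_Ioc]
  exact ENNReal.ofReal_lt_top

theorem mode_eq_set (m : ℤ) (g : E3 → ℂ) (x : E3) : mode m g x =
    (1 / (2 * Real.pi) : ℝ) • ∫ φ in Ioc (-Real.pi) Real.pi, cexp (-(I * (m * φ : ℝ))) * g (rot φ x) := by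
  unfold mode
  rw [intervalIntegral.integral_of_le (by have := Real.pi_pos; linarith)]

/-- modes commute with the Fourier transform -/
theorem fourier_mode {g : E3 → ℂ} (hg : Measurable g) (hi : Integrable g) (m : ℤ) :
    𝓕 (mode m g) = mode m (𝓕 g) := by
  ext ξ
  rw [mode_eq_set, Real.fourier_eq]
  simp_rw [mode_eq_set]
  have h1 : ∀ v : E3, (Real.fourierChar (-(inner ℝ v ξ))) • ((1 / (2 * Real.pi) : ℝ) •
      ∫ φ in Ioc (-Real.pi) Real.pi, cexp (-(I * (m * φ : ℝ))) * g (rot φ v)) =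
      (1 / (2 * Real.pi) : ℝ) • ∫ φ in Ioc (-Real.pi) Real.pi,
        (Real.fourierChar (-(inner ℝ v ξ)) : ℂ) * (cexp (-(I * (m * φ : ℝ))) * g (rot φ v)) := by
    intro v
    rw [Circle.smul_def, smul_eq_mul, mul_smul_comm, integral_const_mul]
  simp_rw [h1]
  rw [integral_smul]
  congr 1
  rw [integral_integral_swap]
  · apply integral_congr_ae
    filter_upwards with φ
    rw [← Real.fourier_comp_linearIsometry, Real.fourier_eq, ← integral_const_mul]
    congr 1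
    ext v
    simp only [Circle.smul_def, smul_eq_mul, Function.comp_apply]
    ring
  · have h2 := integrable_rot_prod hg hi
    have h3 : Continuous (fun q : E3 × ℝ => (Real.fourierChar (-(inner ℝ q.1 ξ)) : ℂ) *
        cexp (-(I * (m * q.2 : ℝ)))) := by
      refine Continuous.mul ?_ (by fun_prop)
      exact continuous_subtype_val.comp (Real.continuous_fourierChar.comp (by fun_prop))
    have h4 := h2.bdd_mul (c := 1) h3.aestronglyMeasurable (by
      filter_upwards with q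
      rw [norm_mul, Circle.norm_coe, norm_expm, one_mul])
    refine h4.congr ?_
    filter_upwards with q
    simp only [Function.uncurry]
    ring

theorem rot_neg (φ : ℝ) (x : E3) : rot φ (-x) = -rot φ x := map_neg _ _

theorem fourierInv_mode {g : E3 → ℂ} (hg : Measurable g) (hi : Integrable g) (m : ℤ) :
    𝓕⁻ (mode m g) = mode m (𝓕⁻ g) := by
  ext x
  rw [Real.fourierInv_eq_fourier_neg, fourier_mode hg hi]
  unfold mode
  congr 1
  apply intervalIntegral.integral_congr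
  intro φ _
  simp only
  rw [Real.fourierInv_eq_fourier_neg, rot_neg]

theorem mode_radial (m : ℤ) (M : ℝ → ℂ) (g : E3 → ℂ) :
    mode m (fun ξ => M ‖ξ‖ * g ξ) = fun ξ => M ‖ξ‖ * mode m g ξ := by
  ext ξ
  unfold mode
  rw [mul_smul_comm, ← intervalIntegral.integral_const_mul]
  congr 1
  apply intervalIntegral.integral_congr
  intro φ _
  simp only
  rw [norm_rot]
  ring

theorem mode_TB {δ : ℝ} (hδ : 0 ≤ δ) {f : E3 → ℂ} (hf : Adm volume f) (hF : Integrable (𝓕 f)) (m : ℤ) :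
    mode m (TB δ f) = TB δ (mode m f) := by
  have hm : Measurable (fun ξ : E3 => brm δ ‖ξ‖ * 𝓕 f ξ) := by
    have h1 : Measurable (fun ξ : E3 => brm δ ‖ξ‖) := by
      unfold brm
      apply Measurable.ite
      · exact measurableSet_lt (by fun_prop) measurable_const
      · fun_prop
      · fun_prop
    exact h1.mul (continuous_fourier hf.int).measurable
  unfold TB
  rw [← fourierInv_mode hm (TB_int hδ hf.int hF), mode_radial, fourier_mode hf.meas hf.int]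

/-- the orbit function on the circle -/
noncomputable def orb (u : E3 → ℂ) (x : E3) (φ : ℝ) : ℂ := u (rot φ x)

theorem orb_cont {u : E3 → ℂ} (hu : Continuous u) (x : E3) : Continuous (orb u x) := by
  have h1 : Continuous (fun φ : ℝ => rot φ x) :=
    continuous_rot'.comp (by fun_prop : Continuous (fun φ : ℝ => (x, φ)))
  exact hu.comp h1

theorem orb_per (u : E3 → ℂ) (x : E3) : orb u x (-Real.pi) = orb u x (-Real.pi + 2 * Real.pi) := by
  unfold orb; rw [rot_two_pi]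

/-- the orbit function on the circle -/
noncomputable def orbC [Fact (0 < 2 * Real.pi)] {u : E3 → ℂ} (hu : Continuous u) (x : E3) :
    C(AddCircle (2 * Real.pi), ℂ) :=
  ⟨AddCircle.liftIoc (2 * Real.pi) (-Real.pi) (orb u x), AddCircle.liftIoc_continuous (orb_per u x) (orb_cont hu x).continuousOn⟩

theorem orbC_apply [Fact (0 < 2 * Real.pi)] {u : E3 → ℂ} (hu : Continuous u) (x : E3) {φ : ℝ} (h : φ ∈ Ioc (-Real.pi) Real.pi) :
    orbC hu x (φ : AddCircle (2 * Real.pi)) = orb u x φ := by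
  have e : -Real.pi + 2 * Real.pi = Real.pi := by ring
  exact AddCircle.liftIoc_coe_apply (f := orb u x) (by rw [e]; exact h)

theorem orbC_coeff [Fact (0 < 2 * Real.pi)] {u : E3 → ℂ} (hu : Continuous u) (x : E3) (m : ℤ) :
    fourierCoeff (orbC hu x) m = mode m u x := by
  have hpi := Real.pi_pos
  rw [mode_eq_set, fourierCoeff_eq_intervalIntegral _ _ (-Real.pi),
    intervalIntegral.integral_of_le (by linarith)]
  have e : -Real.pi + 2 * Real.pi = Real.pi := by ring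
  rw [e]
  congr 1
  apply setIntegral_congr_fun measurableSet_Ioc
  intro φ hφ
  simp only
  rw [orbC_apply hu x hφ, fourier_coe_apply, smul_eq_mul]
  unfold orb
  congr 2
  push_cast
  have : (Real.pi : ℂ) ≠ 0 := by exact_mod_cast hpi.ne'
  field_simp

/-- reconstruction from the modes -/
theorem mode_hasSum {u : E3 → ℂ} (hu : Continuous u) (x : E3) (hs : Summable fun m : ℤ => mode m u x) :
    HasSum (fun m : ℤ => mode m u x) (u x) := by
  have hpi := Real.pi_pos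
  have : Fact (0 < 2 * Real.pi) := ⟨Real.two_pi_pos⟩
  have hs' : Summable (fourierCoeff (orbC hu x)) := by
    have : fourierCoeff (orbC hu x) = fun m : ℤ => mode m u x := by
      ext m; exact orbC_coeff hu x m
    rw [this]; exact hs
  have h := has_pointwise_sum_fourier_series_of_summable hs' ((0 : ℝ) : AddCircle (2 * Real.pi))
  rw [orbC_apply hu x (φ := 0) ⟨by linarith, by linarith⟩] at h
  unfold orb at h
  rw [rot_zero_apply] at h
  have e : (fun m : ℤ => mode m u x) = fun m : ℤ => fourierCoeff (orbC hu x) m •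
      fourier m ((0 : ℝ) : AddCircle (2 * Real.pi)) := by
    ext m
    rw [orbC_coeff, fourier_coe_apply]
    simp
  rw [e]
  exact h

end Vale.Agent.P117
end
end

section

section

open MeasureTheory Complex Set Filter
open scoped ENNReal NNReal ContDiff FourierTransform SchwartzMap ComplexConjugate Topology

namespace Vale.Agent.P117

/-- the rotation field -/
noncomputable def Jl : E3 →ₗ[ℝ] E3 :=
  { toFun := fun x => !₂[- x 1, x 0, 0]
    map_add' := by intro x y; ext i; fin_cases i <;> simp <;> ring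
    map_smul' := by intro c x; ext i; fin_cases i <;> simp }

noncomputable def Jc : E3 →L[ℝ] E3 := LinearMap.toContinuousLinearMap Jl

theorem Jc_apply (x : E3) : Jc x = !₂[- x 1, x 0, 0] := rfl

theorem rot_hasDerivAt (x : E3) (φ : ℝ) : HasDerivAt (fun φ : ℝ => rot φ x) (Jc (rot φ x)) φ := by
  have h1 : (fun φ : ℝ => rot φ x) = fun φ : ℝ => Real.cos φ • (!₂[x 0, x 1, 0] : E3) +
      Real.sin φ • (!₂[- x 1, x 0, 0] : E3) + (!₂[0, 0, x 2] : E3) := by
    ext φ i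
    fin_cases i
    · change rot φ x 0 = _
      rw [rot_zero']
      simp
      ring
    · change rot φ x 1 = _
      rw [rot_one']
      simp
      ring
    · change rot φ x 2 = _
      rw [rot_two']
      simp
  rw [h1]
  have h2 : HasDerivAt (fun φ : ℝ => Real.cos φ • (!₂[x 0, x 1, 0] : E3) +
      Real.sin φ • (!₂[- x 1, x 0, 0] : E3) + (!₂[0, 0, x 2] : E3))
      (-Real.sin φ • (!₂[x 0, x 1, 0] : E3) + Real.cos φ • (!₂[- x 1, x 0, 0] : E3)) φ :=
    (((Real.hasDerivAt_cos φ).smul_const _).add ((Real.hasDerivAt_sin φ).smul_const _)).add_const _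
  have h3 : Jc (rot φ x) = -Real.sin φ • (!₂[x 0, x 1, 0] : E3) + Real.cos φ • (!₂[- x 1, x 0, 0] : E3) := by
    rw [Jc_apply]
    ext i
    fin_cases i
    · simp only [Fin.zero_eta, PiLp.toLp_apply, Matrix.cons_val_zero]
      rw [rot_one']
      simp
      ring
    · simp only [Fin.mk_one, PiLp.toLp_apply, Matrix.cons_val_one, Matrix.cons_val_zero]
      rw [rot_zero']
      simp
      ring
    · simp
  rw [h3]
  exact h2

/-- the angular derivative on Schwartz functions -/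
noncomputable def Dth : 𝓢(E3, ℂ) →L[ℝ] 𝓢(E3, ℂ) :=
  (SchwartzMap.bilinLeftCLM (ContinuousLinearMap.id ℝ (E3 →L[ℝ] ℂ))
    (ContinuousLinearMap.hasTemperateGrowth Jc)).comp (SchwartzMap.fderivCLM ℝ E3 ℂ)

theorem Dth_apply (f : 𝓢(E3, ℂ)) (x : E3) : Dth f x = fderiv ℝ (f : E3 → ℂ) x (Jc x) := rfl

theorem hasDerivAt_orbit (f : 𝓢(E3, ℂ)) (x : E3) (φ : ℝ) :
    HasDerivAt (fun φ : ℝ => f (rot φ x)) (Dth f (rot φ x)) φ := by
  rw [Dth_apply]
  exact (SchwartzMap.hasFDerivAt f (rot φ x)).comp_hasDerivAt φ (rot_hasDerivAt x φ)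

theorem iteratedDeriv_orbit (f : 𝓢(E3, ℂ)) (x : E3) (N : ℕ) (φ : ℝ) :
    iteratedDeriv N (fun φ : ℝ => f (rot φ x)) φ = ((Dth ^ N) f) (rot φ x) := by
  induction N generalizing φ with
  | zero => simp
  | succ n ih =>
    rw [iteratedDeriv_succ]
    have : iteratedDeriv n (fun φ : ℝ => f (rot φ x)) = fun φ => ((Dth ^ n) f) (rot φ x) := by
      ext φ; exact ih φ
    rw [this, (hasDerivAt_orbit _ x φ).deriv, pow_succ']
    rfl

theorem mode_Dth (f : 𝓢(E3, ℂ)) (m : ℤ) (x : E3) :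
    mode m (Dth f : E3 → ℂ) x = (I * m) * mode m (f : E3 → ℂ) x := by
  unfold mode
  rw [mul_smul_comm]
  congr 1
  rw [← intervalIntegral.integral_const_mul, ← sub_eq_zero, ← intervalIntegral.integral_sub]
  · have h1 : ∀ φ ∈ uIcc (-Real.pi) Real.pi,
        HasDerivAt (fun φ : ℝ => cexp (-(I * (m * φ : ℝ))) * f (rot φ x))
        (cexp (-(I * (m * φ : ℝ))) * Dth f (rot φ x) -
          (I * m) * (cexp (-(I * (m * φ : ℝ))) * f (rot φ x))) φ := by
      intro φ _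
      have h2 : HasDerivAt (fun φ : ℝ => cexp (-(I * (m * φ : ℝ)))) (cexp (-(I * (m * φ : ℝ))) * (-(I * m))) φ := by
        have h3 : HasDerivAt (fun φ : ℝ => -(I * ((m * φ : ℝ) : ℂ))) (-(I * m)) φ := by
          have h4 : HasDerivAt (fun φ : ℝ => ((m * φ : ℝ) : ℂ)) (m : ℂ) φ := by
            have := ((hasDerivAt_id φ).const_mul (m : ℝ)).ofReal_comp
            simpa using this
          exact (h4.const_mul I).neg
        exact h3.cexp
      have h5 := h2.mul (hasDerivAt_orbit f x φ)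
      refine h5.congr_deriv ?_
      ring
    rw [intervalIntegral.integral_eq_sub_of_hasDerivAt h1]
    · have e : Real.pi = -Real.pi + 2 * Real.pi := by ring
      have h6 : cexp (-(I * (m * Real.pi : ℝ))) = cexp (-(I * (m * (-Real.pi) : ℝ))) := by
        have := exp_per m (-Real.pi)
        rw [← e] at this
        exact this
      have h7 : rot Real.pi x = rot (-Real.pi) x := by
        have := rot_two_pi (-Real.pi) x
        rw [← e] at this
        exact this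
      rw [h6, h7, sub_self]
    · apply Continuous.intervalIntegrable
      have h8 : Continuous (fun φ : ℝ => f (rot φ x)) := orb_cont f.continuous x
      have h9 : Continuous (fun φ : ℝ => Dth f (rot φ x)) := orb_cont (Dth f).continuous x
      have hc : Continuous (fun φ : ℝ => cexp (-(I * (m * φ : ℝ)))) := by fun_prop
      exact (hc.mul h9).sub (continuous_const.mul (hc.mul h8))
  · apply Continuous.intervalIntegrable
    have h9 : Continuous (fun φ : ℝ => Dth f (rot φ x)) := orb_cont (Dth f).continuous x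
    have hc : Continuous (fun φ : ℝ => cexp (-(I * (m * φ : ℝ)))) := by fun_prop
    exact hc.mul h9
  · apply Continuous.intervalIntegrable
    have h8 : Continuous (fun φ : ℝ => f (rot φ x)) := orb_cont f.continuous x
    have hc : Continuous (fun φ : ℝ => cexp (-(I * (m * φ : ℝ)))) := by fun_prop
    exact continuous_const.mul (hc.mul h8)

theorem mode_Dth_pow (f : 𝓢(E3, ℂ)) (m : ℤ) (N : ℕ) (x : E3) :
    mode m ((Dth ^ N) f : E3 → ℂ) x = (I * m) ^ N * mode m (f : E3 → ℂ) x := by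
  induction N with
  | zero => simp
  | succ n ih =>
    have : (Dth ^ (n + 1)) f = Dth ((Dth ^ n) f) := by rw [pow_succ']; rfl
    rw [this, mode_Dth, ih, pow_succ]
    ring

theorem mode_pow_eLpNorm (f : 𝓢(E3, ℂ)) (m : ℤ) (N : ℕ) {p : ℝ≥0∞} (hp : 1 ≤ p) :
    ENNReal.ofReal (|(m:ℝ)| ^ N) * eLpNorm (mode m f) p volume ≤ eLpNorm ((Dth ^ N) f : E3 → ℂ) p volume := by
  refine le_trans (le_of_eq ?_) (mode_eLpNorm ((Dth ^ N) f).continuous.measurable m hp)
  have : mode m ((Dth ^ N) f : E3 → ℂ) = ((I * m) ^ N : ℂ) • mode m (f : E3 → ℂ) := by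
    ext x; exact mode_Dth_pow f m N x
  rw [this, eLpNorm_const_smul, ← ofReal_norm, norm_pow, norm_mul, Complex.norm_I, one_mul,
    Complex.norm_intCast]

/-- bound of a norm by the sum of the norms of the terms of a series -/
theorem eLpNorm_le_tsum {u : E3 → ℂ} {v : ℤ → E3 → ℂ} (hv : ∀ m, AEStronglyMeasurable (v m) volume)
    (h : ∀ x, HasSum (fun m => v m x) (u x)) {p : ℝ≥0∞} (hp : 1 ≤ p) :
    eLpNorm u p volume ≤ ∑' m, eLpNorm (v m) p volume := by
  obtain ⟨e⟩ : Nonempty (ℕ ≃ ℤ) := ⟨(Denumerable.eqv ℤ).symm⟩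
  have h1 : ∀ x, Tendsto (fun n : ℕ => (∑ i ∈ Finset.range n, v (e i)) x) atTop (𝓝 (u x)) := by
    intro x
    have h2 : HasSum (fun i : ℕ => v (e i) x) (u x) := (e.hasSum_iff (f := fun m => v m x)).2 (h x)
    have h3 := h2.tendsto_sum_nat
    simpa [Finset.sum_apply] using h3
  have h4 := Lp.eLpNorm_lim_le_liminf_eLpNorm (p := p) (μ := (volume : Measure E3))
    (f := fun n : ℕ => ∑ i ∈ Finset.range n, v (e i))
    (fun n => Finset.aestronglyMeasurable_sum _ (fun i _ => hv (e i))) u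
    (Filter.Eventually.of_forall h1)
  refine h4.trans ?_
  have h5 : ∀ n : ℕ, eLpNorm (∑ i ∈ Finset.range n, v (e i)) p volume ≤ ∑' m, eLpNorm (v m) p volume := by
    intro n
    refine (eLpNorm_sum_le (fun i _ => hv (e i)) hp).trans ?_
    calc ∑ i ∈ Finset.range n, eLpNorm (v (e i)) p volume ≤ ∑' i : ℕ, eLpNorm (v (e i)) p volume :=
          ENNReal.sum_le_tsum _
      _ = ∑' m, eLpNorm (v m) p volume := e.tsum_eq (fun m => eLpNorm (v m) p volume)
  exact (Filter.liminf_le_liminf (Filter.Eventually.of_forall h5)).trans (by simp)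

end Vale.Agent.P117
end
end

section

section

open MeasureTheory Complex Set Filter
open scoped ENNReal NNReal ContDiff FourierTransform SchwartzMap ComplexConjugate Topology

namespace Vale.Agent.P117

theorem summable_int_sq : Summable (fun m : ℤ => 1 / (m:ℝ) ^ 2) :=
  Real.summable_one_div_int_pow.2 (by norm_num)

theorem summable_int_inv : Summable (fun m : ℤ => ((1 + |(m:ℝ)|) ^ 2)⁻¹) := by
  refine Summable.of_norm_bounded_eventually summable_int_sq ?_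
  have h0 : ∀ᶠ m : ℤ in cofinite, m ≠ 0 := by
    rw [Filter.eventually_cofinite]
    simp
  filter_upwards [h0] with m hm
  have h1 : (0:ℝ) < |(m:ℝ)| := by positivity
  rw [Real.norm_of_nonneg (by positivity), one_div, ← sq_abs (m:ℝ)]
  gcongr
  linarith

theorem adm_sch (f : 𝓢(E3, ℂ)) : Adm volume (f : E3 → ℂ) :=
  ⟨f.continuous.measurable, f.integrable, _, fun x => SchwartzMap.norm_le_seminorm ℝ f x⟩

theorem fint_sch (f : 𝓢(E3, ℂ)) : Integrable (𝓕 (f : E3 → ℂ)) := by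
  rw [← SchwartzMap.fourier_coe]
  exact (𝓕 f : 𝓢(E3, ℂ)).integrable

theorem brm_norm_le {δ : ℝ} (hδ : 0 ≤ δ) (r : ℝ) (hr : 0 ≤ r) : ‖brm δ r‖ ≤ 1 := by
  unfold brm
  split_ifs with h
  · have h1 : 0 ≤ 1 - r ^ 2 := by nlinarith
    rw [Complex.norm_real, Real.norm_of_nonneg (by positivity)]
    apply Real.rpow_le_one h1 _ hδ
    have : 0 ≤ r ^ 2 := by positivity
    linarith
  · simp

theorem mode_fint (f : 𝓢(E3, ℂ)) (m : ℤ) : Integrable (𝓕 (mode m (f : E3 → ℂ))) := by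
  rw [fourier_mode f.continuous.measurable f.integrable]
  exact mode_int (continuous_fourier f.integrable) (fint_sch f) m

theorem TB_mode_le {δ : ℝ} (hδ : 0 ≤ δ) (f : 𝓢(E3, ℂ)) (m : ℤ) (x : E3) :
    ‖TB δ (mode m (f : E3 → ℂ)) x‖ ≤ ∫ ξ, ‖mode m (𝓕 (f : E3 → ℂ)) ξ‖ := by
  unfold TB
  refine (norm_fourierInv_le _ x).trans ?_
  have h1 := mode_fint f m
  rw [fourier_mode f.continuous.measurable f.integrable] at h1 ⊢
  apply integral_mono_of_nonneg
  · filter_upwards with ξ using norm_nonneg _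
  · exact h1.norm
  · filter_upwards with ξ
    rw [norm_mul]
    have := brm_norm_le hδ ‖ξ‖ (norm_nonneg ξ)
    have h2 : 0 ≤ ‖mode m (𝓕 (f : E3 → ℂ)) ξ‖ := norm_nonneg _
    nlinarith

theorem mode_sq_int (g : 𝓢(E3, ℂ)) (m : ℤ) :
    |(m:ℝ)| ^ 2 * ∫ ξ, ‖mode m (g : E3 → ℂ) ξ‖ ≤ ∫ ξ, ‖(Dth ^ 2) g ξ‖ := by
  have h := mode_pow_eLpNorm g m 2 (p := 1) le_rfl
  rw [eLpNorm_one_eq_lintegral_enorm, eLpNorm_one_eq_lintegral_enorm] at h
  have h1 : ∫⁻ x, ‖mode m (g : E3 → ℂ) x‖ₑ = ENNReal.ofReal (∫ ξ, ‖mode m (g : E3 → ℂ) ξ‖) := by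
    rw [ofReal_integral_norm_eq_lintegral_enorm (mode_int g.continuous g.integrable m)]
  have h2 : ∫⁻ x, ‖(Dth ^ 2) g x‖ₑ = ENNReal.ofReal (∫ ξ, ‖(Dth ^ 2) g ξ‖) := by
    rw [ofReal_integral_norm_eq_lintegral_enorm ((Dth ^ 2) g).integrable]
  rw [h1, h2, ← ENNReal.ofReal_mul (by positivity)] at h
  exact (ENNReal.ofReal_le_ofReal_iff (by positivity)).1 h

theorem TB_mode_summable {δ : ℝ} (hδ : 0 ≤ δ) (f : 𝓢(E3, ℂ)) (x : E3) :
    Summable (fun m : ℤ => TB δ (mode m (f : E3 → ℂ)) x) := by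
  refine Summable.of_norm_bounded_eventually
    (summable_int_sq.mul_left (∫ ξ, ‖(Dth ^ 2) (𝓕 f : 𝓢(E3, ℂ)) ξ‖)) ?_
  have h0 : ∀ᶠ m : ℤ in cofinite, m ≠ 0 := by
    rw [Filter.eventually_cofinite]
    simp
  filter_upwards [h0] with m hm
  have h1 : (0:ℝ) < |(m:ℝ)| := by positivity
  refine (TB_mode_le hδ f m x).trans ?_
  have h2 := mode_sq_int (𝓕 f : 𝓢(E3, ℂ)) m
  rw [SchwartzMap.fourier_coe] at h2
  rw [mul_one_div, ← sq_abs (m:ℝ), le_div_iff₀ (by positivity), mul_comm]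
  exact h2

theorem pow_le_aux (a : ℝ) (ha : 0 ≤ a) (N : ℕ) : (1 + a) ^ N ≤ 2 ^ N * (1 + a ^ N) := by
  rcases le_total a 1 with h | h
  · calc (1 + a) ^ N ≤ 2 ^ N := by gcongr; linarith
      _ ≤ 2 ^ N * (1 + a ^ N) := le_mul_of_one_le_right (by positivity) (by
          have : 0 ≤ a ^ N := by positivity
          linarith)
  · calc (1 + a) ^ N ≤ (2 * a) ^ N := by gcongr; linarith
      _ = 2 ^ N * a ^ N := by rw [mul_pow]
      _ ≤ _ := by gcongr; linarith

/-- the bound for all Schwartz functions with a loss of angular derivatives -/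
theorem all_bound {p : ℝ≥0∞} (hp : 1 ≤ p) {δ : ℝ} (hδ : crit p < δ) :
    ∃ (N : ℕ) (C : ℝ), 0 ≤ C ∧ ∀ f : 𝓢(E3, ℂ),
      eLpNorm (TB δ f) p volume ≤ ENNReal.ofReal C *
        (eLpNorm f p volume + eLpNorm ((Dth ^ N) f : E3 → ℂ) p volume) := by
  have hδ0 : 0 < δ := lt_of_le_of_lt (le_max_right _ _) hδ
  obtain ⟨K, C, hC, h⟩ := mode_bound hp hδ
  have hS := summable_int_inv.mul_left C
  refine ⟨K + 2, (∑' m : ℤ, C * ((1 + |(m:ℝ)|) ^ 2)⁻¹) * 2 ^ (K + 2), by positivity, ?_⟩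
  intro f
  have hf := adm_sch f
  have hF := fint_sch f
  have hu : Continuous (TB δ f) := continuous_fourierInv (TB_int hδ0.le hf.int hF)
  have h1 : ∀ m : ℤ, mode m (TB δ f) = TB δ (mode m (f : E3 → ℂ)) := fun m => mode_TB hδ0.le hf hF m
  have h2 : ∀ x, HasSum (fun m : ℤ => mode m (TB δ f) x) (TB δ f x) := by
    intro x
    apply mode_hasSum hu
    simp_rw [h1]
    exact TB_mode_summable hδ0.le f x
  refine (eLpNorm_le_tsum (fun m => (mode_continuous hu m).aestronglyMeasurable) h2 hp).trans ?_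
  set A := eLpNorm (f : E3 → ℂ) p volume + eLpNorm ((Dth ^ (K + 2)) f : E3 → ℂ) p volume with hA
  have h3 : ∀ m : ℤ, eLpNorm (mode m (TB δ f)) p volume ≤
      ENNReal.ofReal (C * ((1 + |(m:ℝ)|) ^ 2)⁻¹) * (ENNReal.ofReal (2 ^ (K + 2)) * A) := by
    intro m
    rw [h1]
    have h4 := h m (mode m (f : E3 → ℂ)) (mode_adm f.continuous hf m) (mode_fint f m) (mode_equi m _)
    refine h4.trans ?_
    have h5 : C * (1 + |(m:ℝ)|) ^ K = C * ((1 + |(m:ℝ)|) ^ 2)⁻¹ * (1 + |(m:ℝ)|) ^ (K + 2) := by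
      have : (1 + |(m:ℝ)|) ≠ 0 := by positivity
      rw [pow_add]
      field_simp
    rw [h5, ENNReal.ofReal_mul (by positivity), mul_assoc]
    refine mul_le_mul_right ?_ _
    calc ENNReal.ofReal ((1 + |(m:ℝ)|) ^ (K + 2)) * eLpNorm (mode m (f : E3 → ℂ)) p volume ≤
        ENNReal.ofReal (2 ^ (K + 2) * (1 + |(m:ℝ)| ^ (K + 2))) * eLpNorm (mode m (f : E3 → ℂ)) p volume := by
          gcongr
          exact pow_le_aux _ (abs_nonneg _) _
      _ = ENNReal.ofReal (2 ^ (K + 2)) * (eLpNorm (mode m (f : E3 → ℂ)) p volume +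
          ENNReal.ofReal (|(m:ℝ)| ^ (K + 2)) * eLpNorm (mode m (f : E3 → ℂ)) p volume) := by
          rw [ENNReal.ofReal_mul (by positivity), ENNReal.ofReal_add (by positivity) (by positivity),
            ENNReal.ofReal_one]
          ring
      _ ≤ ENNReal.ofReal (2 ^ (K + 2)) * A := by
          rw [hA]
          gcongr
          · exact mode_eLpNorm f.continuous.measurable m hp
          · exact mode_pow_eLpNorm f m (K + 2) hp
  refine (ENNReal.tsum_le_tsum h3).trans (le_of_eq ?_)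
  rw [ENNReal.tsum_mul_right, ← ENNReal.ofReal_tsum_of_nonneg (fun m => by positivity) hS, ← mul_assoc,
    ← ENNReal.ofReal_mul (tsum_nonneg (fun m => by positivity))]

end Vale.Agent.P117
end
end
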